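import Vale.Agent.P284Z.F0.Psh

/-!
# P284Y, block A: the changes of charts are uniformly Lipschitz; three circles, additive form
-/

open scoped Topology
open Filter Set Metric

noncomputable section

namespace Vale.Agent.P284Y.A

open Vale.Agent.P272.K Vale.Agent.P284Z

variable {n : ℕ} {Γ E : Type} [Group Γ] [TopologicalSpace E] [MulAction Γ E]

theorem lip_one [T2Space E] (C : Cov n Γ E) {k : ℝ} (hk : k < 4) (g : Γ) (a b : C.I) :
    ∀ᶠ e : ℝ × ℝ in 𝓝[>] 0 ×ˢ atTop, ∀ z ∈ C.cB k a ∩ C.pt g a ⁻¹' (C.pt 1 b '' C.cB k b), ∀ z',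
      ‖z' - z‖ ≤ e.1 → C.Ov g a b z' ∧ ‖C.tr g a b z' - C.tr g a b z‖ ≤ e.2 * ‖z' - z‖ := by
  have hK : IsCompact (C.cB k a ∩ C.pt g a ⁻¹' (C.pt 1 b '' C.cB k b)) :=
    (C.isCompact_cB k a).of_isClosed_subset
      (((C.continuousOn_pt g a).mono (C.cB_sub_B hk a)).preimage_isClosed_of_isClosed
        (C.isCompact_cB k a).isClosed
        (C.isCompact_image_pt 1 (C.isCompact_cB k b) (C.cB_sub_B hk b)).isClosed) inter_subset_left
  refine hK.induction_on (p := fun S => ∀ᶠ e : ℝ × ℝ in 𝓝[>] 0 ×ˢ atTop, ∀ z ∈ S, ∀ z',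
    ‖z' - z‖ ≤ e.1 → C.Ov g a b z' ∧ ‖C.tr g a b z' - C.tr g a b z‖ ≤ e.2 * ‖z' - z‖)
    (Eventually.of_forall fun _ _ h => h.elim) (fun S T hST h => h.mono fun e he z hz => he z (hST hz))
    (fun S T h h' => (h.and h').mono fun e he z hz => hz.elim (he.1 z) (he.2 z)) ?_
  rintro z ⟨hz, w, hw, e⟩
  have o : C.Ov g a b z := by
    have := (C.Ov_of_eq (C.cB_sub_B hk a hz) (C.cB_sub_B hk b hw) e.symm).1
    rwa [inv_one, one_mul] at this
  obtain ⟨K, -, h1⟩ := C.tr_lip₀ o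
  obtain ⟨ε, hε, h2⟩ := Metric.eventually_nhds_iff_ball.1
    (h1.and (prod_mem_nhds (C.ev_Ov o) (C.ev_Ov o)))
  refine ⟨ball z (ε / 2), mem_nhdsWithin_of_mem_nhds (ball_mem_nhds _ (half_pos hε)), ?_⟩
  filter_upwards [prod_mem_prod (Ioo_mem_nhdsGT (half_pos hε)) (eventually_ge_atTop K)]
    with e he v hv z' hz'
  have h3 : z' ∈ ball z ε := by
    rw [mem_ball_iff_norm] at hv ⊢
    linarith [norm_sub_le_norm_sub_add_norm_sub z' v z, he.1.2]
  have h4 := h2 (z', v) (by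
    rw [← ball_prod_same]
    exact ⟨h3, ball_subset_ball (half_le_self hε.le) hv⟩)
  exact ⟨h4.2.1, h4.1.trans (mul_le_mul_of_nonneg_right he.2 (norm_nonneg _))⟩

/-- the changes of charts are uniformly Lipschitz near the points of the smaller polydiscs -/
theorem lip [T2Space E] (C : Cov n Γ E) {k : ℝ} (hk : k < 4) : ∃ δ > (0 : ℝ), ∃ K ≥ (1 : ℝ),
    ∀ γ a γ' b, ∀ z ∈ C.cB k a, ∀ w ∈ C.cB k b, C.pt γ a z = C.pt γ' b w → ∀ z', ‖z' - z‖ ≤ δ →
      z' ∈ C.B 4 a ∧ ∃ w' ∈ C.B 4 b, C.pt γ a z' = C.pt γ' b w' ∧ ‖w' - w‖ ≤ K * ‖z' - z‖ := by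
  have hfin := C.proper _ (isCompact_iUnion fun a =>
    C.isCompact_image_pt 1 (C.isCompact_cB k a) (C.cB_sub_B hk a))
  have h := (eventually_all_finite hfin).2 fun g _ => eventually_all.2 fun a =>
    eventually_all.2 fun b => lip_one C hk g a b
  obtain ⟨e, h1, h2⟩ := (h.and (prod_mem_prod self_mem_nhdsWithin (eventually_ge_atTop 1))).exists
  refine ⟨e.1, h2.1, e.2, h2.2, fun γ a γ' b z hz w hw h z' hz' => ?_⟩
  have e1 : C.pt (γ'⁻¹ * γ) a z = C.pt 1 b w := by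
    rw [← C.smul_pt, h, C.smul_pt, inv_mul_cancel]
  obtain ⟨o, h3⟩ := h1 (γ'⁻¹ * γ) ⟨C.pt 1 a z, mem_iUnion.2 ⟨a, z, hz, rfl⟩, by
    rw [C.smul_pt, mul_one, e1]
    exact mem_iUnion.2 ⟨b, w, hw, rfl⟩⟩ a b z ⟨hz, w, hw, e1.symm⟩ z' hz'
  refine ⟨o.1, _, C.tr_mem o, ?_, ?_⟩
  · rw [C.pt_tr o, mul_inv_cancel_left]
  · rwa [(C.Ov_of_eq (C.cB_sub_B hk a hz) (C.cB_sub_B hk b hw) h).2] at h3

variable {W : Type} [NormedAddCommGroup W] [NormedSpace ℂ W]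

/-- three circles -/
theorem three {u : W → ℝ} {U : Set W} {z y : W} {r ρ R A B : ℝ} (h : Psh u U) (hb : LB u U)
    (hB : closedBall z R ⊆ U) (hr : 0 < r) (h1 : r ≤ ρ) (h2 : ρ ≤ R) (h3 : r < R) (hAB : A ≤ B)
    (hA : ∀ y ∈ closedBall z r, u y ≤ A) (hB' : ∀ y ∈ closedBall z R, u y ≤ B)
    (hy : y ∈ closedBall z ρ) :
    u y ≤ B - (B - A) * (Real.log (R / ρ) / Real.log (R / r)) := by
  have hρ := hr.trans_le h1
  have hR := hρ.trans_le h2
  have l := Real.log_pos ((one_lt_div hr).2 h3)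
  have l1 := Real.log_nonneg ((one_le_div hρ).2 h2)
  have l2 : Real.log (R / ρ) ≤ Real.log (R / r) :=
    Real.log_le_log (by positivity) (div_le_div_of_nonneg_left hR.le hr h1)
  set θ := Real.log (R / ρ) / Real.log (R / r) with hθ
  have t0 : 0 ≤ θ := div_nonneg l1 l.le
  have t1 : θ ≤ 1 := (div_le_one l).2 l2
  have e : r ^ (1 - (1 - θ)) * R ^ (1 - θ) = ρ := by
    have e1 : θ * (Real.log R - Real.log r) = Real.log R - Real.log ρ := by
      rw [← Real.log_div hR.ne' hr.ne', ← Real.log_div hR.ne' hρ.ne', hθ, div_mul_cancel₀ _ l.ne']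
    rw [Real.rpow_def_of_pos hr, Real.rpow_def_of_pos hR, ← Real.exp_add, ← Real.exp_log hρ]
    congr 1
    linarith
  have h4 := (h.lpsh_exp hb).three hB hr h3.le (Real.exp_pos A) (Real.exp_le_exp.2 hAB)
    (fun y hy => Real.exp_le_exp.2 (hA y hy)) (fun y hy => Real.exp_le_exp.2 (hB' y hy))
    (t := 1 - θ) ⟨by linarith, by linarith⟩ (y := y) (by rwa [e])
  rw [← Real.exp_mul, ← Real.exp_mul, ← Real.exp_add, Real.exp_le_exp] at h4
  linarith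

end Vale.Agent.P284Y.A
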