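import Vale.Agent.P284Y.A.Out
import Vale.Agent.P284Y.A.Lip

/-!
# P284Y, block A: propagation of a well along the fibres (A10)
-/

open scoped Topology
open Filter Set Metric

noncomputable section

namespace Vale.Agent.P284Y.A

open Vale.Agent.P272.K Vale.Agent.P284Z Vale.Agent.P284Y.Lib

variable {n : ℕ} {Γ E : Type} [Group Γ] [TopologicalSpace E] [MulAction Γ E] {C : Cov n Γ E}
  {F : Fol C} (T : Tube F)

namespace Tube

variable {j : T.J} {q : Cm F.d × Cm F.p}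

theorem cm10 (hq : q ∈ (T.Ψ j).target) :
    C.co (T.g j) (T.a j) ((T.Ψ j).symm q) ∈ C.B 2 (T.a j) ∧
      C.pt (T.g j) (T.a j) (C.co (T.g j) (T.a j) ((T.Ψ j).symm q)) = (T.Ψ j).symm q := by
  obtain ⟨z, hz, e⟩ := T.inch j _ ((T.Ψ j).map_target hq)
  rw [e, C.co_pt (C.B_mono (by norm_num) _ hz)]
  exact ⟨hz, rfl⟩

theorem mt10 {t : Cm F.p} (ht : t ∈ ball T.t₁ T.r) {v : Cm F.d} (hv : v ∈ ball (0 : Cm F.d) 4)
    (j : T.J) : (v, t) ∈ (T.Ψ j).target := by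
  rw [T.tgt]
  exact ⟨hv, ht⟩

/-- the restriction to a plaque -/
theorem psh_plq {β : ℝ} {u : E → ℝ} (hβ : 0 ≤ β) (h : QP C β u T.U) (hb : LB u T.U)
    {t : Cm F.p} (ht : t ∈ ball T.t₁ T.r) (j : T.J) :
    Psh (fun v => β * C.ρ (T.a j) (C.co (T.g j) (T.a j) ((T.Ψ j).symm (v, t))) +
      u ((T.Ψ j).symm (v, t))) (ball 0 4) ∧
    LB (fun v => β * C.ρ (T.a j) (C.co (T.g j) (T.a j) ((T.Ψ j).symm (v, t))) +
      u ((T.Ψ j).symm (v, t))) (ball 0 4) := by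
  have h1 : LB (fun z => β * C.ρ (T.a j) z + u (C.pt (T.g j) (T.a j) z))
      {z ∈ C.B 4 (T.a j) | C.pt (T.g j) (T.a j) z ∈ T.U} :=
    (((C.ρ_lb _).mono (sep_subset _ _)).const_mul hβ).add
      (hb.comp ((C.continuousOn_pt _ _).mono (sep_subset _ _)) fun _ hz => hz.2)
  have hd : DifferentiableOn ℂ (fun v => C.co (T.g j) (T.a j) ((T.Ψ j).symm (v, t)))
      (ball (0 : Cm F.d) 4) := fun v hv =>
    (DifferentiableAt.comp (f := fun v : Cm F.d => (v, t)) v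
      (T.holΨ' j _ (T.mt10 ht hv j)).differentiableAt
      (differentiableAt_id.prodMk (differentiableAt_const t))).differentiableWithinAt
  have hm : MapsTo (fun v => C.co (T.g j) (T.a j) ((T.Ψ j).symm (v, t))) (ball (0 : Cm F.d) 4)
      {z ∈ C.B 4 (T.a j) | C.pt (T.g j) (T.a j) z ∈ T.U} := fun v hv => by
    obtain ⟨h2, h3⟩ := T.cm10 (T.mt10 ht hv j)
    exact ⟨C.B_mono (by norm_num) _ h2, h3.symm ▸ T.src j ((T.Ψ j).map_target (T.mt10 ht hv j))⟩
  have e : EqOn (fun v => β * C.ρ (T.a j) (C.co (T.g j) (T.a j) ((T.Ψ j).symm (v, t))) +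
      u ((T.Ψ j).symm (v, t))) (fun v => β * C.ρ (T.a j) (C.co (T.g j) (T.a j)
        ((T.Ψ j).symm (v, t))) + u (C.pt (T.g j) (T.a j) (C.co (T.g j) (T.a j)
          ((T.Ψ j).symm (v, t))))) (ball 0 4) := fun v hv => by
    simp only [(T.cm10 (T.mt10 ht hv j)).2]
  refine ⟨((h _ _).comp h1 (C.isOpen_preimage_pt _ _ T.opn) isOpen_ball hd hm).congr e, ?_⟩
  exact (h1.comp hd.continuousOn hm).ge fun v hv => (e hv).ge

/-- the supremum on the small plaque -/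
def N (u : E → ℝ) (t : Cm F.p) (j : T.J) : ℝ :=
  sSup ((fun v => u ((T.Ψ j).symm (v, t))) '' ball 0 1)

/-- the supremum on the fibre -/
def top (u : E → ℝ) (t : Cm F.p) : ℝ := ⨆ j, T.N u t j

variable {β M : ℝ} {u : E → ℝ} {t : Cm F.p}

theorem le_N (hβ : 0 ≤ β) (h : QP C β u T.U) (hb : LB u T.U) (ht : t ∈ ball T.t₁ T.r)
    {v : Cm F.d} (hv : ‖v‖ < 1) (j : T.J) : u ((T.Ψ j).symm (v, t)) ≤ T.N u t j := by
  obtain ⟨M, -, hM⟩ := C.ρ_bdd (k := 2) (by norm_num)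
  have hs : closedBall (0 : Cm F.d) 1 ⊆ ball 0 4 := closedBall_subset_ball (by norm_num)
  obtain ⟨L, -, hL⟩ := usc_bdd (T.psh_plq hβ h hb ht j).1.1 (isCompact_closedBall 0 1) hs
  refine le_csSup ⟨L + β * M, ?_⟩ ⟨v, mem_ball_zero_iff.2 hv, rfl⟩
  rintro _ ⟨w, hw, rfl⟩
  have h1 := hL w (ball_subset_closedBall hw)
  have h2 := (abs_le.1 (hM _ _ (C.B_sub_cB _ _
    (T.cm10 (T.mt10 ht (hs (ball_subset_closedBall hw)) j)).1))).1
  nlinarith

theorem N_le (j : T.J) : T.N u t j ≤ T.top u t := le_ciSup (finite_range _).bddAbove j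

theorem le_top (hβ : 0 ≤ β) (h : QP C β u T.U) (hb : LB u T.U) {y : E} (hy : y ∈ T.U) :
    u y ≤ T.top u (T.sh y) := by
  obtain ⟨j, h1, h2⟩ := T.cover y hy
  have h3 := T.le_N hβ h hb (T.mem y hy) h2 j
  rw [← T.snd j y h1, Prod.mk.eta, (T.Ψ j).left_inv h1, T.snd j y h1] at h3
  exact h3.trans (T.N_le j)

theorem step (hM : ∀ a, ∀ z ∈ C.cB 2 a, |C.ρ a z| ≤ M) (hβ : 0 ≤ β) (h : QP C β u T.U)
    (hb : LB u T.U) (ht : t ∈ ball T.t₁ T.r) (j : T.J) {v : Cm F.d} (hv : ‖v‖ < 1) {r A : ℝ}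
    (hr : 0 < r) (hr1 : r ≤ 1) (hA : ∀ v' ∈ closedBall v r, u ((T.Ψ j).symm (v', t)) ≤ A) :
    (T.top u t - A) * Real.log (3 / 2) ≤
      (T.top u t - T.N u t j + 2 * β * M) * Real.log (3 / r) := by
  obtain ⟨h1, h2⟩ := T.psh_plq hβ h hb ht j
  have hs : closedBall v 3 ⊆ ball 0 4 := fun w hw => by
    rw [mem_closedBall_iff_norm] at hw
    rw [mem_ball_zero_iff]
    linarith [norm_le_norm_add_norm_sub' w v]
  have hρ : ∀ w ∈ ball (0 : Cm F.d) 4,
      |β * C.ρ (T.a j) (C.co (T.g j) (T.a j) ((T.Ψ j).symm (w, t)))| ≤ β * M := fun w hw => by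
    rw [abs_mul, abs_of_nonneg hβ]
    exact mul_le_mul_of_nonneg_left
      (hM _ _ (C.B_sub_cB _ _ (T.cm10 (T.mt10 ht hw j)).1)) hβ
  have hu : ∀ w ∈ ball (0 : Cm F.d) 4, u ((T.Ψ j).symm (w, t)) ≤ T.top u t := fun w hw => by
    have h3 := (T.Ψ j).map_target (T.mt10 ht hw j)
    have h4 := T.le_top hβ h hb (T.src j h3)
    rwa [← T.snd j _ h3, (T.Ψ j).right_inv (T.mt10 ht hw j)] at h4
  have l : 0 < Real.log (3 / r) := Real.log_pos ((one_lt_div hr).2 (by linarith))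
  have l' : 0 < Real.log (3 / 2) := Real.log_pos (by norm_num)
  have hβM : 0 ≤ β * M := (abs_nonneg _).trans (hρ 0 (mem_ball_self (by norm_num)))
  have hN := T.N_le (u := u) (t := t) j
  rcases le_or_gt (T.top u t) A with e | e
  · exact (mul_nonpos_of_nonpos_of_nonneg (by linarith) l'.le).trans
      (mul_nonneg (by linarith) l.le)
  have h5 : T.N u t j ≤ T.top u t + 2 * β * M -
      (T.top u t - A) * (Real.log (3 / 2) / Real.log (3 / r)) := by
    refine csSup_le (Nonempty.image _ ⟨0, mem_ball_self one_pos⟩) ?_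
    rintro _ ⟨w, hw, rfl⟩
    have hw2 : w ∈ closedBall v 2 := by
      rw [mem_ball_zero_iff] at hw
      rw [mem_closedBall_iff_norm]
      linarith [norm_sub_le w v]
    have h6 := three h1 h2 hs hr (ρ := 2) (by linarith) (by norm_num) (by linarith)
      (A := A + β * M) (B := T.top u t + β * M) (by linarith)
      (fun w hw => by
        linarith [hA w hw, (abs_le.1 (hρ w (hs (closedBall_subset_closedBall
          (by linarith) hw)))).2])
      (fun w hw => by linarith [hu w (hs hw), (abs_le.1 (hρ w (hs hw))).2]) hw2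
    have h7 := (abs_le.1 (hρ w (ball_subset_ball (by norm_num) hw))).1
    have e2 : T.top u t + β * M - (A + β * M) = T.top u t - A := by ring
    rw [e2] at h6
    linarith
  rw [← mul_div_assoc] at h5
  rw [← div_le_iff₀ l]
  linarith

theorem chain (hM : ∀ a, ∀ z ∈ C.cB 2 a, |C.ρ a z| ≤ M) (hM0 : 0 ≤ M) (i j : T.J) :
    ∃ K ≥ (0 : ℝ), ∀ (β : ℝ) (u : E → ℝ) (t : Cm F.p), 0 ≤ β → QP C β u T.U → LB u T.U →
      t ∈ ball T.t₁ T.r → T.top u t - T.N u t j ≤ K * (T.top u t - T.N u t i + β) := by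
  have l' : 0 < Real.log (3 / 2) := Real.log_pos (by norm_num)
  induction T.nerve i j with
  | refl => exact ⟨1, zero_le_one, fun β u t hβ _ _ _ => by linarith⟩
  | @tail j j' _ hadj ih =>
    obtain ⟨K, K0, hK⟩ := ih
    obtain ⟨δ, hδ, v, hv, h3⟩ := hadj
    have l : 0 < Real.log (3 / (δ / 2)) :=
      Real.log_pos ((one_lt_div (half_pos hδ.1)).2 (by linarith [hδ.2]))
    refine ⟨(K + 2 * M) * Real.log (3 / (δ / 2)) / Real.log (3 / 2), by positivity,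
      fun β u t hβ h hb ht => ?_⟩
    have h4 := T.step hM hβ h hb ht j hv (half_pos hδ.1) (by linarith [hδ.2]) (A := T.N u t j')
      fun v' hv' => by
        obtain ⟨h5, h6⟩ := h3 t ht v' (closedBall_subset_ball (half_lt_self hδ.1) hv')
        have h7 := T.le_N hβ h hb ht h6 j'
        have hv4 : v' ∈ ball (0 : Cm F.d) 4 := by
          rw [mem_closedBall_iff_norm] at hv'
          rw [mem_ball_zero_iff]
          linarith [norm_le_norm_add_norm_sub' v' v, hδ.2]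
        have e : t = (T.Ψ j' ((T.Ψ j).symm (v', t))).2 := by
          rw [T.snd j' _ h5, ← T.snd j _ ((T.Ψ j).map_target (T.mt10 ht hv4 j)),
            (T.Ψ j).right_inv (T.mt10 ht hv4 j)]
        have e2 : (T.Ψ j').symm ((T.Ψ j' ((T.Ψ j).symm (v', t))).1, t) = (T.Ψ j).symm (v', t) := by
          rw [show ((T.Ψ j' ((T.Ψ j).symm (v', t))).1, t) = T.Ψ j' ((T.Ψ j).symm (v', t)) from
            Prod.ext rfl e, (T.Ψ j').left_inv h5]
        rwa [e2] at h7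
    have h8 := hK β u t hβ h hb ht
    have h9 := T.N_le (u := u) (t := t) i
    rw [div_mul_eq_mul_div, le_div_iff₀ l', mul_right_comm]
    refine h4.trans (mul_le_mul_of_nonneg_right ?_ l.le)
    nlinarith

theorem deficit (hM : ∀ a, ∀ z ∈ C.cB 2 a, |C.ρ a z| ≤ M) (hM0 : 0 ≤ M) (j : T.J) :
    ∃ K ≥ (0 : ℝ), ∀ (β : ℝ) (u : E → ℝ) (t : Cm F.p), 0 ≤ β → QP C β u T.U → LB u T.U →
      t ∈ ball T.t₁ T.r → T.top u t - T.N u t j ≤ K * β := by
  choose K K0 hK using fun i => T.chain hM hM0 i j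
  obtain ⟨L, hL⟩ := (finite_range K).bddAbove
  refine ⟨L, (K0 j).trans (hL ⟨j, rfl⟩), fun β u t hβ h hb ht => ?_⟩
  have : Nonempty T.J := ⟨j⟩
  obtain ⟨i, hi⟩ := exists_eq_ciSup_of_finite (f := T.N u t)
  have h1 := hK i β u t hβ h hb ht
  rw [show T.top u t - T.N u t i = 0 from sub_eq_zero.2 hi.symm, zero_add] at h1
  exact h1.trans (mul_le_mul_of_nonneg_right (hL ⟨i, rfl⟩) hβ)

/-- the inverse of a box is Lipschitz at a point, in any chart -/
theorem lip_box {γ : Γ} {a : C.I} {z : Cm n} (hz : z ∈ C.B 4 a) (j : T.J)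
    (hx : C.pt γ a z ∈ (T.Ψ j).source) : ∃ K ≥ (1 : ℝ), ∃ δ > (0 : ℝ), ∀ q,
      ‖q - T.Ψ j (C.pt γ a z)‖ < δ →
      ∃ z', ‖z' - z‖ ≤ K * ‖q - T.Ψ j (C.pt γ a z)‖ ∧ (T.Ψ j).symm q = C.pt γ a z' := by
  have hq := (T.Ψ j).map_source hx
  have e0 := (T.Ψ j).left_inv hx
  obtain ⟨h1, h2⟩ := T.cm10 hq
  have h3 : AnalyticAt ℂ (fun w => C.co γ a (C.pt (T.g j) (T.a j) w))
      (C.co (T.g j) (T.a j) ((T.Ψ j).symm (T.Ψ j (C.pt γ a z)))) :=
    C.holOn_co γ a _ _ _ (C.B_mono (by norm_num) _ h1) (by rw [h2, e0]; exact C.pt_mem hz γ)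
  have h4 : AnalyticAt ℂ (fun q => C.co γ a ((T.Ψ j).symm q)) (T.Ψ j (C.pt γ a z)) := by
    refine (h3.comp_of_eq (T.holΨ' j _ hq) rfl).congr ?_
    filter_upwards [(T.Ψ j).open_target.mem_nhds hq] with q hq'
    simp only [Function.comp, (T.cm10 hq').2]
  obtain ⟨K, s, hs, hK⟩ := (h4.contDiffAt (n := 1)).exists_lipschitzOnWith
  have h5 : ∀ᶠ q in 𝓝 (T.Ψ j (C.pt γ a z)), (T.Ψ j).symm q ∈ (C.ch γ a).source :=
    ((T.Ψ j).continuousAt_symm hq).eventually_mem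
      ((C.ch γ a).open_source.mem_nhds (by rw [e0]; exact C.pt_mem hz γ))
  obtain ⟨δ, hδ, h6⟩ := Metric.eventually_nhds_iff_ball.1 (h5.and hs)
  refine ⟨K + 1, by linarith [K.2], δ, hδ, fun q hq' => ⟨_, ?_, (C.pt_co
    (h6 q (mem_ball_iff_norm.2 hq')).1).symm⟩⟩
  have h7 := hK.norm_sub_le (h6 q (mem_ball_iff_norm.2 hq')).2 (mem_of_mem_nhds hs)
  rw [e0, C.co_pt hz] at h7
  exact h7.trans (by nlinarith [norm_nonneg (q - T.Ψ j (C.pt γ a z))])

end Tube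

theorem a10 : A10St := by
  intro n Γ E _ _ _ _ C F T γ a z hz hx
  obtain ⟨M, M0, hM⟩ := C.ρ_bdd (k := 2) (by norm_num)
  obtain ⟨j, h1, h2⟩ := T.cover _ hx
  obtain ⟨K, K0, hK⟩ := T.deficit hM M0.le j
  obtain ⟨L, L1, δ, hδ, hL⟩ := T.lip_box hz j h1
  have L0 : 0 < L := by linarith
  have l' : 0 < Real.log (3 / 2) := Real.log_pos (by norm_num)
  have l : 0 ≤ Real.log (3 * L) := Real.log_nonneg (by linarith)
  refine ⟨(K + 2 * M) * (Real.log (3 * L) + 1) / Real.log (3 / 2), L⁻¹,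
    max 1 (1 - 2 * Real.log δ), by positivity, by positivity, le_max_left _ _,
    fun β u X S hβ h hb hS hX y hy hyx => ?_⟩
  have S1 : 1 ≤ S := (le_max_left _ _).trans hS
  have e1 : Real.exp (-S / 2) < δ := by
    rw [← Real.exp_log hδ, Real.exp_lt_exp]
    linarith [(le_max_right _ _).trans hS]
  have e2 : Real.exp (-S / 2) ≤ 1 := Real.exp_le_one_iff.2 (by linarith)
  have e0 := Real.exp_pos (-S / 2)
  have e3 : L⁻¹ * Real.exp (-S / 2) ≤ Real.exp (-S / 2) :=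
    mul_le_of_le_one_left e0.le (inv_le_one_of_one_le₀ L1)
  have h3 := T.step hM hβ h hb (T.mem y hy) j h2 (r := L⁻¹ * Real.exp (-S / 2)) (A := -X)
    (by positivity) (e3.trans e2) fun v hv => by
      have h4 : ‖(v, T.sh y) - T.Ψ j (C.pt γ a z)‖ ≤ L⁻¹ * Real.exp (-S / 2) := by
        rw [Prod.norm_def, max_le_iff, Prod.fst_sub, Prod.snd_sub, T.snd j _ h1]
        exact ⟨mem_closedBall_iff_norm.1 hv, hyx⟩
      obtain ⟨z', h5, h6⟩ := hL _ ((h4.trans e3).trans_lt e1)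
      rw [h6]
      refine hX z' (mem_closedBall_iff_norm.2 (h5.trans ?_))
      rw [← mul_inv_cancel_left₀ L0.ne' (Real.exp (-S / 2))]
      exact mul_le_mul_of_nonneg_left h4 L0.le
  have e4 : Real.log (3 / (L⁻¹ * Real.exp (-S / 2))) = Real.log (3 * L) + S / 2 := by
    rw [div_mul_eq_div_div, div_inv_eq_mul, Real.log_div (by positivity) e0.ne', Real.log_exp]
    ring
  have h7 := hK β u _ hβ h hb (T.mem y hy)
  have h8 := T.le_top hβ h hb hy
  have h9 : (T.top u (T.sh y) - -X) * Real.log (3 / 2) ≤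
      (K + 2 * M) * β * ((Real.log (3 * L) + 1) * S) := by
    refine h3.trans ?_
    rw [e4]
    exact mul_le_mul (by linarith) (by nlinarith) (by positivity) (by positivity)
  rw [← le_div_iff₀ l'] at h9
  have e5 : (K + 2 * M) * β * ((Real.log (3 * L) + 1) * S) / Real.log (3 / 2) =
      (K + 2 * M) * (Real.log (3 * L) + 1) / Real.log (3 / 2) * β * S := by ring
  linarith

end Vale.Agent.P284Y.A
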