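import Vale.Agent.P284Y.A.Out

/-!
# P284Y, block A: operations on tubes
-/

open scoped ContDiff Topology ComplexOrder
open Filter Set Function Metric MeasureTheory

noncomputable section

namespace Vale.Agent.P284Y.A

open Vale.Agent.P272.K Vale.Agent.P284Z Vale.Agent.P284Y.Lib

variable {n : ℕ} {Γ E : Type} [Group Γ] [TopologicalSpace E] [MulAction Γ E] {C : Cov n Γ E}
  {F : Fol C}

namespace Tube

variable (T : Tube F) {j : T.J} {x y : E} {t : Cm F.p} {u : Cm F.d}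

theorem mem_tgt (hu : u ∈ ball (0 : Cm F.d) 4) (ht : t ∈ ball T.t₁ T.r) :
    (u, t) ∈ (T.Ψ j).target := T.tgt j ▸ ⟨hu, ht⟩

theorem fst_mem (hy : y ∈ (T.Ψ j).source) : (T.Ψ j y).1 ∈ ball (0 : Cm F.d) 4 :=
  (T.tgt j ▸ (T.Ψ j).map_source hy).1

theorem symm_mem {v : Cm F.d × Cm F.p} (hv : v ∈ (T.Ψ j).target) : (T.Ψ j).symm v ∈ T.U :=
  T.src j ((T.Ψ j).map_target hv)

theorem sh_symm {v : Cm F.d × Cm F.p} (hv : v ∈ (T.Ψ j).target) :
    T.sh ((T.Ψ j).symm v) = v.2 := by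
  rw [← T.snd j _ ((T.Ψ j).map_target hv), (T.Ψ j).right_inv hv]

theorem symm_eq (hy : y ∈ (T.Ψ j).source) : (T.Ψ j).symm ((T.Ψ j y).1, T.sh y) = y := by
  rw [← T.snd j y hy, (T.Ψ j).left_inv hy]

theorem co_mem (hy : y ∈ (T.Ψ j).source) :
    C.co (T.g j) (T.a j) y ∈ C.B 2 (T.a j) ∧ C.pt (T.g j) (T.a j) (C.co (T.g j) (T.a j) y) = y := by
  obtain ⟨z, hz, rfl⟩ := T.inch j y hy
  rw [C.co_pt (C.B_mono (show (2 : ℝ) ≤ 4 by norm_num) _ hz)]
  exact ⟨hz, rfl⟩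

theorem co_mem₄ (hy : y ∈ (T.Ψ j).source) : C.co (T.g j) (T.a j) y ∈ C.B 4 (T.a j) :=
  C.B_mono (by norm_num) _ (T.co_mem hy).1

theorem contAt (hy : y ∈ T.U) : ContinuousAt T.sh y := T.hol.continuousAt C hy

theorem contOn : ContinuousOn T.sh T.U := fun _ hy => (T.contAt hy).continuousWithinAt

theorem isOpen_pre {O : Set (Cm F.p)} (hO : IsOpen O) : IsOpen {y ∈ T.U | T.sh y ∈ O} :=
  T.contOn.isOpen_inter_preimage T.opn hO

/-- `sh` is proper -/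
theorem cpt_of {K : Set (Cm F.p)} (hK : IsCompact K) (h : K ⊆ ball T.t₁ T.r) :
    IsCompact {y ∈ T.U | T.sh y ∈ K} := by
  obtain ⟨r', h1, h2⟩ := exists_lt_subset_ball hK.isClosed h
  have h3 := T.cpt r' h1
  have e : {y ∈ T.U | T.sh y ∈ K} = {y ∈ T.U | ‖T.sh y - T.t₁‖ ≤ r'} ∩ T.sh ⁻¹' K :=
    Set.ext fun y => ⟨fun hy => ⟨⟨hy.1, (mem_ball_iff_norm.1 (h2 hy.2)).le⟩, hy.2⟩,
      fun hy => ⟨hy.1.1, hy.2⟩⟩
  obtain ⟨S, hS, e'⟩ := continuousOn_iff_isClosed.1 (T.contOn.mono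
    (show {y ∈ T.U | ‖T.sh y - T.t₁‖ ≤ r'} ⊆ T.U from fun _ hy => hy.1)) K hK.isClosed
  rw [e, inter_comm, e', inter_comm]
  exact h3.inter_right hS

theorem cpt_fibre (ht : t ∈ ball T.t₁ T.r) : IsCompact {y ∈ T.U | T.sh y = t} :=
  T.cpt_of isCompact_singleton (singleton_subset_iff.2 ht)

theorem nonempty_J : Nonempty T.J := by
  obtain ⟨y, hy, -⟩ := (T.conn _ (mem_ball_self T.r_pos)).nonempty
  exact ⟨(T.cover y hy).choose⟩

/-- a fixed product chart -/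
def j₀ : T.J := T.nonempty_J.some

/-- a holomorphic section of `sh` -/
def sec (t : Cm F.p) : E := (T.Ψ T.j₀).symm (0, t)

theorem sec_tgt (ht : t ∈ ball T.t₁ T.r) : ((0, t) : Cm F.d × Cm F.p) ∈ (T.Ψ T.j₀).target :=
  T.mem_tgt (mem_ball_self four_pos) ht

theorem sec_mem (ht : t ∈ ball T.t₁ T.r) : T.sec t ∈ T.U := T.symm_mem (T.sec_tgt ht)

theorem sh_sec (ht : t ∈ ball T.t₁ T.r) : T.sh (T.sec t) = t := T.sh_symm (T.sec_tgt ht)

/-! ### functions read in the product charts -/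

theorem an_symm {W : Type} [NormedAddCommGroup W] [NormedSpace ℂ W] {f : E → W} {Ω : Set E}
    (hf : C.HolOn f Ω) {v : Cm F.d × Cm F.p} (hv : v ∈ (T.Ψ j).target) (h : (T.Ψ j).symm v ∈ Ω) :
    AnalyticAt ℂ (fun w => f ((T.Ψ j).symm w)) v := by
  have hm := (T.Ψ j).map_target hv
  refine ((hf _ _ _ (T.co_mem₄ hm) (by rwa [(T.co_mem hm).2])).comp_of_eq
    (T.holΨ' j v hv) rfl).congr ?_
  filter_upwards [(T.Ψ j).open_target.mem_nhds hv] with w hw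
  simp only [Function.comp_apply, (T.co_mem ((T.Ψ j).map_target hw)).2]

theorem sm_symm {W : Type} [NormedAddCommGroup W] [NormedSpace ℝ W] {f : E → W}
    {v : Cm F.d × Cm F.p} (hv : v ∈ (T.Ψ j).target) (hf : C.SmAt f ((T.Ψ j).symm v)) :
    ContDiffAt ℝ ∞ (fun w => f ((T.Ψ j).symm w)) v := by
  have hm := (T.Ψ j).map_target hv
  refine (ContDiffAt.comp (f := fun w => C.co (T.g j) (T.a j) ((T.Ψ j).symm w)) v
    (hf _ _ _ (T.co_mem₄ hm) (T.co_mem hm).2)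
    ((T.holΨ' j v hv).contDiffAt.restrict_scalars ℝ)).congr_of_eventuallyEq ?_
  filter_upwards [(T.Ψ j).open_target.mem_nhds hv] with w hw
  simp only [Function.comp_apply, (T.co_mem ((T.Ψ j).map_target hw)).2]

theorem isOpen_ch (γ : Γ) (a : C.I) : IsOpen {z ∈ C.B 4 a | C.pt γ a z ∈ T.U} :=
  C.isOpen_preimage_pt γ a T.opn

theorem maps_co (j : T.J) : MapsTo (fun w => C.co (T.g j) (T.a j) ((T.Ψ j).symm w))
    (T.Ψ j).target {z ∈ C.B 4 (T.a j) | C.pt (T.g j) (T.a j) z ∈ T.U} := fun _ hw =>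
  ⟨T.co_mem₄ ((T.Ψ j).map_target hw), (T.co_mem ((T.Ψ j).map_target hw)).2.symm ▸ T.symm_mem hw⟩

theorem lb_ch {f : E → ℝ} (hb : LB f T.U) (γ : Γ) (a : C.I) :
    LB (fun z => f (C.pt γ a z)) {z ∈ C.B 4 a | C.pt γ a z ∈ T.U} :=
  hb.comp ((C.continuousOn_pt γ a).mono fun _ hz => hz.1) fun _ hz => hz.2

theorem lb_symm {f : E → ℝ} (hb : LB f T.U) (j : T.J) :
    LB (fun w => f ((T.Ψ j).symm w)) (T.Ψ j).target :=
  hb.comp (T.Ψ j).continuousOn_symm fun _ hw => T.symm_mem hw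

theorem psh_symm {f : E → ℝ}
    (hf : ∀ γ a, Psh (fun z => f (C.pt γ a z)) {z ∈ C.B 4 a | C.pt γ a z ∈ T.U}) (hb : LB f T.U)
    (j : T.J) : Psh (fun w => f ((T.Ψ j).symm w)) (T.Ψ j).target :=
  ((hf _ _).comp (T.lb_ch hb _ _) (T.isOpen_ch _ _) (T.Ψ j).open_target
    (T.holΨ' j).differentiableOn (T.maps_co j)).congr fun _ hw => by
      simp only [(T.co_mem ((T.Ψ j).map_target hw)).2]

theorem lpsh_symm {P : E → ℝ}
    (hP : ∀ γ a, LPsh (fun z => P (C.pt γ a z)) {z ∈ C.B 4 a | C.pt γ a z ∈ T.U}) (j : T.J) :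
    LPsh (fun w => P ((T.Ψ j).symm w)) (T.Ψ j).target :=
  ((hP _ _).comp (T.isOpen_ch _ _) (T.Ψ j).open_target
    (T.holΨ' j).differentiableOn (T.maps_co j)).congr fun _ hw => by
      simp only [(T.co_mem ((T.Ψ j).map_target hw)).2]

/-! ### functions are constant on the fibres -/

theorem psh_plaque {f : E → ℝ}
    (hf : ∀ γ a, Psh (fun z => f (C.pt γ a z)) {z ∈ C.B 4 a | C.pt γ a z ∈ T.U}) (hb : LB f T.U)
    (j : T.J) (ht : t ∈ ball T.t₁ T.r) :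
    Psh (fun u => f ((T.Ψ j).symm (u, t))) (ball 0 4) ∧
      LB (fun u => f ((T.Ψ j).symm (u, t))) (ball 0 4) :=
  ⟨(T.psh_symm hf hb j).comp (g := fun u : Cm F.d => (u, t)) (T.lb_symm hb j) (T.Ψ j).open_target
    isOpen_ball (by fun_prop) fun _ hu => T.mem_tgt hu ht,
    (T.lb_symm hb j).comp (g := fun u : Cm F.d => (u, t)) (by fun_prop) fun _ hu => T.mem_tgt hu ht⟩

/-- plurisubharmonic functions are constant on the fibres -/
theorem psh_const {f : E → ℝ}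
    (hf : ∀ γ a, Psh (fun z => f (C.pt γ a z)) {z ∈ C.B 4 a | C.pt γ a z ∈ T.U}) (hb : LB f T.U)
    (hx : x ∈ T.U) (hy : y ∈ T.U) (h : T.sh x = T.sh y) : f x = f y := by
  have ht := T.mem y hy
  set t := T.sh y
  have hu : UpperSemicontinuousOn f T.U := fun w hw s hs => by
    obtain ⟨j, hj, -⟩ := T.cover w hw
    have h1 := (T.psh_symm hf hb j).1 _ ((T.Ψ j).map_source hj) s
      (by simpa only [(T.Ψ j).left_inv hj] using hs)
    rw [(T.Ψ j).open_target.nhdsWithin_eq ((T.Ψ j).map_source hj)] at h1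
    refine mem_nhdsWithin_of_mem_nhds ?_
    filter_upwards [((T.Ψ j).continuousAt hj).eventually h1, (T.Ψ j).open_source.mem_nhds hj]
      with v v1 v2
    rwa [(T.Ψ j).left_inv v2] at v1
  obtain ⟨m, hm, hM⟩ := (hu.mono fun _ hw => hw.1).exists_isMaxOn (T.conn t ht).nonempty
    (T.cpt_fibre ht)
  have key : ∀ j, ∀ w ∈ (T.Ψ j).source, T.sh w = t → f w = f m →
      ∀ v ∈ (T.Ψ j).source, T.sh v = t → f v = f m := fun j w hw h1 h2 v hv h3 => by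
    obtain ⟨p1, p2⟩ := T.psh_plaque hf hb j ht
    have e := p1.eq_of_max p2 isOpen_ball (convex_ball _ _).isPreconnected (T.fst_mem hw)
      (fun u hu => by
        rw [← h1, T.symm_eq hw, h2, h1]
        exact hM (a := (T.Ψ j).symm (u, t))
          ⟨T.symm_mem (T.mem_tgt hu ht), T.sh_symm (T.mem_tgt hu ht)⟩) _ (T.fst_mem hv)
    rw [← h2, ← T.symm_eq hw, ← T.symm_eq hv, h1, h3]
    exact e
  have all : ∀ w ∈ {y ∈ T.U | T.sh y = t}, f w = f m := fun w hw =>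
    (T.conn t ht).isPreconnected.induction₂' (fun v w => f v = f m → f w = f m) (fun v hv => by
      obtain ⟨j, hj, -⟩ := T.cover v hv.1
      filter_upwards [mem_nhdsWithin_of_mem_nhds ((T.Ψ j).open_source.mem_nhds hj),
        self_mem_nhdsWithin] with w w1 w2
      exact ⟨fun e => key j v hj hv.2 e w w1 w2.2, fun e => key j w w1 w2.2 e v hj hv.2⟩)
      (fun _ _ _ _ _ _ h1 h2 e => h2 (h1 e)) hm hw rfl
  exact (all x ⟨hx, h⟩).trans (all y ⟨hy, rfl⟩).symm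

theorem lpsh_const {P : E → ℝ}
    (hP : ∀ γ a, LPsh (fun z => P (C.pt γ a z)) {z ∈ C.B 4 a | C.pt γ a z ∈ T.U})
    (hx : x ∈ T.U) (hy : y ∈ T.U) (h : T.sh x = T.sh y) : P x = P y := by
  refine T.psh_const (fun γ a => (hP γ a).psh) (.of_le 0 fun w hw => ?_) hx hy h
  obtain ⟨γ, a, z, hz, rfl⟩ := C.exists_pt w
  exact (hP γ a).1 z ⟨C.B14 hz, hw⟩

theorem qp_const {f : E → ℝ} (hf : QP C 0 f T.U) (hb : LB f T.U) (hx : x ∈ T.U) (hy : y ∈ T.U)
    (h : T.sh x = T.sh y) : f x = f y :=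
  T.psh_const (fun γ a => by simpa only [zero_mul, zero_add] using hf γ a) hb hx hy h

/-- holomorphic maps are constant on the fibres -/
theorem hol_const {W : Type} [NormedAddCommGroup W] [NormedSpace ℂ W] {f : E → W}
    (hf : C.HolOn f T.U) (hx : x ∈ T.U) (hy : y ∈ T.U) (h : T.sh x = T.sh y) : f x = f y := by
  have key : ∀ L : W →L[ℂ] ℂ, (L (f x)).re = (L (f y)).re := fun L =>
    T.psh_const (f := fun w => (L (f w)).re) (fun γ a => psh_re (T.isOpen_ch γ a) fun z hz =>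
      ((L.analyticAt _).comp (hf γ a z hz.1 hz.2)).differentiableAt.differentiableWithinAt)
      (.of_cont fun w hw => (Complex.continuous_re.continuousAt.comp
        (L.continuous.continuousAt.comp (hf.continuousAt C hw))).continuousWithinAt) hx hy h
  refine (SeparatingDual.eq_iff_forall_dual_eq (R := ℂ)).2 fun L => Complex.ext (key L) ?_
  simpa using key (Complex.I • L)

/-! ### descent to the base -/

theorem an_sec {W : Type} [NormedAddCommGroup W] [NormedSpace ℂ W] {f : E → W}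
    (hf : C.HolOn f T.U) : AnalyticOnNhd ℂ (fun t => f (T.sec t)) (ball T.t₁ T.r) := fun _ ht =>
  (T.an_symm hf (T.sec_tgt ht) (T.sec_mem ht)).comp (f := fun t : Cm F.p => (0, t))
    (analyticAt_const.prod analyticAt_id)

theorem hol_sec {W : Type} [NormedAddCommGroup W] [NormedSpace ℂ W] {f : E → W}
    (hf : C.HolOn f T.U) (hy : y ∈ T.U) : f (T.sec (T.sh y)) = f y :=
  T.hol_const hf (T.sec_mem (T.mem y hy)) hy (T.sh_sec (T.mem y hy))

theorem psh_sec {f : E → ℝ}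
    (hf : ∀ γ a, Psh (fun z => f (C.pt γ a z)) {z ∈ C.B 4 a | C.pt γ a z ∈ T.U}) (hb : LB f T.U) :
    Psh (fun t => f (T.sec t)) (ball T.t₁ T.r) ∧ LB (fun t => f (T.sec t)) (ball T.t₁ T.r) ∧
      ∀ y ∈ T.U, f (T.sec (T.sh y)) = f y :=
  ⟨(T.psh_symm hf hb _).comp (g := fun t : Cm F.p => (0, t)) (T.lb_symm hb _)
    (T.Ψ _).open_target isOpen_ball (by fun_prop) fun _ ht => T.sec_tgt ht,
    (T.lb_symm hb _).comp (g := fun t : Cm F.p => (0, t)) (by fun_prop) fun _ ht => T.sec_tgt ht,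
    fun y hy => T.psh_const hf hb (T.sec_mem (T.mem y hy)) hy (T.sh_sec (T.mem y hy))⟩

theorem lpsh_sec {P : E → ℝ}
    (hP : ∀ γ a, LPsh (fun z => P (C.pt γ a z)) {z ∈ C.B 4 a | C.pt γ a z ∈ T.U}) :
    LPsh (fun t => P (T.sec t)) (ball T.t₁ T.r) ∧ ∀ y ∈ T.U, P (T.sec (T.sh y)) = P y :=
  ⟨(T.lpsh_symm hP _).comp (g := fun t : Cm F.p => (0, t)) (T.Ψ _).open_target isOpen_ball
    (by fun_prop) fun _ ht => T.sec_tgt ht,
    fun y hy => T.lpsh_const hP (T.sec_mem (T.mem y hy)) hy (T.sh_sec (T.mem y hy))⟩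

/-! ### restriction and translation -/

/-- the tube over a smaller ball -/
def res (t : Cm F.p) (ρ : ℝ) (hρ : 0 < ρ) (h : ball t ρ ⊆ ball T.t₁ T.r) : Tube F where
  U := {y ∈ T.U | T.sh y ∈ ball t ρ}
  sh := T.sh
  t₁ := t
  r := ρ
  r_pos := hρ
  opn := T.isOpen_pre isOpen_ball
  hol := fun γ a z hz hy => T.hol γ a z hz hy.1
  mem := fun _ hy => hy.2
  surj := fun γ a z hz hy => T.surj γ a z hz hy.1
  ker := fun γ a z hz hy => T.ker γ a z hz hy.1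
  cpt := fun r' hr' => by
    have h1 : closedBall t r' ⊆ ball t ρ := closedBall_subset_ball hr'
    convert T.cpt_of (isCompact_closedBall t r') (h1.trans h) using 1
    exact Set.ext fun y => ⟨fun hy => ⟨hy.1.1, mem_closedBall_iff_norm.2 hy.2⟩,
      fun hy => ⟨⟨hy.1, h1 hy.2⟩, mem_closedBall_iff_norm.1 hy.2⟩⟩
  conn := fun s hs => by
    convert T.conn s (h hs) using 1
    exact Set.ext fun y => ⟨fun hy => ⟨hy.1.1, hy.2⟩, fun hy => ⟨⟨hy.1, hy.2 ▸ hs⟩, hy.2⟩⟩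
  J := T.J
  fin := T.fin
  Ψ := fun j => (T.Ψ j).restrOpen _ (T.isOpen_pre (isOpen_ball (x := t) (ε := ρ)))
  tgt := fun j => Set.ext fun v => ⟨fun hv => ⟨(T.tgt j ▸ hv.1).1, T.sh_symm hv.1 ▸ hv.2.2⟩,
    fun hv => by
      have h1 : v ∈ (T.Ψ j).target := T.mem_tgt hv.1 (h hv.2)
      exact ⟨h1, T.symm_mem h1, (T.sh_symm h1).symm ▸ hv.2⟩⟩
  src := fun _ _ hy => hy.2
  snd := fun j y hy => T.snd j y hy.1
  g := T.g
  a := T.a
  inch := fun j y hy => T.inch j y hy.1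
  holΨ := fun j γ a z hz hy => T.holΨ j γ a z hz hy.1
  holΨ' := fun j v hv => T.holΨ' j v hv.1
  cover := fun y hy => (T.cover y hy.1).imp fun _ hj => ⟨⟨hj.1, hy⟩, hj.2⟩
  nerve := fun i j => by
    refine Relation.ReflTransGen.mono ?_ _ _ (T.nerve i j)
    rintro i j ⟨δ, hδ, u, hu, H⟩
    refine ⟨δ, hδ, u, hu, fun s hs u' hu' => ?_⟩
    obtain ⟨h1, h2⟩ := H s (h hs) u' hu'
    have h3 : (u', s) ∈ (T.Ψ i).target := T.mem_tgt (mem_ball_zero_iff.2 (by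
      linarith [norm_le_norm_add_norm_sub' u' u, mem_ball_iff_norm.1 hu', hδ.2])) (h hs)
    exact ⟨⟨h1, T.symm_mem h3, (T.sh_symm h3).symm ▸ hs⟩, h2⟩

/-- the action of `γ` as a homeomorphism -/
def _root_.Vale.Agent.P284Y.A.smulH (C : Cov n Γ E) (γ : Γ) : E ≃ₜ E where
  toEquiv := MulAction.toPerm γ
  continuous_toFun := C.cont γ
  continuous_invFun := C.cont γ⁻¹

theorem _root_.Vale.Agent.P284Y.A.dch_smul {p : ℕ} (s : E → Cm p) (γ δ : Γ) (a : C.I) (z : Cm n) :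
    dch C (fun y => s (γ • y)) δ a z = dch C s (γ * δ) a z := by
  simp only [dch, C.smul_pt]

/-- the translated tube -/
def smul (γ : Γ) : Tube F where
  U := {y | γ⁻¹ • y ∈ T.U}
  sh := fun y => T.sh (γ⁻¹ • y)
  t₁ := T.t₁
  r := T.r
  r_pos := T.r_pos
  opn := T.opn.preimage (C.cont γ⁻¹)
  hol := T.hol.smul C γ⁻¹
  mem := fun _ hy => T.mem _ hy
  surj := fun δ a z hz hy => by
    rw [dch_smul]
    exact T.surj _ a z hz (C.smul_pt _ _ a z ▸ hy)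
  ker := fun δ a z hz hy hO => by
    rw [dch_smul]
    exact T.ker _ a z hz (C.smul_pt _ _ a z ▸ hy) (C.smul_pt _ _ a z ▸ F.inv γ⁻¹ _ hO)
  cpt := fun r' hr' => (smulH C γ⁻¹).isCompact_preimage.2 (T.cpt r' hr')
  conn := fun s hs => (smulH C γ⁻¹).isConnected_preimage.2 (T.conn s hs)
  J := T.J
  fin := T.fin
  Ψ := fun j => (smulH C γ⁻¹).transOpenPartialHomeomorph (T.Ψ j)
  tgt := T.tgt
  src := fun j _ hy => T.src j hy
  snd := fun j _ hy => T.snd j _ hy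
  g := fun j => γ * T.g j
  a := T.a
  inch := fun j y hy => by
    obtain ⟨z, hz, e⟩ := T.inch j _ hy
    refine ⟨z, hz, ?_⟩
    rw [← C.smul_pt, ← e]
    exact (smul_inv_smul γ y).symm
  holΨ := fun j => (T.holΨ j).smul C γ⁻¹
  holΨ' := fun j => by
    change AnalyticOnNhd ℂ (fun v => C.co _ _ (γ⁻¹⁻¹ • (T.Ψ j).symm v)) (T.Ψ j).target
    simpa only [inv_inv, C.co_smul] using T.holΨ' j
  cover := fun _ hy => T.cover _ hy
  nerve := fun i j => by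
    refine Relation.ReflTransGen.mono ?_ _ _ (T.nerve i j)
    rintro i j ⟨δ, hδ, u, hu, H⟩
    refine ⟨δ, hδ, u, hu, fun s hs u' hu' => ?_⟩
    change γ⁻¹ • γ⁻¹⁻¹ • (T.Ψ i).symm (u', s) ∈ (T.Ψ j).source ∧
      ‖(T.Ψ j (γ⁻¹ • γ⁻¹⁻¹ • (T.Ψ i).symm (u', s))).1‖ < 1
    rw [smul_inv_smul]
    exact H s hs u' hu'

/-! ### a partition of unity along the fibres -/

theorem smAt_cont {W : Type} [NormedAddCommGroup W] [NormedSpace ℝ W] {f : E → W}
    (hf : C.SmAt f y) : ContinuousAt f y := by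
  obtain ⟨γ, a, z, hz, rfl⟩ := C.exists_pt y
  rw [ContinuousAt, ← C.map_pt' (C.B14 hz), tendsto_map'_iff]
  exact (hf γ a z (C.B14 hz) rfl).continuousAt

open Classical in
/-- a function of the plaque coordinate, extended by zero -/
def ext (j : T.J) (χ : Cm F.d → ℝ) (y : E) : ℝ :=
  if y ∈ (T.Ψ j).source then χ (T.Ψ j y).1 else 0

theorem ext_of_mem {χ : Cm F.d → ℝ} (hy : y ∈ (T.Ψ j).source) :
    T.ext j χ y = χ (T.Ψ j y).1 := if_pos hy

theorem ext_ne {χ : Cm F.d → ℝ} (h : T.ext j χ y ≠ 0) :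
    y ∈ (T.Ψ j).source ∧ χ (T.Ψ j y).1 ≠ 0 := by
  by_cases hy : y ∈ (T.Ψ j).source
  · exact ⟨hy, by rwa [T.ext_of_mem hy] at h⟩
  · exact (h (if_neg hy)).elim

theorem ext_sm [T2Space E] {χ : Cm F.d → ℝ} (hχ : ContDiff ℝ ∞ χ) {R : ℝ} (hR : R < 4)
    (h0 : ∀ u, χ u ≠ 0 → ‖u‖ ≤ R) (hy : y ∈ T.U) : C.SmAt (T.ext j χ) y := by
  rintro γ a z hz rfl
  by_cases h : C.pt γ a z ∈ (T.Ψ j).source
  · refine (hχ.contDiffAt.comp z
      ((T.holΨ j γ a z hz h).contDiffAt.restrict_scalars ℝ).fst).congr_of_eventuallyEq ?_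
    exact ((C.ev_pt hz γ).1 ((T.Ψ j).open_source.mem_nhds h)).mono fun w hw => T.ext_of_mem hw
  · obtain ⟨ε, hε, h1⟩ := nhds_basis_closedBall.mem_iff.1 (isOpen_ball.mem_nhds (T.mem _ hy))
    have hs : closedBall (0 : Cm F.d) R ×ˢ closedBall (T.sh (C.pt γ a z)) ε ⊆ (T.Ψ j).target :=
      fun v hv => T.mem_tgt (closedBall_subset_ball hR hv.1) (h1 hv.2)
    have hK := (((isCompact_closedBall _ _).prod (isCompact_closedBall _ _)).image_of_continuousOn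
      ((T.Ψ j).continuousOn_symm.mono hs)).isClosed.isOpen_compl
    have h2 : ∀ᶠ w in 𝓝 (C.pt γ a z), T.ext j χ w = 0 := by
      filter_upwards [hK.mem_nhds (fun ⟨v, hv, e⟩ => h (e ▸ (T.Ψ j).map_target (hs hv))),
        (T.contAt hy).eventually (closedBall_mem_nhds _ hε)] with w w1 w2
      by_contra h3
      obtain ⟨h4, h5⟩ := T.ext_ne h3
      exact w1 ⟨((T.Ψ j w).1, T.sh w), ⟨mem_closedBall_zero_iff.2 (h0 _ h5), w2⟩, T.symm_eq h4⟩
    exact contDiffAt_const.congr_of_eventuallyEq ((C.ev_pt hz γ).1 h2)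

/-- a partition of unity on the tube, supported in the boxes of radius `2` -/
theorem pu [T2Space E] : ∃ θ : T.J → E → ℝ, (∀ j, ∀ y ∈ T.U, C.SmAt (θ j) y) ∧
    (∀ j y, 0 ≤ θ j y) ∧ (∀ j y, θ j y ≠ 0 → y ∈ (T.Ψ j).source ∧ ‖(T.Ψ j y).1‖ < 2) ∧
    (∀ j, ∀ y ∈ (T.Ψ j).source, ‖(T.Ψ j y).1‖ ≤ 1 → 0 < θ j y) ∧
    ∀ y ∈ T.U, ∑ j, θ j y = 1 := by
  set χ : ContDiffBump (0 : Cm F.d) := ⟨1, 2, one_pos, one_lt_two⟩
  have h0 : ∀ u, χ u ≠ 0 → ‖u‖ < 2 := fun u hu => mem_ball_zero_iff.1 (χ.support_eq ▸ hu)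
  have h1 : ∀ j y, 0 ≤ T.ext j χ y := fun j y => by
    by_cases h : T.ext j χ y = 0
    · exact h.ge
    · exact T.ext_of_mem (T.ext_ne h).1 ▸ χ.nonneg
  have h2 : ∀ j, ∀ y ∈ (T.Ψ j).source, ‖(T.Ψ j y).1‖ ≤ 1 → T.ext j χ y = 1 := fun j y hy h =>
    (T.ext_of_mem hy).trans (χ.one_of_mem_closedBall (mem_closedBall_zero_iff.2 h))
  have h3 : ∀ y ∈ T.U, 0 < ∑ j, T.ext j χ y := fun y hy => by
    obtain ⟨j, hj, h⟩ := T.cover y hy
    exact Finset.sum_pos' (fun i _ => h1 i y) ⟨j, Finset.mem_univ _, h2 j y hj h.le ▸ one_pos⟩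
  have h4 : ∀ j, ∀ y ∈ T.U, C.SmAt (T.ext j χ) y := fun j y hy =>
    T.ext_sm χ.contDiff (show (2 : ℝ) < 4 by norm_num) (fun u hu => (h0 u hu).le) hy
  refine ⟨fun j y => T.ext j χ y / ∑ i, T.ext i χ y, fun j y hy γ a z hz e => ?_,
    fun j y => div_nonneg (h1 j y) (Finset.sum_nonneg fun i _ => h1 i y), fun j y h => ?_,
    fun j y hy h => div_pos (h2 j y hy h ▸ one_pos) (h3 y (T.src j hy)), fun y hy => ?_⟩
  · exact (h4 j y hy γ a z hz e).div (ContDiffAt.sum fun i _ => h4 i y hy γ a z hz e)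
      (e ▸ (h3 y hy).ne')
  · obtain ⟨h5, h6⟩ := T.ext_ne (div_ne_zero_iff.1 h).1
    exact ⟨h5, h0 _ h6⟩
  · rw [← Finset.sum_div, div_self (h3 y hy).ne']

end Tube

/-! ### Seshadri functions -/

namespace Sesh

variable {T : Tube F} {t : Cm F.p} {τ ε : ℝ} (S : Sesh T t τ) {y : E}

theorem cont : Continuous S.P := continuous_iff_continuousAt.2 fun y => Tube.smAt_cont (S.sm y)

/-- the zero set is the fibre -/
theorem eq_zero_iff : S.P y = 0 ↔ y ∈ T.U ∧ T.sh y = t := by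
  refine ⟨fun h => ?_, fun h => ?_⟩
  · have h1 : y ∈ T.U ∧ ‖T.sh y - t‖ < S.r :=
      not_not.1 fun h1 => (S.κ'_pos.trans_le (S.out y h1)).ne' h
    rw [S.inn y h1.1 h1.2, mul_eq_zero, or_iff_right S.κ_pos.ne', nsq,
      Finset.sum_eq_zero_iff_of_nonneg fun _ _ => sq_nonneg _] at h
    exact ⟨h1.1, sub_eq_zero.1 (funext fun b => by simpa using h b (Finset.mem_univ _))⟩
  · rw [S.inn y h.1 (by simpa [h.2] using S.r_pos), h.2]
    simp [nsq]

theorem lpsh_add (hτ : 0 < τ) (hε : 0 ≤ ε) (γ : Γ) (a : C.I) :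
    LPsh (fun z => (S.P (C.pt γ a z) + ε) * Real.exp (C.ρ a z / τ)) (C.B 4 a) := by
  have h1 : LPsh (fun z => ε * Real.exp (τ⁻¹ * C.ρ a z)) (C.B 4 a) :=
    (lpsh_const hε _).mul_exp ((C.ρ_psh a).const_mul (inv_pos.2 hτ).le)
      ((C.ρ_lb a).const_mul (inv_pos.2 hτ).le)
  exact ((S.lpsh γ a).add h1).congr fun z _ => by simp only [add_mul, div_eq_inv_mul]

theorem sm_log (h : 0 < S.P y + ε) (τ' : ℝ) : C.SmAt (fun y => τ' * Real.log (S.P y + ε)) y :=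
  fun γ a z hz e => contDiffAt_const.mul
    (((S.sm y γ a z hz e).add contDiffAt_const).log (e ▸ h.ne'))

/-- `τ log (P + ε)` is `ω`-plurisubharmonic -/
theorem psd (hτ : 0 < τ) (hε : 0 ≤ ε) (γ : Γ) (a : C.I) {z : Cm n} (hz : z ∈ C.B 4 a)
    (h : 0 < S.P (C.pt γ a z) + ε) :
    (C.om 1 (fun y => τ * Real.log (S.P y + ε)) γ a z).PosSemidef := by
  have h1 : ContDiffAt ℝ ∞ (fun w => S.P (C.pt γ a w) + ε) z :=
    (S.sm _ γ a z hz rfl).add contDiffAt_const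
  have h2 : ContDiffAt ℝ ∞ (fun w => (S.P (C.pt γ a w) + ε) * Real.exp (C.ρ a w / τ)) z :=
    h1.mul ((C.ρ_sm a z hz).div_const τ).exp
  have h3 : 0 < (S.P (C.pt γ a z) + ε) * Real.exp (C.ρ a z / τ) := by positivity
  have h4 := ((S.lpsh_add hτ hε γ a).rpow hτ.le).cHess_psd ((C.isOpen_B 4 a).mem_nhds hz)
    (Real.rpow_pos_of_pos h3 τ) ((h2.rpow_const_of_ne h3.ne').of_le (by norm_cast))
  rw [Cov.om, C2.cHess_congr]
  · exact h4
  filter_upwards [h1.continuousAt.eventually (lt_mem_nhds h)] with w hw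
  rw [Real.log_rpow (by positivity), Real.log_mul hw.ne' (Real.exp_pos _).ne', Real.log_exp]
  field_simp
  ring

/-- the same, as a plurisubharmonic function in the charts -/
theorem qp (hτ : 0 < τ) (hε : 0 < ε) : QP C 1 (fun y => τ * Real.log (S.P y + ε)) univ :=
  fun γ a => psh_of_cHess fun z hz =>
    have h := add_pos_of_nonneg_of_pos (S.nonneg (C.pt γ a z)) hε
    ⟨((contDiffAt_const.mul (C.ρ_sm a z hz.1)).add (S.sm_log h τ γ a z hz.1 rfl)).of_le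
      (by norm_cast), S.psd hτ hε.le γ a hz.1 h⟩

/-- the translated function -/
def smul (γ : Γ) : Sesh (T.smul γ) t τ where
  P := fun y => S.P (γ⁻¹ • y)
  r := S.r
  κ := S.κ
  κ' := S.κ'
  r_pos := S.r_pos
  κ_pos := S.κ_pos
  κ'_pos := S.κ'_pos
  sub := S.sub
  sm := fun y δ a z hz e => by
    simpa only [C.smul_pt] using S.sm _ (γ⁻¹ * δ) a z hz rfl
  nonneg := fun _ => S.nonneg _
  le_one := fun _ => S.le_one _
  inn := fun _ => S.inn _
  out := fun _ => S.out _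
  lpsh := fun δ a => by simpa only [C.smul_pt] using S.lpsh (γ⁻¹ * δ) a

/-- the function for a smaller tube -/
def res {t' : Cm F.p} {ρ : ℝ} (hρ : 0 < ρ) (h : ball t' ρ ⊆ ball T.t₁ T.r) (r : ℝ) (hr : 0 < r)
    (hr' : r ≤ S.r) (h' : closedBall t r ⊆ ball t' ρ) : Sesh (T.res t' ρ hρ h) t τ where
  P := S.P
  r := r
  κ := S.κ
  κ' := min S.κ' (S.κ * r ^ 2)
  r_pos := hr
  κ_pos := S.κ_pos
  κ'_pos := lt_min S.κ'_pos (mul_pos S.κ_pos (pow_pos hr 2))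
  sub := h'
  sm := S.sm
  nonneg := S.nonneg
  le_one := S.le_one
  inn := fun y hy h1 => S.inn y hy.1 (h1.trans_le hr')
  out := fun y hy => by
    by_cases h1 : y ∈ T.U ∧ ‖T.sh y - t‖ < S.r
    · have h2 : r ≤ ‖T.sh y - t‖ := not_lt.1 fun h2 =>
        hy ⟨⟨h1.1, h' (mem_closedBall_iff_norm.2 h2.le)⟩, h2⟩
      obtain ⟨b, hb⟩ : ∃ b, r ≤ ‖(T.sh y - t) b‖ := by
        by_contra h3
        exact h2.not_gt ((pi_norm_lt_iff hr).2 fun b => not_le.1 fun h4 => h3 ⟨b, h4⟩)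
      rw [S.inn y h1.1 h1.2]
      refine (min_le_right _ _).trans (mul_le_mul_of_nonneg_left ?_ S.κ_pos.le)
      exact (pow_le_pow_left₀ hr.le hb 2).trans (Finset.single_le_sum
        (f := fun b => ‖(T.sh y - t) b‖ ^ 2) (fun _ _ => sq_nonneg _) (Finset.mem_univ b))
    · exact (min_le_left _ _).trans (S.out y h1)
  lpsh := S.lpsh

end Sesh

end Vale.Agent.P284Y.A
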