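import Vale.Agent.P284Y.A.Mid
import Vale.Agent.P284Y.A.A10
import Vale.Agent.P284Y.A.TubeOps

/-!
# P284Y, block A: a function which separates a fibre from a shell (A11a)
-/

open scoped Topology ComplexOrder
open Filter Set Metric

noncomputable section

namespace Vale.Agent.P284Y.A

open Vale.Agent.P272.K Vale.Agent.P284Z Vale.Agent.P284Y.Lib

variable {n : ℕ} {Γ E : Type} [Group Γ] [TopologicalSpace E] [MulAction Γ E] {C : Cov n Γ E}
  {F : Fol C}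

theorem qp_of_sm11 {A : ℝ} {g : E → ℝ} (h1 : ∀ y, C.SmAt g y)
    (h2 : ∀ γ a, ∀ z ∈ C.B 4 a, (C.om A g γ a z).PosSemidef) (Ω : Set E) : QP C A g Ω :=
  fun γ a => psh_of_cHess fun z hz =>
    ⟨((contDiffAt_const.mul (C.ρ_sm a z hz.1)).add (h1 _ γ a z hz.1 rfl)).of_le
      (by norm_cast), h2 γ a z hz.1⟩

theorem ev_exp11 {η : ℝ} (hη : 0 < η) : ∀ᶠ S : ℝ in atTop, Real.exp (-S / 2) < η := by
  filter_upwards [eventually_gt_atTop (-2 * Real.log η)] with S hS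
  rw [← Real.exp_log hη, Real.exp_lt_exp]
  linarith

/-- no secondary well on a compact set, for all large parameters -/
theorem shell11 {Z : Set E} (hZ : IsCompact Z) {φ : ℝ → E → ℝ} {ρ : ℝ → ℝ}
    (h : ∀ γ' b, ∀ w ∈ C.B 1 b, C.pt γ' b w ∈ Z → ¬ ∀ δ > (0 : ℝ), ∀ S₁ : ℝ, ∃ S ≥ S₁,
      ∃ w' ∈ ball w δ, ∀ w'' ∈ closedBall w' (ρ S), φ S (C.pt γ' b w'') ≤ -S) :
    ∀ᶠ S : ℝ in atTop, ∀ y ∈ Z, ∃ γ' b, ∃ w' ∈ C.B 2 b, y = C.pt γ' b w' ∧
      ∃ w'' ∈ closedBall w' (ρ S), -S < φ S (C.pt γ' b w'') := by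
  refine hZ.induction_on (p := fun V => ∀ᶠ S : ℝ in atTop, ∀ y ∈ V, ∃ γ' b, ∃ w' ∈ C.B 2 b,
    y = C.pt γ' b w' ∧ ∃ w'' ∈ closedBall w' (ρ S), -S < φ S (C.pt γ' b w''))
    (Eventually.of_forall fun _ _ hy => hy.elim)
    (fun s t hst ht => ht.mono fun S hS y hy => hS y (hst hy))
    (fun s t hs ht => (hs.and ht).mono fun S hS y hy => hy.elim (hS.1 y) (hS.2 y)) ?_
  intro y hy
  obtain ⟨γ', b, w, hw, rfl⟩ := C.exists_pt y
  have h1 := h γ' b w hw hy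
  push Not at h1
  obtain ⟨δ, hδ, S₁, h1⟩ := h1
  have h4 := C.B14 hw
  have h2 : ContinuousAt (C.co γ' b) (C.pt γ' b w) := (C.ch γ' b).continuousAt (C.pt_mem h4 γ')
  have h3 : ∀ᶠ y in 𝓝 (C.pt γ' b w), C.co γ' b y ∈ ball w δ ∩ C.B 2 b := by
    apply h2.eventually_mem
    rw [C.co_pt h4]
    exact inter_mem (ball_mem_nhds w hδ)
      ((C.isOpen_B 2 b).mem_nhds (C.B_mono (by norm_num) b hw))
  refine ⟨_, mem_nhdsWithin_of_mem_nhds
    (h3.and ((C.ch γ' b).open_source.mem_nhds (C.pt_mem h4 γ'))), ?_⟩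
  filter_upwards [eventually_ge_atTop S₁] with S hS y hy
  exact ⟨γ', b, _, hy.1.2, (C.pt_co hy.2).symm, h1 S hS _ hy.1.1⟩

theorem exp_sum11 {K S : ℝ} (hK : 4 ≤ K) (hS : 2 ≤ S) :
    Real.exp (-(S + 2) / 2) + 2 * Real.exp (-(K * S) / 2) ≤ Real.exp (-S / 2) := by
  have e0 := Real.exp_pos (-S / 2)
  have h1 : Real.exp (-(S + 2) / 2) * 2 ≤ Real.exp (-S / 2) := by
    have e : Real.exp (-S / 2) = Real.exp (-(S + 2) / 2) * Real.exp 1 := by
      rw [← Real.exp_add]; congr 1; ring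
    rw [e]
    exact mul_le_mul_of_nonneg_left (by linarith [Real.add_one_le_exp 1]) (Real.exp_pos _).le
  have h2 : Real.exp (-(K * S) / 2) * 4 ≤ Real.exp (-S / 2) := by
    have e : Real.exp (-S / 2) = Real.exp (-(K * S) / 2) * Real.exp ((K - 1) * S / 2) := by
      rw [← Real.exp_add]; congr 1; ring
    rw [e]
    refine mul_le_mul_of_nonneg_left ?_ (Real.exp_pos _).le
    nlinarith [Real.add_one_le_exp ((K - 1) * S / 2)]
  linarith

theorem a11a (h : AttGSt) : A11aSt := by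
  intro n Γ E _ _ _ _ _ C W hW F T x hx hg τ B
  obtain ⟨γ, a, z, hz, rfl⟩ := C.exists_pt x
  obtain ⟨CF, c, S₀, CF0, c0, -, hP⟩ := a10 n Γ E C F T γ a z (C.B14 hz) hx
  obtain ⟨M₀, δ₀, c₀, M0, δ0, c00, hA⟩ := h n Γ E C
  obtain ⟨τ', hτ'⟩ : ∃ τ', τ' = 2 * CF + |τ| + 3 := ⟨_, rfl⟩
  have τ0 := abs_nonneg τ
  have τ1 := le_abs_self τ
  obtain ⟨K, K4, hK⟩ : ∃ K : ℝ, 4 ≤ K ∧ τ' + n + 1 ≤ c₀ * K / 2 := by
    refine ⟨max 4 (2 * (τ' + n + 1) / c₀), le_max_left _ _, ?_⟩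
    have h1 := (div_le_iff₀ c00).1 (le_max_right 4 (2 * (τ' + n + 1) / c₀))
    linarith
  obtain ⟨k, hk⟩ := hW τ' K (by linarith) (by linarith)
  obtain ⟨φ, M, S₁, hw, hR⟩ := hk γ a z hz
  obtain ⟨r', r0, hr'⟩ := hg k
  set t := T.sh (C.pt γ a z) with ht
  obtain ⟨r₂, r2, hr₂⟩ := nhds_basis_closedBall.mem_iff.1 (isOpen_ball.mem_nhds (T.mem _ hx))
  obtain ⟨r, rp, rr', rr₂⟩ : ∃ r : ℝ, 0 < r ∧ r < r' ∧ r ≤ r₂ :=
    ⟨min (r' / 2) r₂, lt_min (half_pos r0) r2, (min_le_left _ _).trans_lt (half_lt_self r0),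
      min_le_right _ _⟩
  have hsub : closedBall t r ⊆ ball T.t₁ T.r := (closedBall_subset_closedBall rr₂).trans hr₂
  have hZ := T.cpt_of ((isCompact_closedBall t r).diff (isOpen_ball (x := t) (ε := r / 2)))
    (sdiff_subset.trans hsub)
  have hsh := shell11 (C := C) hZ (φ := φ) (ρ := fun S => Real.exp (-(K * S) / 2))
    fun γ' b w hw1 hy hh => hy.2.2 (by
      rw [hr' _ hy.1 ((mem_closedBall_iff_norm.1 hy.2.1).trans_lt rr')
        (hR γ' b w (C.B_mono (by norm_num) b hw1) hh)]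
      exact mem_ball_self (half_pos rp))
  obtain ⟨S, hS, S1, S0, S2, S3, S4, e1, e2, e3⟩ := (hsh.and ((eventually_ge_atTop S₁).and
    ((eventually_ge_atTop S₀).and ((eventually_ge_atTop (2 : ℝ)).and
    ((eventually_ge_atTop (M + M₀ - c₀ * Real.log δ₀)).and
    ((eventually_ge_atTop (M + 2 * M₀ + 4 * CF + B -
      2 * τ * (Real.log c - 1 - Real.log r))).and
    ((ev_exp11 δ0).and ((ev_exp11 (C.r_pos a)).and
    (ev_exp11 (div_pos (half_pos rp) c0)))))))))).exists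
  have p1 := Real.exp_pos (-(K * S) / 2)
  have p2 := Real.exp_pos (-(S + 2) / 2)
  have hsum := exp_sum11 K4 S2
  have n0 : (0 : ℝ) ≤ n := Nat.cast_nonneg n
  obtain ⟨g, g1, g2, g3⟩ := hA (φ S) ((τ' + n) * S + M) (Real.exp (-(K * S) / 2)) p1
    (by linarith) (qp_of_sm11 (hw.sm S S1) (hw.psd S S1) univ)
    (fun y => ⟨by linarith [hw.ge S S1 y], hw.le S S1 y⟩) (by
      rw [Real.log_div δ0.ne' p1.ne', Real.log_exp]
      nlinarith)
  have gb : ∀ y, |g y| ≤ (τ' + n) * S + M + M₀ := fun y => by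
    obtain ⟨γ', b, w, hw1, rfl⟩ := C.exists_pt y
    obtain ⟨h1, h2⟩ := g3 γ' b w (C.B_mono (by norm_num) b hw1)
    have h3 := h1 w (mem_closedBall_self p1.le)
    have h4 := h2 0 fun z' _ => hw.le S S1 _
    have h5 := hw.ge S S1 (C.pt γ' b w)
    have h6 := hw.le S S1 (C.pt γ' b w)
    exact abs_le.2 ⟨by linarith, by linarith⟩
  have hε : c * Real.exp (-(S + 2) / 2) < r / 2 := by
    have h1 := (lt_div_iff₀ c0).1 e3
    nlinarith
  refine ⟨r, c * Real.exp (-(S + 2) / 2), -S - M₀, _, g, by positivity, hε, hsub, g1, g2, gb,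
    fun y hy h1 h2 => ?_, fun y hy h1 => ?_⟩
  · obtain ⟨γ', b, w', hw', rfl, w'', h3, h4⟩ := hS y ⟨hy, mem_closedBall_iff_norm.2 h2,
      fun h5 => (mem_ball_iff_norm.1 h5).not_ge h1⟩
    linarith [(g3 γ' b w' hw').1 w'' h3]
  · have h2 := hP 2 g (τ' * S - M - M₀) (S + 2) zero_le_two (qp_of_sm11 g1 g2 _)
      (LB.of_le _ fun y _ => (abs_le.1 (gb y)).1) (by linarith) (fun z' hz' => by
        have h3 : z' ∈ C.B 2 a := by
          have h4 : dist z (C.c a) < 1 * C.r a := hz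
          have h5 : dist z' z ≤ _ := hz'
          show dist z' (C.c a) < 2 * C.r a
          linarith [dist_triangle z' z (C.c a)]
        have h6 := (g3 γ a z' h3).2 (-(τ' * S) + M) fun w hw1 => hw.deep S S1 w (by
          have h4 : dist w z' ≤ _ := hw1
          have h5 : dist z' z ≤ _ := hz'
          show dist w z ≤ _
          linarith [dist_triangle w z' z])
        linarith) y hy h1
    rw [Real.log_div (by positivity) rp.ne', Real.log_mul c0.ne' p2.ne', Real.log_exp]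
    nlinarith

end Vale.Agent.P284Y.A
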