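import Vale.Agent.P284Y.A.Mid
import Vale.Agent.P284Y.A.TubeOps
import Vale.Agent.P284Z.L.Gc

/-!
# P284Y, block A: gluing a logarithmic pole along a fibre (row A11b)
-/

open scoped ContDiff Topology ComplexOrder
open Filter Set Function Metric Real

noncomputable section

namespace Vale.Agent.P284Y.A

open Vale.Agent.P272.K Vale.Agent.P284Z Vale.Agent.P284Y.Lib Vale.Agent.P284Z.L

namespace B11

variable {n : ℕ} {Γ E : Type} [Group Γ] [TopologicalSpace E] [MulAction Γ E] {C : Cov n Γ E}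
  {F : Fol C} {T : Tube F} {t : Cm F.p} {y : E} {τ c : ℝ}

theorem nsq_nn {q : ℕ} (x : Cm q) : 0 ≤ nsq x := Finset.sum_nonneg fun _ _ => sq_nonneg _

theorem nsq_le {q : ℕ} (x : Cm q) : nsq x ≤ q * ‖x‖ ^ 2 := by
  have := Finset.sum_le_card_nsmul Finset.univ (fun b => ‖x b‖ ^ 2) (‖x‖ ^ 2) fun b _ =>
    pow_le_pow_left₀ (norm_nonneg _) (norm_le_pi_norm x b) 2
  simpa [nsq] using this

theorem sq_le {q : ℕ} (x : Cm q) : ‖x‖ ^ 2 ≤ nsq x := by
  rw [← Real.le_sqrt (norm_nonneg _) (nsq_nn x), pi_norm_le_iff_of_nonneg (Real.sqrt_nonneg _)]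
  intro i
  rw [Real.le_sqrt (norm_nonneg _) (nsq_nn x)]
  exact Finset.single_le_sum (f := fun b => ‖x b‖ ^ 2) (fun _ _ => sq_nonneg _) (Finset.mem_univ i)

theorem sm_q (c : ℝ) (hy : y ∈ T.U) : C.SmAt (fun y => c * nsq (T.sh y - t)) y :=
  sm_mul (sm_const c) (sm_comp (φ := fun w => nsq (w - t)) (J.sm_nsq t).contDiffAt
    (sm_of_hol T.hol hy))

theorem lpsh_q (hτ : 0 < τ) (hc : 0 ≤ c) (γ : Γ) (a : C.I) :
    LPsh (fun w => c * nsq (T.sh (C.pt γ a w) - t) * exp (C.ρ a w / τ))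
      {z ∈ C.B 4 a | C.pt γ a z ∈ T.U} := by
  have h1 : LPsh (fun w => nsq (T.sh (C.pt γ a w) - t)) {z ∈ C.B 4 a | C.pt γ a z ∈ T.U} :=
    lpsh_sum _ fun b _ => (lpsh_norm (T.isOpen_ch γ a) fun z hz => ((analyticAt_pi_iff.1
      ((T.hol γ a z hz.1 hz.2).sub analyticAt_const) b).differentiableAt.differentiableWithinAt)).pow 2
  exact ((h1.const_mul hc).mul_exp (((C.ρ_psh a).const_mul (inv_pos.2 hτ).le).mono fun _ h => h.1)
    (((C.ρ_lb a).const_mul (inv_pos.2 hτ).le).mono fun _ h => h.1)).congr fun w _ => by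
      simp only [div_eq_inv_mul]

theorem sm_loc {P f : E → ℝ} {V : Set E} (hV : IsOpen V) (hy : y ∈ V) (e : EqOn P f V)
    (h : C.SmAt f y) : C.SmAt P y := fun γ a z hz e' => (h γ a z hz e').congr_of_eventuallyEq
  (((C.ev_pt hz γ).1 (hV.mem_nhds (e' ▸ hy))).mono fun _ hw => e hw)

theorem lpsh_exp {u : E → ℝ} {V : Set E} (L : ℝ) (γ : Γ) (a : C.I) (h : ∀ y ∈ V, C.SmAt u y)
    (hp : ∀ z ∈ C.B 4 a, C.pt γ a z ∈ V →
      (cHess (fun w => C.ρ a w / τ + u (C.pt γ a w)) z).PosSemidef) :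
    LPsh (fun w => exp (u (C.pt γ a w) - L) * exp (C.ρ a w / τ))
      {z ∈ C.B 4 a | C.pt γ a z ∈ V} := by
  have h1 : ∀ z ∈ {z ∈ C.B 4 a | C.pt γ a z ∈ V},
      ContDiffAt ℝ 2 (fun w => C.ρ a w / τ + u (C.pt γ a w)) z := fun z hz =>
    (((C.ρ_sm a z hz.1).div_const τ).add (h _ hz.2 γ a z hz.1 rfl)).of_le (by norm_cast)
  refine (((psh_of_cHess fun z hz => ⟨h1 z hz, hp z hz.1 hz.2⟩).lpsh_exp (.of_cont fun z hz =>
    (h1 z hz).continuousAt.continuousWithinAt)).const_mul (exp_pos (-L)).le).congr fun w _ => ?_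
  simp only [← exp_add]
  congr 1
  ring

theorem glue [T2Space E] {u : E → ℝ} {r ε L : ℝ} (hτ : 0 < τ) (hc : 0 < c) (hε : 0 < ε)
    (hr : ε < r / 2) (hs : closedBall t r ⊆ ball T.t₁ T.r) (hu : ∀ y, C.SmAt u y)
    (hp : ∀ γ a, ∀ z ∈ C.B 4 a, (cHess (fun w => C.ρ a w / τ + u (C.pt γ a w)) z).PosSemidef)
    (hL : ∀ y, |u y| ≤ L) (h0 : ∀ y ∈ T.U, ‖T.sh y - t‖ ≤ r → c * nsq (T.sh y - t) ≤ exp L)
    (h1 : ∀ y ∈ T.U, r / 2 ≤ ‖T.sh y - t‖ → ‖T.sh y - t‖ ≤ r → c * nsq (T.sh y - t) ≤ exp (u y))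
    (h2 : ∀ y ∈ T.U, ε / 2 ≤ ‖T.sh y - t‖ → ‖T.sh y - t‖ ≤ ε →
      exp (u y + 1) ≤ c * nsq (T.sh y - t)) : Nonempty (Sesh T t τ) := by
  classical
  set β : E → ℝ := fun y => log (c * nsq (T.sh y - t)) with hβ
  set κ := c * exp (Gc 1 - 1 - L) with hκ
  set V₁ := {y ∈ T.U | T.sh y ∈ ball t ε}
  set V₂ := {y ∈ T.U | T.sh y ∈ ball t r \ closedBall t (ε / 2)}
  set V₃ := {y ∈ T.U | T.sh y ∈ closedBall t (r / 2)}ᶜ
  set P : E → ℝ := fun y => if y ∈ T.U ∧ ‖T.sh y - t‖ < ε then κ * nsq (T.sh y - t) else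
    if y ∈ T.U ∧ ‖T.sh y - t‖ < r then exp (u y + Gc (β y - u y) - L) else exp (u y - L) with hP
  have o₁ : IsOpen V₁ := T.isOpen_pre isOpen_ball
  have o₂ : IsOpen V₂ := T.isOpen_pre (isOpen_ball.sdiff isClosed_closedBall)
  have o₃ : IsOpen V₃ := (T.cpt_of (isCompact_closedBall _ _)
    ((closedBall_subset_closedBall (by linarith)).trans hs)).isClosed.isOpen_compl
  have pos : ∀ y, ε / 2 ≤ ‖T.sh y - t‖ → 0 < c * nsq (T.sh y - t) := fun y h =>
    mul_pos hc ((pow_pos ((half_pos hε).trans_le h) 2).trans_le (sq_le _))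
  have m₂ : ∀ y ∈ V₂, y ∈ T.U ∧ ε / 2 < ‖T.sh y - t‖ ∧ ‖T.sh y - t‖ < r := fun y hy =>
    ⟨hy.1, not_le.1 fun h => hy.2.2 (mem_closedBall_iff_norm.2 h), mem_ball_iff_norm.1 hy.2.1⟩
  have m₃ : ∀ y ∈ V₃, y ∈ T.U → r / 2 < ‖T.sh y - t‖ := fun y hy h =>
    not_le.1 fun h' => hy ⟨h, mem_closedBall_iff_norm.2 h'⟩
  have e₁ : EqOn P (fun y => κ * nsq (T.sh y - t)) V₁ := fun y hy =>
    if_pos ⟨hy.1, mem_ball_iff_norm.1 hy.2⟩
  have e₂ : EqOn P (fun y => exp (u y + Gc (β y - u y) - L)) V₂ := fun y hy => by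
    obtain ⟨a1, a2, a3⟩ := m₂ y hy
    by_cases h : y ∈ T.U ∧ ‖T.sh y - t‖ < ε
    · have a4 := (le_log_iff_exp_le (pos y a2.le)).2 (h2 y a1 a2.le h.2.le)
      simp only [hP, if_pos h]
      rw [Gc_of_one_le (x := β y - u y) (by simp only [hβ]; linarith),
        show u y + (β y - u y - 1 + Gc 1) - L = β y + (Gc 1 - 1 - L) by ring, exp_add, hβ,
        exp_log (pos y a2.le), hκ]
      ring
    · simp only [hP, if_neg h, if_pos (And.intro a1 a3)]
  have e₃ : EqOn P (fun y => exp (u y - L)) V₃ := fun y hy => by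
    have a1 : ¬ (y ∈ T.U ∧ ‖T.sh y - t‖ < ε) := fun h => by linarith [m₃ y hy h.1, h.2]
    by_cases h : y ∈ T.U ∧ ‖T.sh y - t‖ < r
    · have a2 := (m₃ y hy h.1).le
      have a3 := (log_le_iff_le_exp (pos y (by linarith))).2 (h1 y h.1 a2 h.2.le)
      simp only [hP, if_neg a1, if_pos h]
      rw [Gc_of_nonpos (x := β y - u y) (by simp only [hβ]; linarith), add_zero]
    · simp only [hP, if_neg a1, if_neg h]
  have cov : ∀ y, y ∈ V₁ ∨ y ∈ V₂ ∨ y ∈ V₃ := fun y => by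
    by_contra h
    simp only [not_or] at h
    obtain ⟨a1, a2⟩ : y ∈ T.U ∧ T.sh y ∈ closedBall t (r / 2) := not_not.1 h.2.2
    have a3 : ε ≤ ‖T.sh y - t‖ := not_lt.1 fun h' => h.1 ⟨a1, mem_ball_iff_norm.2 h'⟩
    rw [mem_closedBall_iff_norm] at a2
    exact h.2.1 ⟨a1, mem_ball_iff_norm.2 (by linarith), fun h' => by
      linarith [mem_closedBall_iff_norm.1 h']⟩
  have sβ : ∀ y ∈ V₂, C.SmAt β y := fun y hy =>
    sm_log (sm_q c hy.1) (pos y (m₂ y hy).2.1.le).ne'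
  have s₂ : ∀ y ∈ V₂, C.SmAt (fun y => u y + Gc (β y - u y)) y := fun y hy =>
    sm_add (hu y) (sm_comp contDiff_Gc.contDiffAt (sm_sub (sβ y hy) (hu y)))
  have hκ0 : 0 < κ := mul_pos hc (exp_pos _)
  refine ⟨⟨P, ε, κ, exp (-L - L), hε, hκ0, exp_pos _,
    (closedBall_subset_closedBall (by linarith)).trans hs, fun y => ?_, fun y => ?_, fun y => ?_,
    fun y a1 a2 => if_pos ⟨a1, a2⟩, fun y hy => ?_, fun γ a => lpsh_of_loc fun z hz => ?_⟩⟩
  · rcases cov y with h | h | h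
    · exact sm_loc o₁ h e₁ (sm_q κ h.1)
    · exact sm_loc o₂ h e₂ (sm_comp contDiff_exp.contDiffAt (sm_sub (s₂ y h) (sm_const L)))
    · exact sm_loc o₃ h e₃ (sm_comp contDiff_exp.contDiffAt (sm_sub (hu y) (sm_const L)))
  · rcases cov y with h | h | h
    · exact (mul_nonneg hκ0.le (nsq_nn _)).trans_eq (e₁ h).symm
    · exact (exp_pos _).le.trans_eq (e₂ h).symm
    · exact (exp_pos _).le.trans_eq (e₃ h).symm
  · rcases cov y with h | h | h
    · have a1 := h0 y h.1 (by linarith [mem_ball_iff_norm.1 h.2])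
      have a2 : exp (Gc 1 - 1 - L) * exp L ≤ 1 := by
        rw [← exp_add, exp_le_one_iff]
        linarith [Gc_le 1, max_eq_left (zero_le_one' ℝ)]
      refine (e₁ h).trans_le (le_trans (le_of_eq ?_)
        ((mul_le_mul_of_nonneg_left a1 (exp_pos (Gc 1 - 1 - L)).le).trans a2))
      simp only [hκ]
      ring
    · obtain ⟨a1, a2, a3⟩ := m₂ y h
      have a4 : β y ≤ L := (log_le_iff_le_exp (pos y a2.le)).2 (h0 y a1 a3.le)
      refine (e₂ h).trans_le (exp_le_one_iff.2 ?_)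
      have a5 := (Gc_le (β y - u y)).trans (max_le (c := L - u y) (by linarith)
        (by linarith [le_of_abs_le (hL y)]))
      linarith
    · exact (e₃ h).trans_le (exp_le_one_iff.2 (by linarith [le_of_abs_le (hL y)]))
  · have a1 := neg_le_of_abs_le (hL y)
    simp only [hP, if_neg hy]
    split_ifs
    · exact exp_le_exp.2 (by linarith [Gc_nonneg (β y - u y)])
    · exact exp_le_exp.2 (by linarith)
  · rcases cov (C.pt γ a z) with h | h | h
    · exact ⟨_, (C.isOpen_preimage_pt γ a o₁).mem_nhds ⟨hz, h⟩, ((lpsh_q hτ hκ0.le γ a).mono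
        fun w hw => ⟨hw.1, hw.2.1⟩).congr fun w hw => congrArg (· * _) (e₁ hw.2)⟩
    · refine ⟨_, (C.isOpen_preimage_pt γ a o₂).mem_nhds ⟨hz, h⟩, (lpsh_exp L γ a s₂
        fun w hw h' => ?_).congr fun w hw => congrArg (· * _) (e₂ hw.2)⟩
      have a1 := (C.ρ_sm a w hw).div_const τ
      have a2 := pos _ (m₂ _ h').2.1.le
      have a3 := sm_q (t := t) c h'.1 γ a w hw rfl
      have a4 := (lpsh_q (t := t) hτ hc.le γ a).cHess_psd ((T.isOpen_ch γ a).mem_nhds ⟨hw, h'.1⟩)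
        (mul_pos a2 (exp_pos _)) ((a3.mul a1.exp).of_le (by norm_cast))
      have a5 := psd_glue' (b := fun w => C.ρ a w / τ + β (C.pt γ a w))
        ((a1.add (hu _ γ a w hw rfl)).of_le (by norm_cast))
        ((a1.add (sβ _ h' γ a w hw rfl)).of_le (by norm_cast)) (hp γ a w hw) (by
          rw [C2.cHess_congr]
          · exact a4
          filter_upwards [a3.continuousAt.eventually (lt_mem_nhds a2)] with v hv
          rw [log_mul hv.ne' (exp_pos _).ne', log_exp, add_comm])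
      simpa only [add_sub_add_left_eq_sub, add_assoc] using a5
    · exact ⟨_, (C.isOpen_preimage_pt γ a o₃).mem_nhds ⟨hz, h⟩, (lpsh_exp L γ a (fun y _ => hu y)
        fun w hw _ => hp γ a w hw).congr fun w hw => congrArg (· * _) (e₃ hw.2)⟩

end B11

theorem a11b : A11bSt := fun n Γ E _ _ _ _ _ C F T t h τ hτ => by
  obtain ⟨r, ε, lo, L, g, hε, hr, hs, hg, hp, hL, h1, h2⟩ :=
    h (2 * τ) (2 * τ * (1 + log (4 * F.p)))
  have hp1 : (1 : ℝ) ≤ F.p := by exact_mod_cast F.p_pos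
  have hr0 : 0 < r := by linarith
  have h2τ : 0 < (2 * τ)⁻¹ := by positivity
  have key : ∀ x : Cm F.p, ‖x‖ ≤ r →
      exp ((2 * τ)⁻¹ * lo) / (F.p * r ^ 2) * nsq x ≤ exp ((2 * τ)⁻¹ * lo) := fun x hx => by
    rw [div_mul_eq_mul_div, div_le_iff₀ (by positivity)]
    exact mul_le_mul_of_nonneg_left ((B11.nsq_le x).trans (by gcongr)) (exp_pos _).le
  refine B11.glue (u := fun y => (2 * τ)⁻¹ * g y) (c := exp ((2 * τ)⁻¹ * lo) / (F.p * r ^ 2))
    (L := (2 * τ)⁻¹ * max L lo) hτ (by positivity) hε hr hs (fun y => sm_mul (sm_const _) (hg y))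
    (fun γ a z hz => ?_) (fun y => ?_) (fun y _ hy => (key _ hy).trans ?_)
    (fun y hy a1 a2 => (key _ a2).trans ?_) fun y hy a1 a2 => ?_
  · have a1 : ContDiffAt ℝ 2 (fun w => 2 * C.ρ a w + g (C.pt γ a w)) z :=
      ((contDiffAt_const.mul (C.ρ_sm a z hz)).add (hg _ γ a z hz rfl)).of_le (by norm_cast)
    have a2 := J.psd_smul (hp γ a z hz) h2τ.le
    rw [Cov.om, ← C2.cHess_const_mul _ a1] at a2
    convert a2 using 3 with w
    field_simp
  · rw [abs_mul, abs_of_pos h2τ]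
    exact mul_le_mul_of_nonneg_left ((hL y).trans (le_max_left _ _)) h2τ.le
  · exact exp_le_exp.2 (mul_le_mul_of_nonneg_left (le_max_right _ _) h2τ.le)
  · exact exp_le_exp.2 (mul_le_mul_of_nonneg_left (h1 y hy a1 a2) h2τ.le)
  · have a3 : (2 * τ)⁻¹ * g y + 1 ≤ (2 * τ)⁻¹ * lo + (2 * log (ε / r) - log (4 * F.p)) := by
      refine (add_le_add_left (mul_le_mul_of_nonneg_left (h2 y hy a2) h2τ.le) 1).trans_eq ?_
      field_simp
      ring
    refine (exp_le_exp.2 a3).trans ?_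
    rw [exp_add, exp_sub, exp_log (by positivity), two_mul (log _), exp_add,
      exp_log (by positivity), div_mul_eq_mul_div (exp _), mul_div_assoc (exp _)]
    refine mul_le_mul_of_nonneg_left ?_ (exp_pos _).le
    rw [le_div_iff₀ (by positivity)]
    refine le_trans (le_of_eq ?_) ((pow_le_pow_left₀ (by positivity) a1 2).trans (B11.sq_le _))
    field_simp
    norm_num

end Vale.Agent.P284Y.A
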