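import Vale.Agent.P284Y.A.Mid
import Vale.Agent.P284Y.Lib.Kis
import Vale.Agent.P284Z.Z.Main

/-!
# P284Y, block A: the analytic hulls of the relations (A6)
-/

open scoped Topology ENNReal
open Filter Set Metric MeasureTheory

noncomputable section

namespace Vale.Agent.P284Y.A

open Vale.Agent.P272.K Vale.Agent.P284Z Vale.Agent.P284Z.Z Vale.Agent.P284Y.Lib

variable {n : ℕ} {Γ E : Type} [Group Γ] [TopologicalSpace E] [MulAction Γ E] {C : Cov n Γ E}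

/-- energies of two points, with their slopes `l` -/
structure TP (C : Cov n Γ E) (s₀ : ℝ) (J : Γ × C.I → Cm n → Γ × C.I → Cm n → ℝ → ℝ)
    (l : E → E → ℝ) : Prop where
  pos : 0 < s₀
  nn : ∀ i, ∀ z ∈ C.B 3 i.2, ∀ j, ∀ w ∈ C.B 3 j.2, ∀ s, s₀ < s → 0 ≤ J i z j w s
  psh : ∀ i j, ∃ (κ : Cm n × Cm n → ℝ → ℝ) (M : ℝ),
    (∀ q ∈ C.B 3 i.2 ×ˢ C.B 3 j.2, ∀ s, s₀ < s → |κ q s| ≤ M) ∧
    Psh (fun q : (Cm n × Cm n) × ℂ => J i q.1.1 j q.1.2 q.2.re + κ q.1 q.2.re)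
      ((C.B 3 i.2 ×ˢ C.B 3 j.2) ×ˢ {t | s₀ < t.re})
  lim : ∀ i, ∀ z ∈ C.B 3 i.2, ∀ j, ∀ w ∈ C.B 3 j.2,
    Tendsto (fun s => J i z j w s / s) atTop (𝓝 (l (C.pt i.1 i.2 z) (C.pt j.1 j.2 w)))
  inv : ∀ (δ : Γ) i, ∀ z ∈ C.B 3 i.2, ∀ j, ∀ w ∈ C.B 3 j.2, ∀ s, s₀ < s →
    J (δ * i.1, i.2) z (δ * j.1, j.2) w s = J i z j w s
  move : ∃ M : ℝ, ∀ i, ∀ z ∈ C.B 3 i.2, ∀ i', ∀ z' ∈ C.B 3 i'.2, ∀ j, ∀ w ∈ C.B 3 j.2,
    ∀ j', ∀ w' ∈ C.B 3 j'.2, ∀ s, s₀ < s → Cl C s i z i' z' → Cl C s j w j' w' →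
    J i' z' j' w' s ≤ J i z j w s + M

variable (C) in
/-- the infimum over the scales and the charts -/
def GI (s₀ : ℝ) (J : Γ × C.I → Cm n → Γ × C.I → Cm n → ℝ → ℝ) (m : ℝ) (x y : E) : ℝ :=
  sInf {r | ∃ i, ∃ z ∈ C.B 3 i.2, ∃ j, ∃ w ∈ C.B 3 j.2, ∃ s, s₀ < s ∧ x = C.pt i.1 i.2 z ∧
    y = C.pt j.1 j.2 w ∧ r = Real.exp (J i z j w s - m * s)}

theorem B13 {a : C.I} {z : Cm n} (hz : z ∈ C.B 1 a) : z ∈ C.B 3 a := C.B_mono (by norm_num) a hz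

theorem bomb₃ {a b : C.I} {P : Cm n × Cm n → ℝ} (hP : LPsh P (C.B 3 a ×ˢ C.B 3 b)) {s : ℝ}
    (hs : 0 < s) {q : Cm n × Cm n} (hq : q ∈ C.B 2 a ×ˢ C.B 2 b) (h : LI volume P s q) :
    ∃ F : Cm n × Cm n → ℂ, AnalyticOnNhd ℂ F (C.B 2 a ×ˢ C.B 2 b) ∧ F q ≠ 0 ∧
      ∀ y ∈ C.B 2 a ×ˢ C.B 2 b, F y ≠ 0 → LI volume P s y := by
  have hr : ∀ a, 0 < 3 / 4 * C.r a := fun a => mul_pos (by norm_num) (C.r_pos a)
  let sc : C.I → (Cm n ≃L[ℂ] Cm n) := fun a => ContinuousLinearEquiv.smulLeft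
    (Units.mk0 ((3 / 4 * C.r a : ℝ) : ℂ) (Complex.ofReal_ne_zero.2 (hr a).ne'))
  let e : Cm (n + n) ≃L[ℂ] Cm n × Cm n := ((LinearEquiv.funCongrLeft ℂ ℂ finSumFinEquiv).trans
    (LinearEquiv.sumArrowLequivProdArrow _ _ ℂ ℂ)).toContinuousLinearEquiv
  have he : ∀ k > (0 : ℝ), ∀ x, (C.c a, C.c b) + (e.trans ((sc a).prodCongr (sc b))) x ∈
      C.B (k * (3 / 4)) a ×ˢ C.B (k * (3 / 4)) b ↔ ‖x‖ < k := fun k hk x => by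
    rw [Cov.B, Cov.B, mul_assoc, mul_assoc]
    refine (and_congr (aff_mem _ (hr a) k (e x).1) (aff_mem _ (hr b) k (e x).2)).trans ?_
    rw [pi_norm_lt_iff hk, pi_norm_lt_iff hk, pi_norm_lt_iff hk,
      finSumFinEquiv.surjective.forall, Sum.forall]
    rfl
  have h4 := he 4 (by norm_num)
  rw [show (4 : ℝ) * (3 / 4) = 3 by norm_num] at h4
  have hB : C.B 2 a ×ˢ C.B 2 b ⊆ C.B (3 * (3 / 4)) a ×ˢ C.B (3 * (3 / 4)) b :=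
    prod_mono (C.B_mono (by norm_num) a) (C.B_mono (by norm_num) b)
  obtain ⟨F, h1, h2, h3⟩ := bomb _ _ h4 (he 3 (by norm_num)) hP hs (hB hq) h
  exact ⟨F, h1.mono hB, h2, fun y hy => h3 y (hB hy)⟩

namespace TP

variable {s₀ m σ : ℝ} {J : Γ × C.I → Cm n → Γ × C.I → Cm n → ℝ → ℝ} {l : E → E → ℝ}
  {i j : Γ × C.I} {z w : Cm n}

theorem GI_le (hz : z ∈ C.B 3 i.2) (hw : w ∈ C.B 3 j.2) {s : ℝ} (hs : s₀ < s) :
    GI C s₀ J m (C.pt i.1 i.2 z) (C.pt j.1 j.2 w) ≤ Real.exp (J i z j w s - m * s) :=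
  csInf_le ⟨0, by rintro _ ⟨_, _, _, _, _, _, _, _, _, _, rfl⟩; exact (Real.exp_pos _).le⟩
    ⟨i, z, hz, j, w, hw, s, hs, rfl, rfl, rfl⟩

theorem le_GI {x y : E} {c : ℝ} (h : ∀ i, ∀ z ∈ C.B 3 i.2, ∀ j, ∀ w ∈ C.B 3 j.2, ∀ s, s₀ < s →
    x = C.pt i.1 i.2 z → y = C.pt j.1 j.2 w → c ≤ Real.exp (J i z j w s - m * s)) :
    c ≤ GI C s₀ J m x y := by
  obtain ⟨γ, a, z, hz, e⟩ := C.exists_pt x
  obtain ⟨γ', b, w, hw, e'⟩ := C.exists_pt y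
  refine le_csInf ⟨_, (γ, a), z, B13 hz, (γ', b), w, B13 hw, s₀ + 1, lt_add_one _, e, e', rfl⟩ ?_
  rintro _ ⟨i, z, hz, j, w, hw, s, hs, e, e', rfl⟩
  exact h i z hz j w hw s hs e e'

variable (H : TP C s₀ J l)
include H

theorem l_inv (δ : Γ) (x y : E) : l (δ • x) (δ • y) = l x y := by
  obtain ⟨γ, a, z, hz, rfl⟩ := C.exists_pt x
  obtain ⟨γ', b, w, hw, rfl⟩ := C.exists_pt y
  rw [C.smul_pt, C.smul_pt]
  refine tendsto_nhds_unique (H.lim (δ * γ, a) z (B13 hz) (δ * γ', b) w (B13 hw))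
    ((H.lim (γ, a) z (B13 hz) (γ', b) w (B13 hw)).congr' ?_)
  filter_upwards [eventually_gt_atTop s₀] with s hs
  rw [← H.inv δ (γ, a) z (B13 hz) (γ', b) w (B13 hw) s hs]

theorem GI_inv (δ : Γ) (x y : E) : GI C s₀ J m (δ • x) (δ • y) = GI C s₀ J m x y := by
  have h : ∀ (δ : Γ) x y, GI C s₀ J m (δ • x) (δ • y) ≤ GI C s₀ J m x y := fun δ x y =>
    le_GI fun i z hz j w hw s hs e e' => by
      rw [e, e', C.smul_pt, C.smul_pt, ← H.inv δ i z hz j w hw s hs]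
      exact GI_le (i := (δ * i.1, i.2)) (j := (δ * j.1, j.2)) hz hw hs
  refine (h δ x y).antisymm ?_
  simpa only [inv_smul_smul] using h δ⁻¹ (δ • x) (δ • y)

omit H in
theorem cl_self (hz : z ∈ C.B 3 i.2) {z' : Cm n} (e : C.pt i.1 i.2 z = C.pt j.1 j.2 z') (s : ℝ) :
    Cl C s i z j z' := ⟨z, hz, by rw [sub_self, norm_zero]; positivity, e⟩

theorem cmp (m : ℝ) (i j : Γ × C.I) : ∃ P : Cm n × Cm n → ℝ, LPsh P (C.B 3 i.2 ×ˢ C.B 3 j.2) ∧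
    ∃ κ > (0 : ℝ), ∀ q ∈ C.B 3 i.2 ×ˢ C.B 3 j.2,
      κ * P q ≤ ch2 C (GI C s₀ J m) i.1 j.1 i.2 j.2 q ∧
        κ * ch2 C (GI C s₀ J m) i.1 j.1 i.2 j.2 q ≤ P q := by
  obtain ⟨κ, M, hM, hp⟩ := H.psh i j
  obtain ⟨M', hM'⟩ := H.move
  have hO : IsOpen ((C.B 3 i.2 ×ˢ C.B 3 j.2) ×ˢ {t : ℂ | s₀ < t.re}) :=
    ((C.isOpen_B 3 _).prod (C.isOpen_B 3 _)).prod (isOpen_lt continuous_const Complex.continuous_re)
  have hd : DifferentiableOn ℂ (fun q : (Cm n × Cm n) × ℂ => -(m : ℂ) * q.2)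
      ((C.B 3 i.2 ×ˢ C.B 3 j.2) ×ˢ {t : ℂ | s₀ < t.re}) := by fun_prop
  have hb : LB (fun q : (Cm n × Cm n) × ℂ => J i q.1.1 j q.1.2 q.2.re + κ q.1 q.2.re)
      ((C.B 3 i.2 ×ˢ C.B 3 j.2) ×ˢ {t : ℂ | s₀ < t.re}) := .of_le (-M) fun q hq => by
    linarith [H.nn i _ hq.1.1 j _ hq.1.2 _ hq.2, (abs_le.1 (hM _ hq.1 _ hq.2)).1]
  have h1 := kiselman_lpsh (P := fun q s => Real.exp (J i q.1 j q.2 s + κ q s - m * s))
    ((C.isOpen_B 3 _).prod (C.isOpen_B 3 _)) isOpen_Ioi ordConnected_Ioi (nonempty_Ioi (a := s₀))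
    (((hp.add (psh_re hO hd) hb (lb_re hd)).lpsh_exp (hb.add (lb_re hd))).congr fun q _ => by
      simp [sub_eq_add_neg])
  refine ⟨_, h1, Real.exp (-(|M| + |M'|)), Real.exp_pos _, fun q hq => ⟨?_, ?_⟩⟩
  · refine le_GI fun i' z hz j' w hw s hs e e' => ?_
    refine (mul_le_mul_of_nonneg_left (csInf_le ⟨0, by
      rintro _ ⟨_, _, rfl⟩; exact (Real.exp_pos _).le⟩ (mem_image_of_mem _ hs))
      (Real.exp_pos _).le).trans ?_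
    rw [← Real.exp_add, Real.exp_le_exp]
    linarith [hM' i' z hz i q.1 hq.1 j' w hw j q.2 hq.2 s hs (cl_self hz e.symm s)
      (cl_self hw e'.symm s), (abs_le.1 (hM q hq s hs)).2, le_abs_self M, le_abs_self M']
  · refine le_csInf (nonempty_Ioi.image _) ?_
    rintro _ ⟨s, hs, rfl⟩
    refine (mul_le_mul_of_nonneg_left (GI_le hq.1 hq.2 hs) (Real.exp_pos _).le).trans ?_
    rw [← Real.exp_add, Real.exp_le_exp]
    linarith [(abs_le.1 (hM q hq s hs)).1, le_abs_self M, abs_nonneg M']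

theorem cmp' (m : ℝ) (hσ : 0 < σ) (i j : Γ × C.I) : ∃ P : Cm n × Cm n → ℝ,
    LPsh P (C.B 3 i.2 ×ˢ C.B 3 j.2) ∧ ∀ q ∈ C.B 3 i.2 ×ˢ C.B 3 j.2,
      (0 < GI C s₀ J m (C.pt i.1 i.2 q.1) (C.pt j.1 j.2 q.2) → 0 < P q) ∧
      ((C.pt i.1 i.2 q.1, C.pt j.1 j.2 q.2) ∉ NI C (GI C s₀ J m) σ ↔ LI volume P σ q) := by
  obtain ⟨P, h1, κ, hκ, h2⟩ := H.cmp m i j
  refine ⟨P, h1, fun q hq => ⟨fun h => (mul_pos hκ h).trans_le (h2 q hq).2, ?_⟩⟩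
  have ev := ((C.isOpen_B 3 _).prod (C.isOpen_B 3 _)).mem_nhds hq
  rw [mem_NI (B34 hq), not_not]
  exact ⟨fun h => h.of_le hσ.le hκ (mem_of_superset ev fun y hy => (h2 y hy).2),
    fun h => h.of_le hσ.le hκ (mem_of_superset ev fun y hy => (h2 y hy).1)⟩

theorem mem_of_lt (hσ : 0 < σ) {t : ℝ} (ht : 4 * n < σ * t) {x y : E} (h : l x y + t / 2 < m) :
    (x, y) ∈ NI C (GI C s₀ J m) σ := by
  obtain ⟨γ, a, z, hz, rfl⟩ := C.exists_pt x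
  obtain ⟨γ', b, w, hw, rfl⟩ := C.exists_pt y
  obtain ⟨M, hM⟩ := H.move
  have t0 : 0 < t := pos_of_mul_pos_right (lt_of_le_of_lt (by positivity) ht) hσ.le
  obtain ⟨S, hS⟩ := eventually_atTop.1 (((H.lim (γ, a) z (B13 hz) (γ', b) w
    (B13 hw)).eventually_lt_const (lt_sub_iff_add_lt.2 h)).and (eventually_gt_atTop s₀))
  refine (mem_NI (q := (z, w)) ⟨C.B14 hz, C.B14 hw⟩).2 fun h' => h'.not_le hσ (t := t)
    (K := Real.exp M) ?_ ?_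
  · rw [Module.finrank_prod, Module.finrank_fin_fun]
    push_cast
    linarith
  have key : ∀ q ∈ C.B 3 a ×ˢ C.B 3 b, ∀ s ≥ S, ‖q - (z, w)‖ ≤ Real.exp (-s / 2) →
      ch2 C (GI C s₀ J m) γ γ' a b q ≤ Real.exp M * Real.exp (-s / 2) ^ t := fun q hq s hs h1 => by
    obtain ⟨h2, h3⟩ := hS s hs
    refine (GI_le (i := (γ, a)) (j := (γ', b)) hq.1 hq.2 h3).trans ?_
    rw [← Real.exp_mul, ← Real.exp_add, Real.exp_le_exp]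
    rw [div_lt_iff₀ (H.pos.trans h3)] at h2
    linarith [hM (γ, a) z (B13 hz) (γ, a) q.1 hq.1 (γ', b) w (B13 hw) (γ', b) q.2 hq.2 s h3
      ⟨q.1, hq.1, (norm_fst_le (q - (z, w))).trans h1, rfl⟩
      ⟨q.2, hq.2, (norm_snd_le (q - (z, w))).trans h1, rfl⟩]
  filter_upwards [((C.isOpen_B 3 a).prod (C.isOpen_B 3 b)).mem_nhds
    (show (z, w) ∈ _ from ⟨B13 hz, B13 hw⟩), closedBall_mem_nhds (z, w)
      (Real.exp_pos (-S / 2))] with q hq h1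
  rw [mem_closedBall_iff_norm] at h1
  rcases (norm_nonneg (q - (z, w))).eq_or_lt with e | e
  · have h2 : Tendsto (fun s : ℝ => Real.exp M * Real.exp (-s / 2) ^ t) atTop
        (𝓝 (Real.exp M * 0 ^ t)) :=
      ((Real.tendsto_exp_atBot.comp (tendsto_neg_atTop_atBot.atBot_div_const two_pos)).rpow_const
        (Or.inr t0.le)).const_mul _
    rw [← e]
    exact ge_of_tendsto h2 ((eventually_ge_atTop S).mono fun s hs =>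
      key q hq s hs (e ▸ (Real.exp_pos _).le))
  · have e' : Real.exp (-(-2 * Real.log ‖q - (z, w)‖) / 2) = ‖q - (z, w)‖ := by
      rw [show -(-2 * Real.log ‖q - (z, w)‖) / 2 = Real.log ‖q - (z, w)‖ by ring, Real.exp_log e]
    have h2 := key q hq (-2 * Real.log ‖q - (z, w)‖)
      (by linarith [(Real.log_le_iff_le_exp e).2 h1]) e'.ge
    rwa [e'] at h2

theorem le_of_mem (hσ : 0 < σ) {x y : E} (h : (x, y) ∈ NI C (GI C s₀ J m) σ) : l x y ≤ m := by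
  obtain ⟨γ, a, z, hz, rfl⟩ := C.exists_pt x
  obtain ⟨γ', b, w, hw, rfl⟩ := C.exists_pt y
  have hq : (z, w) ∈ C.B 3 a ×ˢ C.B 3 b := ⟨B13 hz, B13 hw⟩
  obtain ⟨P, h1, h2⟩ := H.cmp' m hσ (γ, a) (γ', b)
  obtain ⟨M, hM⟩ := H.move
  refine le_of_not_gt fun h3 => (h2 _ hq).2.2 (li_of_pos ((C.isOpen_B 3 a).prod (C.isOpen_B 3 b))
    h1 hq ((h2 _ hq).1 ?_) hσ) h
  obtain ⟨S, hS⟩ := eventually_atTop.1 ((H.lim (γ, a) z hq.1 (γ', b) w hq.2).eventually_const_lt h3)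
  refine (Real.exp_pos (-(|m| * |S|) - |M|)).trans_le (le_GI fun i z' hz' j w' hw' s hs e e' => ?_)
  have s0 := H.pos.trans hs
  have h4 := hM i z' hz' (γ, a) z hq.1 j w' hw' (γ', b) w hq.2 s hs (cl_self hz' e.symm s)
    (cl_self hw' e'.symm s)
  rw [Real.exp_le_exp]
  rcases le_total S s with h5 | h5
  · have h6 := (lt_div_iff₀ s0).1 (hS s h5)
    linarith [le_abs_self M, mul_nonneg (abs_nonneg m) (abs_nonneg S)]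
  · linarith [H.nn i z' hz' j w' hw' s hs, abs_nonneg M, mul_le_mul (le_abs_self m)
      (h5.trans (le_abs_self S)) s0.le (abs_nonneg m)]

theorem exists_an (hσ : 0 < σ) {γ γ' : Γ} {a b : C.I} {q : Cm n × Cm n}
    (hq : q ∈ C.B 2 a ×ˢ C.B 2 b) (h : (C.pt γ a q.1, C.pt γ' b q.2) ∉ NI C (GI C s₀ J m) σ) :
    ∃ F : Cm n × Cm n → ℂ, AnalyticOnNhd ℂ F (C.B 2 a ×ˢ C.B 2 b) ∧ F q ≠ 0 ∧
      ∀ y ∈ C.B 2 a ×ˢ C.B 2 b, F y ≠ 0 →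
        (C.pt γ a y.1, C.pt γ' b y.2) ∉ NI C (GI C s₀ J m) σ := by
  have hB : C.B 2 a ×ˢ C.B 2 b ⊆ C.B 3 a ×ˢ C.B 3 b :=
    prod_mono (C.B_mono (by norm_num) a) (C.B_mono (by norm_num) b)
  obtain ⟨P, h1, h2⟩ := H.cmp' m hσ (γ, a) (γ', b)
  obtain ⟨F, h3, h4, h5⟩ := bomb₃ h1 hσ hq ((h2 q (hB hq)).2.1 h)
  exact ⟨F, h3, h4, fun y hy h6 => (h2 y (hB hy)).2.2 (h5 y hy h6)⟩

theorem thin [ConnectedSpace E] (hσ : 0 < σ) {x y : E} (h : m < l x y) (a : C.I) :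
    ∃ f : Cm n → ℂ, AnalyticOnNhd ℂ f (C.B 2 a) ∧ (∃ z ∈ C.B 2 a, f z ≠ 0) ∧
      ∀ z ∈ C.B 2 a, f z ≠ 0 → (C.pt 1 a z, y) ∉ NI C (GI C s₀ J m) σ := by
  obtain ⟨γ', b, w, hw, rfl⟩ := C.exists_pt y
  have hw2 : w ∈ C.B 2 b := C.B_mono (by norm_num) b hw
  have h1 : ∀ γ a, ∀ z ∈ C.B 2 a, (C.pt γ a z, C.pt γ' b w) ∉ NI C (GI C s₀ J m) σ →
      ∃ f : Cm n → ℂ, AnalyticOnNhd ℂ f (C.B 2 a) ∧ (∃ z ∈ C.B 2 a, f z ≠ 0) ∧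
      ∀ z ∈ C.B 2 a, f z ≠ 0 → (C.pt γ a z, C.pt γ' b w) ∉ NI C (GI C s₀ J m) σ :=
    fun γ a z hz h2 => by
    obtain ⟨F, h3, h4, h5⟩ := H.exists_an hσ (q := (z, w)) ⟨hz, hw2⟩ h2
    exact ⟨fun v => F (v, w), fun v hv => (h3 (v, w) ⟨hv, hw2⟩).comp_of_eq
      (analyticAt_id.prod analyticAt_const) rfl, ⟨z, hz, h4⟩, fun v hv => h5 (v, w) ⟨hv, hw2⟩⟩
  set N := {x | (x, C.pt γ' b w) ∈ NI C (GI C s₀ J m) σ} with hN
  have hO : ∀ γ a, IsOpen (C.pt γ a '' C.B 2 a) := fun γ a =>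
    C.isOpen_image_pt γ (C.isOpen_B 2 a) (C.B_mono (by norm_num) a)
  have h2 : interior N = ∅ := by
    refine (isClopen_iff.1 ⟨isClosed_of_closure_subset fun p hp => ?_, isOpen_interior⟩).resolve_right
      fun e => (H.le_of_mem hσ (interior_subset (s := N) (e ▸ mem_univ x))).not_gt h
    obtain ⟨γ, a, z, hz, rfl⟩ := C.exists_pt p
    have hm : C.pt γ a z ∈ C.pt γ a '' C.B 2 a := ⟨z, C.B_mono (by norm_num) a hz, rfl⟩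
    obtain ⟨_, ⟨v, hv, rfl⟩, h3⟩ := mem_closure_iff.1 hp _ (hO γ a) hm
    refine mem_interior.2 ⟨_, ?_, hO γ a, hm⟩
    rintro _ ⟨z', hz', rfl⟩
    by_contra h4
    obtain ⟨f, h5, h6, h7⟩ := h1 γ a z' hz' h4
    obtain ⟨u, h8, h9⟩ := (dense_ne_zero₀ (C.preconn_B 2 a) h5 h6 hv).and_eventually
      (((C.continuousAt_pt (C.B_mono (by norm_num) a hv) γ).eventually
        (mem_interior_iff_mem_nhds.1 h3)).and ((C.isOpen_B 2 a).mem_nhds hv)) |>.exists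
    exact h7 u h9.2 h8 h9.1
  by_contra h3
  refine (h2 ▸ (mem_interior.2 ⟨_, ?_, hO 1 a, ⟨_, C.c_mem two_pos a, rfl⟩⟩ :
    C.pt 1 a (C.c a) ∈ interior N) : _ ∈ (∅ : Set E))
  rintro _ ⟨z, hz, rfl⟩
  exact not_not.1 fun h4 => h3 (h1 1 a z hz h4)

end TP

variable {D : AD C} [MeasurableSpace E] {μ : Measure E} (h : AIn D μ)
include h

theorem tp₂ (k : ℕ) : TP C D.s₀ (D.J k) (D.γ₂ k) where
  pos := one_pos.trans_le h.s₀_ge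
  nn := fun i z hz j w hw s hs => ((h.J_bd k).choose_spec i z hz j w hw s hs).1
  psh := h.J_psh k
  lim := h.J_lim k
  inv := h.J_inv k
  move := h.J_move k

theorem tp₁ (k : ℕ) : TP C D.s₀ (fun i z _ _ => D.g k i z) fun x _ => D.γ₁ k x where
  pos := one_pos.trans_le h.s₀_ge
  nn := fun i z hz _ _ _ s hs => ((h.g_bd k).choose_spec i z hz s hs).1
  psh := fun i j => by
    obtain ⟨κ, M, h1, h2⟩ := h.g_psh k i
    refine ⟨fun q => κ q.1, M, fun q hq => h1 _ hq.1, ?_⟩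
    simpa using (h2.affine 0 ((ContinuousLinearMap.fst ℂ (Cm n) (Cm n)).prodMap
      (ContinuousLinearMap.id ℂ ℂ))).mono (U' := (C.B 3 i.2 ×ˢ C.B 3 j.2) ×ˢ {t | D.s₀ < t.re})
      fun q hq => by simpa using ⟨hq.1.1, hq.2⟩
  lim := fun i z hz _ _ _ => h.g_lim k i z hz
  inv := fun δ i z hz _ _ _ => h.g_inv k δ i z hz
  move := (h.g_move k).imp fun _ hM i z hz i' z' hz' _ _ _ _ _ _ s hs h1 _ => hM i z hz i' z' hz' s hs h1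

theorem bdd₁ (k : ℕ) : BddAbove (range (D.γ₁ k)) := by
  obtain ⟨L, hL⟩ := h.g_bd k
  refine ⟨L, ?_⟩
  rintro _ ⟨x, rfl⟩
  obtain ⟨γ, a, z, hz, rfl⟩ := C.exists_pt x
  refine le_of_tendsto (h.g_lim k (γ, a) z (B13 hz)) ?_
  filter_upwards [eventually_gt_atTop D.s₀] with s hs
  exact (div_le_iff₀ ((tp₁ h k).pos.trans hs)).2 (hL (γ, a) z (B13 hz) s hs).2

omit h in
theorem a6 (h7 : A7St) : A6St := by
  intro n Γ E _ _ _ _ _ _ _ _ C μ D hμ h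
  have hσ : ∀ k, 0 < (32 * n + 1) / D.a k := fun k => div_pos (by positivity) (h.a_pos k)
  have ht : ∀ k, 4 * n < (32 * n + 1) / D.a k * (D.a k / 8) := fun k => by
    rw [← mul_div_assoc, div_mul_cancel₀ _ (h.a_pos k).ne']
    linarith
  have hG : ∀ k x, D.γ₁ k x ≤ sSup (range (D.γ₁ k)) := fun k x => le_csSup (bdd₁ h k) ⟨x, rfl⟩
  have i₁ : ∀ k (γ : Γ) x, D.γ₁ k (γ • x) = D.γ₁ k x := fun k γ x => (tp₁ h k).l_inv γ x x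
  refine ⟨⟨D.R, fun k x y => (x, y) ∈ NI C (GI C D.s₀ (D.J k)
    (sSup (range (D.γ₁ k)) + D.g₀ - D.a k / 2)) ((32 * n + 1) / D.a k),
    fun k => {x | D.γ₁ k x < sSup (range (D.γ₁ k)) - D.a k / 4}, h.refl, fun k x y h1 => ?_, h.symm,
    h.trans, fun k γ x y h1 => ?_, fun k => NI_inv (tp₂ h k).GI_inv, fun k γ x h1 => ?_,
    fun k x y h1 => (tp₂ h k).mem_of_lt (hσ k) (ht k) ?_, fun k x y h1 h2 => ?_, fun k γ a b => ?_,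
    fun k a => ?_, fun k x => ?_⟩, rfl⟩
  · unfold AD.R at h1 ⊢
    linarith [h.level k x y, h.a_succ k, h.a_pos k]
  · unfold AD.R at h1 ⊢
    rwa [i₁, (tp₂ h k).l_inv]
  · exact (i₁ k γ x).trans_lt h1
  · unfold AD.R at h1
    linarith [hG k x, h.a_pos k]
  · have h3 := (tp₂ h k).le_of_mem (hσ k) h2
    unfold AD.R
    linarith [h.level k x y, h.a_succ k, le_of_not_gt (b := D.γ₁ k x) h1]
  · refine ⟨{f | AnalyticOnNhd ℂ f (C.B 2 a ×ˢ C.B 2 b) ∧ ∀ q ∈ C.B 2 a ×ˢ C.B 2 b, f q ≠ 0 →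
      (C.pt 1 a q.1, C.pt γ b q.2) ∉ NI C (GI C D.s₀ (D.J k)
        (sSup (range (D.γ₁ k)) + D.g₀ - D.a k / 2)) ((32 * n + 1) / D.a k)}, fun f hf => hf.1,
      fun z hz w hw => ⟨fun h1 f hf => not_not.1 fun h0 => hf.2 (z, w) ⟨hz, hw⟩ h0 h1,
        fun h1 => not_not.1 fun h2 => ?_⟩⟩
    obtain ⟨F, h3, h4, h5⟩ := (tp₂ h k).exists_an (hσ k) (q := (z, w)) ⟨hz, hw⟩ h2
    exact h4 (h1 F ⟨h3, h5⟩)
  · obtain ⟨_, ⟨x, rfl⟩, hx⟩ := exists_lt_of_lt_csSup (range_nonempty (D.γ₁ k))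
      (sub_lt_self (sSup (range (D.γ₁ k))) (div_pos (h.a_pos k) (by norm_num : (0 : ℝ) < 8)))
    obtain ⟨f, h1, h2, h3⟩ := (tp₁ h k).thin (hσ k) (y := x) hx a
    refine ⟨f, h1, h2, fun z hz h4 h5 => h3 z hz h4 ((tp₁ h k).mem_of_lt (hσ k) (ht k) ?_)⟩
    have h6 : D.γ₁ k (C.pt 1 a z) < sSup (range (D.γ₁ k)) - D.a k / 4 := h5
    linarith [h.a_pos k]
  · obtain ⟨φ, e, M, h1, h2, h3, h4⟩ := h.a2 k x
    obtain ⟨K, h5, h6⟩ := h7 n Γ E C μ φ e M hμ h1 h2 h3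
    refine ⟨K, h5, fun y hy => ?_⟩
    obtain ⟨γ, b, w, hw, rfl⟩ := C.exists_pt y
    exact h6 γ b w hw (h4 γ b w hw hy)

end Vale.Agent.P284Y.A
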