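import Vale.Agent.P284Y.A.Mid
import Vale.Agent.P284Y.A.Lip
import Vale.Agent.P284Z.J.JG

/-!
# P284Y, block A, row A7: the wells of functions with bounded mass stay in a compact set
-/

open scoped Topology ENNReal ComplexOrder
open Filter Set Metric MeasureTheory

noncomputable section

namespace Vale.Agent.P284Y.A

open Vale.Agent.P272.K Vale.Agent.P284Z

variable {n : ℕ} {Γ E : Type} [Group Γ] [TopologicalSpace E] [MulAction Γ E]

/-- a well of radius `exp (-s / 2)` and depth `e s` spreads to a ball of fixed radius -/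
theorem a7_well (C : Cov n Γ E) {e : ℝ} (he : 0 < e) : ∃ ρ > (0 : ℝ), ∀ᶠ s in atTop,
    ∀ φ : E → ℝ, (QE C).SP φ univ → (∀ y, φ y ≤ 0) → ∀ γ b, ∀ w ∈ C.B 1 b,
      (∀ v : Cm n, ‖v - w‖ ≤ Real.exp (-s / 2) → φ (C.pt γ b v) ≤ -(e * s)) →
      ∀ v ∈ ball w ρ, v ∈ C.cB 3 b ∧ φ (C.pt γ b v) < -1 := by
  obtain ⟨R, hR, hr⟩ := C.exists_r
  obtain ⟨M, hM, hb⟩ := C.ρ_bdd (k := 3) (by norm_num)
  set ρ := R * Real.exp (-((2 * M + 2) / e)) with hρ
  have ρ0 : 0 < ρ := by positivity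
  have ρ1 : ρ < R := mul_lt_of_lt_one_right hR (Real.exp_lt_one_iff.2 (neg_neg_of_pos (by positivity)))
  have ρ2 : e * Real.log (R / ρ) = 2 * M + 2 := by
    rw [hρ, div_mul_cancel_left₀ hR.ne', ← Real.exp_neg, neg_neg, Real.log_exp]
    field_simp
  have t : Tendsto (fun s : ℝ => Real.exp (-s / 2)) atTop (𝓝 0) :=
    Real.tendsto_exp_atBot.comp (tendsto_neg_atTop_atBot.atBot_div_const two_pos)
  refine ⟨ρ, ρ0, ?_⟩
  filter_upwards [t.eventually (ge_mem_nhds ρ0), eventually_ge_atTop 0,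
    eventually_ge_atTop (2 * Real.log R)] with s h1 h2 h3 φ hφ h0 γ b w hw hs v hv
  have b3 : closedBall w R ⊆ C.B 3 b :=
    C.closedBall_sub (C.B_sub_cB 1 b hw) (by linarith [hr b, C.r_pos b])
  have b4 : closedBall w R ⊆ C.B 4 b := b3.trans (C.B_mono (by norm_num) b)
  have c3 : closedBall w R ⊆ C.cB 3 b := b3.trans (C.B_sub_cB 3 b)
  have sm : ∀ z ∈ C.B 4 b, ContDiffAt ℝ 2 (fun z => C.ρ b z + φ (C.pt γ b z)) z := fun z hz =>
    ((C.ρ_sm b z hz).add ((hφ _ (mem_univ _)).1 (γ, b) z hz rfl)).of_le (by norm_cast)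
  have hv' : v ∈ closedBall w ρ := ball_subset_closedBall hv
  have hv3 := c3 (closedBall_subset_closedBall ρ1.le hv')
  have h4 := three (u := fun z => C.ρ b z + φ (C.pt γ b z)) (A := M - e * s) (B := M)
    (psh_of_cHess fun z hz => ⟨sm z hz, (hφ _ (mem_univ _)).2 (γ, b) z hz rfl⟩)
    (.of_cont fun z hz => (sm z hz).continuousAt.continuousWithinAt) b4 (Real.exp_pos _) h1 ρ1.le
    (h1.trans_lt ρ1) (by nlinarith) (fun y hy => by
      linarith [hs y (mem_closedBall_iff_norm.1 hy), (abs_le.1 (hb b y (c3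
        (closedBall_subset_closedBall (h1.trans ρ1.le) hy)))).2])
    (fun y hy => by linarith [h0 (C.pt γ b y), (abs_le.1 (hb b y (c3 hy))).2]) hv'
  have l0 : 0 < Real.log (R / Real.exp (-s / 2)) :=
    Real.log_pos ((one_lt_div (Real.exp_pos _)).2 (h1.trans_lt ρ1))
  have l1 : Real.log (R / Real.exp (-s / 2)) ≤ s := by
    rw [Real.log_div hR.ne' (Real.exp_pos _).ne', Real.log_exp]
    linarith
  have l2 : 2 * M + 2 ≤ (M - (M - e * s)) * (Real.log (R / ρ) / Real.log (R / Real.exp (-s / 2))) := by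
    rw [← mul_div_assoc, le_div_iff₀ l0, sub_sub_cancel, mul_right_comm, ρ2]
    exact mul_le_mul_of_nonneg_left l1 (by positivity)
  exact ⟨hv3, by linarith [(abs_le.1 (hb b v hv3)).1]⟩

theorem a7 : A7St := by
  intro n Γ E _ _ _ _ _ _ _ C μ φ e M hμ he hM h
  obtain ⟨ρ, ρ0, hρ⟩ := a7_well C he
  have : (volume : Measure (Cm n)).IsAddHaarMeasure := Measure.pi.isAddHaarMeasure _
  have fin : ∀ b, {γ : Γ | ∃ w ∈ C.B 1 b, ∀ᶠ s in atTop, ∀ v : Cm n,
      ‖v - w‖ ≤ Real.exp (-s / 2) → φ s (C.pt γ b v) ≤ -(e * s)}.Finite := by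
    intro b
    by_contra hinf
    obtain ⟨z₀, hz₀, hmin⟩ := (C.isCompact_cB 3 b).exists_isMinOn
      ⟨_, C.B_sub_cB 3 b (C.c_mem (by norm_num) b)⟩
      ((JGx.D_cont b).mono (C.cB_sub_B (by norm_num) b))
    have c0 : ENNReal.ofReal (cHess (C.ρ b) z₀).det.re * volume (ball (0 : Cm n) ρ) ≠ 0 :=
      mul_ne_zero (ENNReal.ofReal_pos.2 (JGx.det_re (C.cB_sub_B (by norm_num) b hz₀)).1).ne'
        (measure_ball_pos _ _ ρ0).ne'
    obtain ⟨N, hN⟩ := ENNReal.exists_nat_mul_gt c0 hM.ne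
    obtain ⟨T, hT, hc⟩ := Set.Infinite.exists_subset_card_eq hinf N
    choose! w hw hw' using fun γ (hγ : γ ∈ T) => hT hγ
    obtain ⟨s, ⟨⟨h1, h2, h3⟩, h4⟩, h5⟩ :=
      ((h.and hρ).and ((eventually_all_finset T).2 hw')).exists
    have ms : MeasurableSet {y | φ s y < -1} := (isOpen_lt (continuous_iff_continuousAt.2 fun y =>
      JGx.sm_cont fun γ a z hz e => (h1 y (mem_univ _)).1 (γ, a) z hz e) continuous_const).measurableSet
    have h6 := (jg C).sum_le μ hμ b ({y | φ s y < -1}.indicator 1) (measurable_one.indicator ms)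
    rw [lintegral_indicator_one ms] at h6
    refine hN.not_ge (le_trans ?_ ((ENNReal.sum_le_tsum T).trans (h6.trans h3)))
    rw [← hc, ← nsmul_eq_mul]
    refine Finset.card_nsmul_le_sum _ _ _ fun γ hγ => ?_
    have h7 := h4 _ h1 h2 γ b _ (hw γ hγ) (h5 γ hγ)
    rw [← Measure.addHaar_ball_center volume (w γ), ← setLIntegral_const]
    refine le_trans (setLIntegral_mono' measurableSet_ball fun z hz => ?_)
      (lintegral_mono_set fun z hz => C.cB_sub_B (by norm_num) b (h7 z hz).1)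
    rw [indicator_of_mem (show C.pt γ b z ∈ {y | φ s y < -1} from (h7 z hz).2), Pi.one_apply,
      one_mul]
    exact ENNReal.ofReal_le_ofReal (hmin (h7 z hz).1)
  refine ⟨_, isCompact_iUnion fun b => (fin b).isCompact_biUnion fun γ _ =>
    C.isCompact_image_pt γ (C.isCompact_cB 1 b) (C.cB_sub_B (by norm_num) b),
    fun γ b w hw hs => ?_⟩
  exact mem_iUnion.2 ⟨b, mem_biUnion ⟨w, hw, hs⟩ ⟨w, C.B_sub_cB 1 b hw, rfl⟩⟩

end Vale.Agent.P284Y.A
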