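import Vale.Agent.P284Y.A.Mid
import Vale.Agent.P284Y.A.Lip
import Vale.Agent.P284Y.Lib.Gl1
import Vale.Agent.P284Y.Lib.Conv
import Vale.Agent.P284Y.Lib.Att

/-!
# P284Y, block A: the supremum over small balls as a global smooth function
-/

open scoped Topology ContDiff ComplexOrder
open Filter Set Metric MeasureTheory

noncomputable section

namespace Vale.Agent.P284Y.A

open Vale.Agent.P272.K Vale.Agent.P284Z Vale.Agent.P284Y.Lib

namespace AG

/-- the supremum over balls is plurisubharmonic -/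
theorem exists_sup {W : Type} [NormedAddCommGroup W] [NormedSpace ℂ W] [FiniteDimensional ℂ W]
    {v : W → ℝ} {U O : Set W} {r c : ℝ} (hU : IsOpen U) (hO : IsOpen O) (h : Psh v U)
    (hc : ∀ z ∈ O, c ≤ v z) (hb : LB v U) (hr : 0 ≤ r) (hOU : ∀ z ∈ O, closedBall z r ⊆ U) :
    ∃ m : W → ℝ, Psh m O ∧ LB m O ∧ ∀ z ∈ O, (∀ y ∈ closedBall z r, v y ≤ m z) ∧
      ∃ y ∈ closedBall z r, m z = v y := by
  have hP := h.lpsh_exp hb
  have h1 : ∀ z ∈ O, ∀ k : W, ‖k‖ ≤ r → z + ContinuousLinearMap.id ℂ W k ∈ U := fun z hz k hk =>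
    hOU z hz (by simpa using hk)
  have h2 : ∀ z ∈ O, (∀ y ∈ closedBall z r,
      v y ≤ Real.log (sb (fun z => Real.exp (v z)) (ContinuousLinearMap.id ℂ W) r z)) ∧
      ∃ y ∈ closedBall z r,
        sb (fun z => Real.exp (v z)) (ContinuousLinearMap.id ℂ W) r z = Real.exp (v y) := by
    intro z hz
    obtain ⟨h3, k, hk, h4⟩ := Att.attain hP h1 hz ⟨hr, le_rfl⟩
    refine ⟨fun y hy => ?_, z + k, by simpa using hk, h4⟩
    have h5 := h3 (y - z) (by simpa [dist_eq_norm] using hy)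
    simp only [ContinuousLinearMap.id_apply, add_sub_cancel] at h5
    exact (Real.le_log_iff_exp_le ((Real.exp_pos _).trans_le h5)).2 h5
  have h3 : LB (fun z => Real.log (sb (fun z => Real.exp (v z)) (ContinuousLinearMap.id ℂ W) r z))
      O := LB.of_le c fun z hz => (hc z hz).trans ((h2 z hz).1 z (mem_closedBall_self hr))
  refine ⟨_, (Att.slice hU hO hP h1 ⟨hr, le_rfl⟩).psh_log (fun z hz => ?_) h3, h3, fun z hz =>
    ⟨(h2 z hz).1, ?_⟩⟩
  · obtain ⟨y, -, hy⟩ := (h2 z hz).2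
    rw [hy]
    exact Real.exp_pos _
  · obtain ⟨y, hy, hy'⟩ := (h2 z hz).2
    exact ⟨y, hy, by rw [hy', Real.log_exp]⟩

variable {n : ℕ} {Γ E : Type} [Group Γ] [TopologicalSpace E] [MulAction Γ E]

/-- a smooth function between the suprema over the balls of radius `r` and `2 r` -/
theorem exists_reg (C : Cov n Γ E) (a : C.I) {v : Cm n → ℝ} {r c : ℝ} (h : Psh v (C.B 4 a))
    (hb : LB v (C.B 4 a)) (hc : ∀ z ∈ C.B 3 a, c ≤ v z) (hr : 0 < r) (hra : r < C.r a) :
    ∃ w : Cm n → ℝ, ∀ z ∈ C.B 2 a, ContDiffAt ℝ ∞ w z ∧ (cHess w z).PosSemidef ∧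
      (∀ y ∈ closedBall z r, v y ≤ w z) ∧
      ∀ t, (∀ y ∈ closedBall z (2 * r), v y ≤ t) → w z ≤ t := by
  obtain ⟨m, h1, h2, h3⟩ := exists_sup (O := C.B 3 a) isOpen_ball isOpen_ball h hc hb hr.le
    fun z hz => C.closedBall_sub (C.B_sub_cB 3 a hz) (by linarith)
  have h4 : ∀ z ∈ C.B 2 a, closedBall z r ⊆ C.B 3 a := fun z hz =>
    C.closedBall_sub (C.B_sub_cB 2 a hz) (by linarith)
  have h5 : Psh (cv volume r m) (C.B 2 a) := cv_psh hr isOpen_ball h1 h2 h4
  refine ⟨cv volume r m, fun z hz => ?_⟩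
  have h6 : ContDiffAt ℝ ∞ (cv volume r m) z := cv_smooth hr isOpen_ball (lc_psh h1 h2) (h4 z hz)
  refine ⟨h6, h5.cHess_psd (isOpen_ball.mem_nhds hz) (h6.of_le (by norm_cast)),
    fun y hy => ((h3 z (h4 z hz (mem_closedBall_self hr.le))).1 y hy).trans
      (self_le_cv hr isOpen_ball h1 h2 (h4 z hz)), fun t ht =>
    cv_le hr ((lc_psh h1 h2).ball (h4 z hz)) fun y hy => ?_⟩
  obtain ⟨x, hx, hx'⟩ := (h3 y (h4 z hz hy)).2
  rw [hx']
  refine ht x ?_
  rw [mem_closedBall] at hx hy ⊢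
  linarith [dist_triangle x y z]

/-- a radius that is small for all charts -/
theorem exists_rad (C : Cov n Γ E) {η δ : ℝ} (hη : 0 < η) (hδ : 0 < δ) : ∃ R > (0 : ℝ), R ≤ δ ∧
    ∀ a, R < C.r a ∧ ∀ z ∈ C.cB 3 a, ∀ y ∈ C.cB 3 a, dist y z ≤ R → |C.ρ a y - C.ρ a z| ≤ η := by
  have h1 : ∀ a, ∀ᶠ R in 𝓝[>] (0 : ℝ), R < C.r a ∧
      ∀ z ∈ C.cB 3 a, ∀ y ∈ C.cB 3 a, dist y z ≤ R → |C.ρ a y - C.ρ a z| ≤ η := by
    intro a
    obtain ⟨d, hd, h2⟩ := Metric.uniformContinuousOn_iff.1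
      ((C.isCompact_cB 3 a).uniformContinuousOn_of_continuous
        ((C.ρ_cont a).mono (C.cB_sub_B (by norm_num) a))) η hη
    filter_upwards [nhdsWithin_le_nhds (gt_mem_nhds (C.r_pos a)),
      nhdsWithin_le_nhds (gt_mem_nhds hd)] with R h3 h4
    exact ⟨h3, fun z hz y hy h5 => (h2 y hy z hz (h5.trans_lt h4)).le⟩
  obtain ⟨R, ⟨h2, h3⟩, h4⟩ := (((eventually_all.2 h1).and
    (nhdsWithin_le_nhds (gt_mem_nhds hδ))).and self_mem_nhdsWithin).exists
  exact ⟨R, h4, le_of_lt h3, h2⟩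

/-- the three circles inequality in the form that is used -/
theorem three' {v : Cm n → ℝ} {U : Set (Cm n)} {z y : Cm n} {r K δ₀ A B c₀ D : ℝ} (h : Psh v U)
    (hb : LB v U) (hK : 1 ≤ K) (hB : closedBall z (2 * K * δ₀) ⊆ U) (hr : 0 < r) (hrδ : r ≤ δ₀)
    (hA : ∀ y ∈ closedBall z r, v y ≤ A) (hB' : ∀ y ∈ closedBall z (2 * K * δ₀), v y ≤ B)
    (hc : 0 ≤ c₀) (hD : B - v z ≤ D) (hD' : D ≤ c₀ * Real.log (δ₀ / r))
    (hy : y ∈ closedBall z (2 * K * r)) : v y ≤ A + c₀ * Real.log (2 * K) := by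
  have hδ : 0 < δ₀ := hr.trans_le hrδ
  have h1 : δ₀ < 2 * K * δ₀ := by nlinarith
  have h2 : r < 2 * K * δ₀ := hrδ.trans_lt h1
  have h3 := three h hb hB hr (ρ := 2 * K * r) (by nlinarith)
    (mul_le_mul_of_nonneg_left hrδ (by linarith)) h2 (min_le_right A B)
    (fun x hx => le_min (hA x hx) (hB' x (closedBall_subset_closedBall h2.le hx))) hB' hy
  have hK' : (2 * K) ≠ 0 := by positivity
  have h4 : Real.log (2 * K * δ₀ / (2 * K * r)) = Real.log (δ₀ / r) := by
    rw [mul_div_mul_left _ _ hK']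
  have h5 : Real.log (2 * K * δ₀ / r) = Real.log (2 * K) + Real.log (δ₀ / r) := by
    rw [mul_div_assoc, Real.log_mul hK' (div_pos hδ hr).ne']
  have h6 : 0 < Real.log (2 * K) := Real.log_pos (by linarith)
  have h7 : 0 ≤ Real.log (δ₀ / r) := Real.log_nonneg ((one_le_div hr).2 hrδ)
  rw [h4, h5] at h3
  set L := Real.log (2 * K)
  set M := Real.log (δ₀ / r)
  have h8 : v z ≤ min A B := le_min (hA z (mem_closedBall_self hr.le))
    (hB' z (mem_closedBall_self (by linarith)))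
  have h9 : B - (B - min A B) * (M / (L + M)) = min A B + (B - min A B) * L / (L + M) := by
    field_simp
    ring
  have h10 : (B - min A B) * L / (L + M) ≤ c₀ * L := by
    rw [div_le_iff₀ (by linarith)]
    have h11 : B - min A B ≤ c₀ * (L + M) := by nlinarith [mul_nonneg hc h6.le]
    nlinarith
  linarith [min_le_left A B]

end AG

/-- **ATTG** -/
theorem attG : AttGSt := by
  intro n Γ E _ _ _ _ _ C
  obtain ⟨G, hG, hgl⟩ := gl n Γ E C
  obtain ⟨d, hd, K, hK, hlip⟩ := lip C (k := 2) (by norm_num)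
  obtain ⟨M, hM, hρ⟩ := C.ρ_bdd (k := 3) (by norm_num)
  have hδ : 0 < G⁻¹ := inv_pos.2 hG
  obtain ⟨R, hR, hRd, hrad⟩ := AG.exists_rad C (η := G⁻¹ / 4) (by positivity) hd
  have hL : 0 < Real.log (2 * K) := Real.log_pos (by linarith)
  have hK2 : (0 : ℝ) < 2 * K := by linarith
  refine ⟨2 * M + 1, R / (2 * K), G⁻¹ / (2 * Real.log (2 * K)), by linarith, by positivity,
    by positivity, fun φ D r hr hrδ hφ hD hDc => ?_⟩
  have hR' : 2 * K * (R / (2 * K)) = R := by field_simp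
  have hKr : 2 * K * r ≤ R := hR' ▸ mul_le_mul_of_nonneg_left hrδ hK2.le
  have h2r : 2 * r ≤ R := by nlinarith
  have hps : ∀ γ a, Psh (fun z => C.ρ a z + φ (C.pt γ a z)) (C.B 4 a) := fun γ a => by
    simpa using hφ γ a
  have hlb : ∀ γ a, LB (fun z => C.ρ a z + φ (C.pt γ a z)) (C.B 4 a) := fun γ a =>
    (C.ρ_lb a).add (LB.of_le (-D) fun z _ => (hD _).1)
  have hsub : ∀ a, ∀ z ∈ C.B 2 a, closedBall z R ⊆ C.cB 3 a := fun a z hz =>
    (C.closedBall_sub (C.B_sub_cB 2 a hz) (by linarith [(hrad a).1])).trans (C.B_sub_cB 3 a)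
  have hw := fun γ a => AG.exists_reg C a (hps γ a) (hlb γ a) (c := -M + -D)
    (fun z hz => add_le_add (abs_le.1 (hρ a z (C.B_sub_cB 3 a hz))).1 (hD _).1) hr
    (by linarith [(hrad a).1])
  choose w hw using hw
  obtain ⟨g, h1, h2, h3, -⟩ := hgl 1 G⁻¹ univ (fun γ a z => w γ a z - C.ρ a z) hδ isOpen_univ
    (fun γ a z hz _ => ⟨(hw γ a z hz).1.sub (C.ρ_sm a z (C.B_mono (by norm_num) a hz)), by
      simpa using (hw γ a z hz).2.1⟩) (fun γ a γ' b z hz z' hz' he _ => by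
      have h4 := (hw γ a z hz).2.2.2 (C.ρ a z + (w γ' b z' - C.ρ b z' + G⁻¹)) fun y hy => by
        have hy' : ‖y - z‖ ≤ 2 * r := by rwa [← dist_eq_norm]
        obtain ⟨-, y', -, he', hd'⟩ := hlip γ a γ' b z (C.B_sub_cB 2 a hz) z'
          (C.B_sub_cB 2 b hz') he y (by linarith)
        have h5 : y' ∈ closedBall z' (2 * K * r) := by
          rw [mem_closedBall, dist_eq_norm]
          nlinarith
        have h6 := AG.three' (B := M) (c₀ := G⁻¹ / (2 * Real.log (2 * K))) (D := D + (2 * M + 1))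
          (hps γ' b) (hlb γ' b) hK (by
            rw [hR']
            exact (hsub b z' hz').trans (C.cB_sub_B (by norm_num) b)) hr hrδ (hw γ' b z' hz').2.2.1
          (fun x hx => by
            rw [hR'] at hx
            linarith [(abs_le.1 (hρ b x (hsub b z' hz' hx))).2, (hD (C.pt γ' b x)).2])
          (by positivity) (by
            linarith [(abs_le.1 (hρ b z' (hsub b z' hz' (mem_closedBall_self hR.le)))).1,
              (hD (C.pt γ' b z')).1]) hDc h5
        have h7 : G⁻¹ / (2 * Real.log (2 * K)) * Real.log (2 * K) = G⁻¹ / 2 := by field_simp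
        have h8 := (abs_le.1 ((hrad a).2 z (hsub a z hz (mem_closedBall_self hR.le)) y
          (hsub a z hz (closedBall_subset_closedBall h2r hy)) ((mem_closedBall.1 hy).trans h2r))).2
        have h9 := (abs_le.1 ((hrad b).2 z' (hsub b z' hz' (mem_closedBall_self hR.le)) y'
          (hsub b z' hz' (closedBall_subset_closedBall hKr h5))
          ((mem_closedBall.1 h5).trans hKr))).1
        rw [he']
        linarith
      linarith)
  rw [mul_inv_cancel₀ hG.ne'] at h2 h3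
  refine ⟨g, fun y => h1 y trivial, fun γ a z hz => ?_, fun γ a z hz => ⟨fun z' hz' => ?_,
    fun A hA => ?_⟩⟩
  · have := h2 γ a z hz trivial
    rwa [one_add_one_eq_two] at this
  · have h4 := (hw γ a z hz).2.2.1 z' hz'
    linarith [(abs_le.1 (h3 γ a z hz trivial)).1,
      (abs_le.1 (hρ a z (hsub a z hz (mem_closedBall_self hR.le)))).2,
      (abs_le.1 (hρ a z' (hsub a z hz (closedBall_subset_closedBall (by linarith) hz')))).1]
  · have h4 := (hw γ a z hz).2.2.2 (M + A) fun y hy => add_le_add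
      (abs_le.1 (hρ a y (hsub a z hz (closedBall_subset_closedBall h2r hy)))).2 (hA y hy)
    linarith [(abs_le.1 (h3 γ a z hz trivial)).2,
      (abs_le.1 (hρ a z (hsub a z hz (mem_closedBall_self hR.le)))).1]

end Vale.Agent.P284Y.A
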