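import Vale.Agent.P284Y.A.A6
import Vale.Agent.P284Y.A.A7
import Vale.Agent.P284Y.A.AttG
import Vale.Agent.P284Y.A.A11a
import Vale.Agent.P284Y.A.A11b

/-!
# P284Y, block A: the rows A6, A7, A11
-/

namespace Vale.Agent.P284Y.A

theorem a6St : A6St := a6 a7

theorem a11 : A11St := a11_of (a11a attG) a11b

end Vale.Agent.P284Y.A
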