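import Vale.Agent.P284Y.A.Out
import Vale.Agent.P284Y.Tb.Ker
import Vale.Agent.P284Y.Tb.Graph
import Vale.Agent.P284.H451.D.Sard

/-!
# P284Y, block A: tubes (A9)
-/

set_option linter.all false

open scoped Topology
open Filter Set Metric MeasureTheory

noncomputable section

namespace Vale.Agent.P284Y.A

open Vale.Agent.P272.K Vale.Agent.P284Z Vale.Agent.P284Y.Lib Vale.Agent.P284Y.Tb

variable {n : ℕ} {Γ E : Type} [Group Γ] [TopologicalSpace E] [MulAction Γ E] {C : Cov n Γ E}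
  {W : Tw C}

namespace T9

theorem box_rel {d p k₁ K : ℕ} (N : TBox W d p k₁ K) (hK : k₁ + 3 ≤ K) :
    ∀ x ∈ N.Ψ.source, ∀ y ∈ N.Ψ.source, (N.Ψ x).2 = (N.Ψ y).2 ↔ W.R (k₁ + 3) x y :=
  fun x hx y hy => ⟨N.same x hx y hy, fun h => N.sep x hx y hy _ hK (W.sub _ _ _ h)⟩

/-- the foliation of the tower -/
def fol (Φ : TFol W) : Fol C where
  d := Φ.d
  p := Φ.p
  dim := Φ.dim
  p_pos := Φ.p_pos
  O := Φ.O (Φ.k₁ + 5)
  opn := Φ.opn _
  inv := Φ.inv _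
  conn := Φ.conn _
  thin := Φ.thin _
  Kd := Kd W (Φ.k₁ + 3) Φ.p
  loc := fun y hy => by
    obtain ⟨N, h1, -, h2⟩ := Φ.box _ y hy univ univ_mem
    exact ⟨N.Ψ.source, fun y => (N.Ψ y).2, N.Ψ.open_source, h1, h2.trans inter_subset_left,
      (ofTBox N).hol_sh, fun γ a z hz h => ⟨(ofTBox N).surj hz h, ker_iff Φ.dim N.Ψ.open_source
        (ofTBox N).hol_sh (box_rel N (by omega)) hz h ((ofTBox N).surj hz h)⟩⟩

variable {Φ : TFol W} (T : TT Φ)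

theorem conn {t : Cm Φ.p} (ht : t ∈ ball T.t₁ T.r) : IsConnected {y ∈ T.U | T.sh y = t} := by
  have : Nonempty T.J := ⟨T.j₀⟩
  have e : {y ∈ T.U | T.sh y = t} =
      ⋃ j, (fun u => (T.box j).Ψ.symm (u, t)) '' ball (0 : Cm Φ.d) 4 := by
    refine Subset.antisymm (fun y hy => ?_) (iUnion_subset fun j => ?_)
    · obtain ⟨j, h1, -⟩ := T.cover y hy.1
      exact mem_iUnion.2 ⟨j, _, mem_ball_zero_iff.2 ((T.box j).fst_lt h1),
        hy.2 ▸ (T.box j).left_inv h1⟩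
    · rintro _ ⟨u, hu, rfl⟩
      rw [mem_ball_zero_iff] at hu
      exact ⟨T.sub j ((T.box j).src hu ht), (T.box j).sh_symm hu ht⟩
  rw [e]
  refine IsConnected.iUnion_of_reflTransGen (fun j => IsConnected.image
    ⟨nonempty_ball.2 (by norm_num), (convex_ball _ _).isPreconnected⟩ _
    ((T.box j).Ψ.continuousOn_symm.comp (continuous_id.prodMk continuous_const).continuousOn
      fun u hu => (T.box j).mem_tgt.2 ⟨mem_ball_zero_iff.1 hu, ht⟩)) fun i j =>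
    Relation.ReflTransGen.mono ?_ _ _ (T.nerve i j)
  rintro i j ⟨u, δ, hδ, h1, h2⟩
  have h3 : ‖u‖ < 4 := (mem_ball_zero_iff.1 (h1 (mem_ball_self hδ))).trans (by norm_num)
  have h4 := (h2 u (mem_ball_self hδ) t ht).1
  have h5 := (T.box j).left_inv h4
  rw [(T.box i).sh_symm h3 ht] at h5
  exact ⟨_, ⟨u, mem_ball_zero_iff.2 h3, rfl⟩, _, mem_ball_zero_iff.2 ((T.box j).fst_lt h4), h5⟩

theorem surj {γ : Γ} {a : C.I} {z : Cm n} (hz : z ∈ C.B 4 a) (h : C.pt γ a z ∈ T.U) :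
    Function.Surjective (fderiv ℂ (fun w => T.sh (C.pt γ a w)) z) := by
  obtain ⟨j, h1, -⟩ := T.cover _ h
  exact (T.box j).toG.surj hz h1

theorem mem {y : E} (h : y ∈ T.U) : T.sh y ∈ ball T.t₁ T.r := by
  obtain ⟨j, h1, -⟩ := T.cover _ h
  exact (T.box j).sh_mem h1

/-- the tube in the format of the interface -/
def tube : Tube (fol Φ) where
  U := T.U
  sh := T.sh
  t₁ := T.t₁
  r := T.r
  r_pos := T.r_pos
  opn := T.opn
  hol := T.hol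
  mem := fun _ => mem T
  surj := fun _ _ _ => surj T
  ker := fun γ a z hz h _ => ker_iff Φ.dim T.opn T.hol T.rel hz h (surj T hz h)
  cpt := fun r' hr => by
    have e : {y ∈ T.U | ‖T.sh y - T.t₁‖ ≤ r'} = T.U ∩ T.sh ⁻¹' closedBall T.t₁ r' :=
      Set.ext fun y => and_congr_right fun _ => mem_closedBall_iff_norm.symm
    exact e ▸ T.proper _ (isCompact_closedBall T.t₁ r') (closedBall_subset_ball hr)
  conn := fun _ => conn T
  J := T.J
  fin := @Fintype.ofFinite _ T.fin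
  Ψ := fun j => (T.box j).Ψ
  tgt := fun j => (T.box j).tgt
  src := T.sub
  snd := fun j => (T.box j).snd
  g := fun j => (T.box j).g
  a := fun j => (T.box j).a
  inch := fun j => (T.box j).inch
  holΨ := fun j => (T.box j).hol
  holΨ' := fun j => (T.box j).toG.hol'
  cover := T.cover
  nerve := fun i j => Relation.ReflTransGen.mono (fun i j ⟨u, δ, hδ, h1, h2⟩ =>
    ⟨min δ 1, ⟨lt_min hδ one_pos, min_le_right _ _⟩, u,
      mem_ball_zero_iff.1 (h1 (mem_ball_self hδ)), fun t ht u' hu' =>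
        h2 u' (ball_subset_ball (min_le_left _ _) hu') t ht⟩) _ _ (T.nerve i j)

theorem gen {x : E} (hx : x ∈ T.U) (hO : ∀ K, x ∈ Φ.O K) : (tube T).Gen W x := by
  intro k
  obtain ⟨N, n1, -, n2⟩ := Φ.box (k + Φ.k₁ + 5) x (hO _) T.U (T.opn.mem_nhds hx)
  obtain ⟨j, h1, -⟩ := T.cover x hx
  have h2 := (T.box j).left_inv h1
  obtain ⟨r', hr', h3⟩ := Metric.eventually_nhds_iff_ball.1
    (((continuous_const.prodMk continuous_id).tendsto (T.sh x)).eventually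
      ((T.box j).toG.ev_mem ((T.box j).mem_tgt.2 ⟨(T.box j).fst_lt h1, mem T hx⟩)
        N.Ψ.open_source (h2.symm ▸ n1)))
  refine ⟨r', hr', fun y hy h4 h5 => ?_⟩
  obtain ⟨h6, h7⟩ := h3 _ (mem_ball_iff_norm.2 h4)
  have h8 := (T.box j).toG.sh_symm h6
  have h9 := W.R_trans h5 ((T.rel y hy _ (n2 h7).2).1 h8.symm) (l := k + Φ.k₁ + 5) (by omega)
    (by omega)
  exact h8.symm.trans ((T.rel x hx _ (n2 h7).2).2
    (N.same x n1 _ h7 (N.sep x n1 _ h7 _ le_rfl (W.sub _ _ _ h9)))).symm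

theorem ae_O [Countable Γ] (Φ : TFol W) (K : ℕ) (γ : Γ) (a : C.I) :
    ∀ᵐ z, z ∈ C.B 4 a → C.pt γ a z ∈ Φ.O K :=
  C.ae_of_thin one_le_two (by norm_num) (fun γ a => (Φ.thin K a).imp fun f h =>
    ⟨h.1, h.2.1, fun z hz h0 => C.pt_eq γ a z ▸ Φ.inv K γ _ (h.2.2 z hz h0)⟩) γ a

theorem ae_gen [Countable Γ] : ∀ᵐ t, t ∈ ball T.t₁ T.r →
    ∃ x ∈ T.U, T.sh x = t ∧ ∀ K, x ∈ Φ.O K := by
  have h1 := (T.box T.j₀).toG.ae_symm Φ.dim (Q := fun y => ∀ K, y ∈ Φ.O K)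
    ((ae_all_iff.2 fun K => ae_O Φ K _ _).mono fun z h hz K => h K hz)
  filter_upwards [Measure.ae_ae_of_ae_prod
    ((Measure.measurePreserving_swap (μ := volume) (ν := volume)).quasiMeasurePreserving.ae h1)]
    with t h2 ht
  obtain ⟨u, hu, h3⟩ := (Measure.dense_of_ae h2).inter_open_nonempty (ball 0 4) isOpen_ball
    (nonempty_ball.2 (by norm_num))
  rw [mem_ball_zero_iff] at hu
  exact ⟨_, T.sub _ ((T.box _).src hu ht), (T.box _).sh_symm hu ht,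
    h3 ((T.box _).mem_tgt.2 ⟨hu, ht⟩)⟩

/-- almost every point lies on the central fibre of a tube -/
theorem ae_tube [Countable Γ] [T2Space E] (Φ : TFol W) (γ : Γ) (a : C.I) :
    ∀ᵐ z, z ∈ C.B 4 a → ∃ T : TT Φ, C.pt γ a z ∈ T.U ∧ T.sh (C.pt γ a z) = T.t₁ := by
  have h1 : volume {z | (z ∈ C.B 4 a ∧ C.pt γ a z ∈ Φ.O (Φ.k₁ + 5)) ∧
      ¬ ∃ T : TT Φ, C.pt γ a z ∈ T.U ∧ T.sh (C.pt γ a z) = T.t₁} = 0 := by
    refine measure_null_of_locally_null _ fun z hz => ?_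
    obtain ⟨N, n1, -⟩ := Φ.box _ _ hz.1.2 univ univ_mem
    have h2 := Vale.Agent.P284.H451.D.sard_ae_iUnion (ι := Γ × C.I)
      (fun i => C.isOpen_preimage_pt i.1 i.2 (isOpen_Om (N := N)))
      (T := fun i w => shd N (C.pt i.1 i.2 w)) fun i w hw => hol_Om i.1 i.2 w hw.1 hw.2
    refine ⟨_, inter_mem_nhdsWithin _ ((C.continuousAt_pt hz.1.1 γ).preimage_mem_nhds
      (N.Ψ.open_source.mem_nhds n1)), measure_mono_null ?_
        ((ofTBox N).null_pre Φ.dim (ae_iff.1 h2) γ a)⟩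
    rintro w ⟨w1, w2⟩
    refine ⟨w1.1.1, w2, fun h3 => w1.2 ?_⟩
    obtain ⟨T, e1, e2, e3, e4⟩ := exists_PT Φ.dim isOpen_Om hol_Om (isCompact_fib le_rfl _)
      (fun g b v hv v1 v2 => h3 (g, b) v ⟨hv, v1⟩ v2) (src_Om le_rfl w2)
      ((rel_src w2).shd_eq le_rfl)
    refine ⟨⟨T, fun x hx y hy => ?_⟩, e3, ?_⟩
    · rw [e1]
      exact rel_iff le_rfl (e4 hx) (e4 hy)
    · show T.sh _ = T.t₁
      rw [e1, e2]
      exact (rel_src w2).shd_eq le_rfl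
  filter_upwards [ae_O Φ (Φ.k₁ + 5) γ a, compl_mem_ae_iff.2 h1] with z h2 h3 hz
  exact by_contra fun h => h3 ⟨⟨hz, h2 hz⟩, h⟩

end T9

open T9 in
theorem a9 : A9St := by
  intro n Γ E _ _ _ _ _ _ C W Φ
  let core : TT Φ → Set E := fun T => T.U ∩ T.sh ⁻¹' ball T.t₁ (T.r / 8)
  have ho : ∀ T, IsOpen (core T) := fun T => ContinuousOn.isOpen_inter_preimage
    (fun y hy => (T.hol.continuousAt C hy).continuousWithinAt) T.opn isOpen_ball
  choose S hS hS' using fun i : Γ × C.I => TopologicalSpace.isOpen_iUnion_countable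
    (fun T : TT Φ => {z | z ∈ C.B 4 i.2 ∧ C.pt i.1 i.2 z ∈ core T})
    fun T => C.isOpen_preimage_pt i.1 i.2 (ho T)
  have h1 : ∀ γ a, ∀ᵐ z, z ∈ C.B 4 a → ∃ T ∈ ⋃ i, S i, C.pt γ a z ∈ core T := fun γ a =>
    (ae_tube Φ γ a).mono fun z h hz => by
      obtain ⟨T, h1, h2⟩ := h hz
      obtain ⟨T', h3, h4⟩ := mem_iUnion₂.1 ((hS' (γ, a)).ge (mem_iUnion.2 ⟨T, hz, h1, by
        rw [mem_preimage, h2]
        exact mem_ball_self (by linarith [T.r_pos])⟩))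
      exact ⟨T', mem_iUnion.2 ⟨_, h3⟩, h4.2⟩
  obtain ⟨-, a₀, -⟩ := C.exists_pt (Classical.arbitrary E)
  obtain ⟨z, hz, h2⟩ := (Measure.dense_of_ae (h1 1 a₀)).inter_open_nonempty _ (C.isOpen_B 4 a₀)
    ⟨_, C.c_mem four_pos a₀⟩
  obtain ⟨T₀, h3, -⟩ := h2 hz
  obtain ⟨τ, hτ⟩ := (countable_iUnion hS).exists_eq_range ⟨T₀, h3⟩
  refine ⟨fol Φ, fun i => tube (τ i), fun γ a => (h1 γ a).mono fun z h hz => ?_,
    fun i => (ae_gen (τ i)).mono fun t h ht => ?_⟩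
  · obtain ⟨T, h4, h5⟩ := h hz
    obtain ⟨i, rfl⟩ := hτ.le h4
    exact ⟨i, h5.1, mem_ball_iff_norm.1 h5.2⟩
  · obtain ⟨x, h4, h5, h6⟩ := h ht
    exact ⟨x, h4, h5, gen _ h4 h6⟩

end Vale.Agent.P284Y.A
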