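import Vale.Agent.P284Y.A.Sk
import Vale.Agent.P284Y.Lib.Dg

/-!
# P284Y, block A: limits, levels, wells
-/

open scoped ContDiff Topology ComplexOrder ENNReal
open Filter Set Function Metric MeasureTheory

noncomputable section

namespace Vale.Agent.P284Y.A

open Vale.Agent.P272.K Vale.Agent.P284Z Vale.Agent.P284Y.Lib

namespace Ad

/-- comparison of asymptotic slopes -/
theorem slope_le {u v : ℝ → ℝ} {p q b M : ℝ} (hu : Tendsto (fun s => u s / s) atTop (𝓝 p))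
    (hv : Tendsto (fun s => v s / s) atTop (𝓝 q))
    (h : ∃ᶠ s in atTop, u s ≤ v s + b * s + M) : p ≤ q + b := by
  have h1 := (hv.add_const b).add ((tendsto_const_nhds (x := M)).div_atTop tendsto_id)
  rw [add_zero] at h1
  refine le_of_tendsto_of_tendsto_of_frequently hu h1
    ((h.and_eventually (eventually_gt_atTop 0)).mono fun s ⟨h2, h3⟩ => ?_)
  refine (div_le_div_of_nonneg_right h2 h3.le).trans_eq ?_
  rw [id, add_div, add_div, mul_div_cancel_right₀ _ h3.ne']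

theorem lin_lim (A : ℝ) : Tendsto (fun s : ℝ => A * s / s) atTop (𝓝 A) :=
  tendsto_const_nhds.congr' ((eventually_gt_atTop 0).mono fun _ h =>
    (mul_div_cancel_right₀ _ h.ne').symm)

/-- the asymptotic slope of a function which is convex up to a bounded error -/
theorem cvx_lim {g κ : ℝ → ℝ} {s₀ L M : ℝ} (h : ConvexOn ℝ (Ioi s₀) fun s => g s + κ s)
    (h1 : ∀ s, s₀ < s → 0 ≤ g s ∧ g s ≤ L * s) (h2 : ∀ s, s₀ < s → |κ s| ≤ M) :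
    ∃ γ, Tendsto (fun s => g s / s) atTop (𝓝 γ) := by
  set f : ℝ → ℝ := fun s => g s + κ s with hf
  have m0 : s₀ + 1 ∈ Ioi s₀ := lt_add_one s₀
  have lt : ∀ t, s₀ + 1 < max t (s₀ + 2) := fun t => lt_max_of_lt_right (by linarith)
  have hm : Monotone fun t => slope f (s₀ + 1) (max t (s₀ + 2)) := fun t t' e =>
    h.slope_mono m0 ⟨m0.trans (lt t), (lt t).ne'⟩ ⟨m0.trans (lt t'), (lt t').ne'⟩
      (max_le_max_right _ e)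
  have hb : BddAbove (range fun t => slope f (s₀ + 1) (max t (s₀ + 2))) := by
    refine ⟨L + |L * (s₀ + 1) + 2 * M|, ?_⟩
    rintro _ ⟨t, rfl⟩
    have k1 := le_max_right t (s₀ + 2)
    have k0 := lt t
    simp only [slope_def_field, hf]
    generalize max t (s₀ + 2) = x at k0 k1
    have k2 := (h1 x (by linarith)).2
    have k3 := (abs_le.1 (h2 x (by linarith))).2
    have k4 := (h1 _ m0).1
    have k5 := (abs_le.1 (h2 _ m0)).1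
    have k6 := le_abs_self (L * (s₀ + 1) + 2 * M)
    have k7 := mul_le_mul_of_nonneg_left (show 1 ≤ x - (s₀ + 1) by linarith)
      (abs_nonneg (L * (s₀ + 1) + 2 * M))
    rw [div_le_iff₀ (by linarith)]
    linarith
  obtain ⟨γ, hγ⟩ : ∃ γ, Tendsto (fun t => slope f (s₀ + 1) (max t (s₀ + 2))) atTop (𝓝 γ) :=
    ⟨_, tendsto_atTop_ciSup hm hb⟩
  have t0 : ∀ c : ℝ, Tendsto (fun s : ℝ => c / s) atTop (𝓝 0) := fun c =>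
    tendsto_const_nhds.div_atTop tendsto_id
  have t1 : Tendsto (fun s => κ s / s) atTop (𝓝 0) := by
    refine squeeze_zero_norm' ?_ (t0 M)
    filter_upwards [eventually_gt_atTop 0, eventually_gt_atTop s₀] with s k1 k2
    rw [Real.norm_eq_abs, abs_div, abs_of_pos k1]
    exact div_le_div_of_nonneg_right (h2 s k2) k1.le
  refine ⟨_, (((hγ.mul ((t0 (s₀ + 1)).const_sub 1)).add (t0 (f (s₀ + 1)))).sub t1).congr' ?_⟩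
  filter_upwards [eventually_gt_atTop 0, eventually_ge_atTop (s₀ + 2)] with s k1 k2
  have k3 : s - (s₀ + 1) ≠ 0 := by linarith [sub_pos.2 (show s₀ + 1 < s by linarith)] |> ne_of_gt
  rw [max_eq_left k2, slope_def_field]
  simp only [hf]
  field_simp
  ring

theorem cvx_slice {W : Type} [NormedAddCommGroup W] [NormedSpace ℂ W] {u κ : W → ℝ → ℝ} {U : Set W}
    {s₀ M : ℝ} (h : Psh (fun q : W × ℂ => u q.1 q.2.re + κ q.1 q.2.re) (U ×ˢ {t | s₀ < t.re}))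
    {p : W} (hp : p ∈ U) (h1 : ∀ s, s₀ < s → 0 ≤ u p s) (h2 : ∀ s, s₀ < s → |κ p s| ≤ M) :
    ConvexOn ℝ (Ioi s₀) fun s => u p s + κ p s := by
  refine cvx₁ isOpen_Ioi ordConnected_Ioi ?_ (LB.of_le (-M) fun t ht => by
    linarith [h1 _ ht, (abs_le.1 (h2 _ ht)).1])
  simpa [hp] using h.affine (p, 0) (ContinuousLinearMap.inr ℂ W ℂ)

variable {n : ℕ} {Γ E : Type} [Group Γ] [TopologicalSpace E] [MulAction Γ E] {C : Cov n Γ E}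

theorem Dp_mono {ψ : E → ℝ} {X X' s : ℝ} {i : Γ × C.I} {z : Cm n} (h : Dp C ψ X i z s)
    (e : X' ≤ X) : Dp C ψ X' i z s := fun w hw => (h w hw).trans (neg_le_neg e)

theorem cov (x : E) : ∃ i : Γ × C.I, ∃ z ∈ C.B 3 i.2, C.pt i.1 i.2 z = x := by
  obtain ⟨γ, a, z, h1, h2⟩ := C.cover x
  exact ⟨(γ, a), z, C.B_mono (k := 1) (by norm_num) a (by rwa [Cov.B, one_mul]), h2.symm⟩

theorem cl {i i' : Γ × C.I} {z z' : Cm n} (hz : z ∈ C.B 3 i.2)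
    (e : C.pt i.1 i.2 z = C.pt i'.1 i'.2 z') (s : ℝ) : Cl C s i z i' z' :=
  ⟨z, hz, by rw [sub_self, norm_zero]; positivity, e⟩

variable [MeasurableSpace E] {μ : Measure E} {T : AT C} (h : ATp T μ)

include h

theorem J_cvx {τ : ℝ} (hτ : 1 ≤ τ) (i j : Γ × C.I) : ∃ (κ : Cm n × Cm n → ℝ → ℝ) (M : ℝ),
    ∀ z ∈ C.B 3 i.2, ∀ w ∈ C.B 3 j.2, (∀ s, T.s₀ < s → |κ (z, w) s| ≤ M) ∧
      ConvexOn ℝ (Ioi T.s₀) fun s => T.J τ i z j w s + κ (z, w) s := by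
  obtain ⟨κ, M, k1, k2⟩ := h.J_psh τ hτ i j
  obtain ⟨L, hL⟩ := h.J_bd τ hτ
  exact ⟨κ, M, fun z hz w hw => ⟨k1 (z, w) ⟨hz, hw⟩, cvx_slice (u := fun q => T.J τ i q.1 j q.2)
    k2 (p := (z, w)) (mk_mem_prod hz hw) (fun s hs => (hL i z hz j w hw s hs).1) (k1 (z, w) ⟨hz, hw⟩)⟩⟩

theorem ex₁ : ∃ γ₁ : ℝ → E → ℝ, ∀ τ ≥ (1 : ℝ), ∀ i : Γ × C.I, ∀ z ∈ C.B 3 i.2,
    Tendsto (fun s => T.g τ i z s / s) atTop (𝓝 (γ₁ τ (C.pt i.1 i.2 z))) := by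
  have k : ∀ τ x, ∃ γ : ℝ, τ ≥ (1 : ℝ) → ∀ i : Γ × C.I, ∀ z ∈ C.B 3 i.2, C.pt i.1 i.2 z = x →
      Tendsto (fun s => T.g τ i z s / s) atTop (𝓝 γ) := by
    intro τ x
    by_cases hτ : τ ≥ 1
    swap
    · exact ⟨0, fun o => absurd o hτ⟩
    have e : ∀ i : Γ × C.I, ∀ z ∈ C.B 3 i.2, ∃ γ,
        Tendsto (fun s => T.g τ i z s / s) atTop (𝓝 γ) := fun i z hz => by
      obtain ⟨κ, M, k1, k2⟩ := h.g_psh τ hτ i
      obtain ⟨L, hL⟩ := h.g_bd τ hτ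
      exact cvx_lim (cvx_slice k2 hz (fun s hs => (hL i z hz s hs).1) (k1 z hz)) (hL i z hz)
        (k1 z hz)
    obtain ⟨M, hM⟩ := h.g_move τ hτ
    have le : ∀ (i : Γ × C.I) z, z ∈ C.B 3 i.2 → ∀ (i' : Γ × C.I) z', z' ∈ C.B 3 i'.2 →
        C.pt i.1 i.2 z = C.pt i'.1 i'.2 z' → ∀ p q,
        Tendsto (fun s => T.g τ i' z' s / s) atTop (𝓝 p) →
        Tendsto (fun s => T.g τ i z s / s) atTop (𝓝 q) → p ≤ q := fun i z hz i' z' hz' o p q a b =>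
      (slope_le (b := 0) (M := M) a b ((eventually_gt_atTop T.s₀).mono fun s hs => by
        linarith [hM i z hz i' z' hz' s hs (cl hz o s)]).frequently).trans_eq (add_zero q)
    obtain ⟨i, z, hz, rfl⟩ := cov (C := C) x
    obtain ⟨γ, hγ⟩ := e i z hz
    refine ⟨γ, fun _ i' z' hz' o => ?_⟩
    obtain ⟨γ', hγ'⟩ := e i' z' hz'
    rwa [le_antisymm (le i' z' hz' i z hz o _ _ hγ hγ') (le i z hz i' z' hz' o.symm _ _ hγ' hγ)]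
  choose γ₁ k using k
  exact ⟨γ₁, fun τ hτ i z hz => k τ _ hτ i z hz rfl⟩

theorem ex₂ : ∃ γ₂ : ℝ → E → E → ℝ, ∀ τ ≥ (1 : ℝ), ∀ i : Γ × C.I, ∀ z ∈ C.B 3 i.2,
    ∀ j : Γ × C.I, ∀ w ∈ C.B 3 j.2, Tendsto (fun s => T.J τ i z j w s / s) atTop
      (𝓝 (γ₂ τ (C.pt i.1 i.2 z) (C.pt j.1 j.2 w))) := by
  have k : ∀ τ x y, ∃ γ : ℝ, τ ≥ (1 : ℝ) → ∀ i : Γ × C.I, ∀ z ∈ C.B 3 i.2, ∀ j : Γ × C.I,
      ∀ w ∈ C.B 3 j.2, C.pt i.1 i.2 z = x → C.pt j.1 j.2 w = y →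
      Tendsto (fun s => T.J τ i z j w s / s) atTop (𝓝 γ) := by
    intro τ x y
    by_cases hτ : τ ≥ 1
    swap
    · exact ⟨0, fun o => absurd o hτ⟩
    have e : ∀ i : Γ × C.I, ∀ z ∈ C.B 3 i.2, ∀ j : Γ × C.I, ∀ w ∈ C.B 3 j.2, ∃ γ,
        Tendsto (fun s => T.J τ i z j w s / s) atTop (𝓝 γ) := fun i z hz j w hw => by
      obtain ⟨κ, M, k1⟩ := J_cvx h hτ i j
      obtain ⟨L, hL⟩ := h.J_bd τ hτ
      exact cvx_lim (k1 z hz w hw).2 (hL i z hz j w hw) (k1 z hz w hw).1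
    obtain ⟨M, hM⟩ := h.J_move τ hτ
    have le : ∀ (i : Γ × C.I) z, z ∈ C.B 3 i.2 → ∀ (i' : Γ × C.I) z', z' ∈ C.B 3 i'.2 →
        ∀ (j : Γ × C.I) w, w ∈ C.B 3 j.2 → ∀ (j' : Γ × C.I) w', w' ∈ C.B 3 j'.2 →
        C.pt i.1 i.2 z = C.pt i'.1 i'.2 z' → C.pt j.1 j.2 w = C.pt j'.1 j'.2 w' → ∀ p q,
        Tendsto (fun s => T.J τ i' z' j' w' s / s) atTop (𝓝 p) →
        Tendsto (fun s => T.J τ i z j w s / s) atTop (𝓝 q) → p ≤ q :=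
      fun i z hz i' z' hz' j w hw j' w' hw' o o' p q a b =>
        (slope_le (b := 0) (M := M) a b ((eventually_gt_atTop T.s₀).mono fun s hs => by
          linarith [hM i z hz i' z' hz' j w hw j' w' hw' s hs (cl hz o s)
            (cl hw o' s)]).frequently).trans_eq (add_zero q)
    obtain ⟨i, z, hz, rfl⟩ := cov (C := C) x
    obtain ⟨j, w, hw, rfl⟩ := cov (C := C) y
    obtain ⟨γ, hγ⟩ := e i z hz j w hw
    refine ⟨γ, fun _ i' z' hz' j' w' hw' o o' => ?_⟩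
    obtain ⟨γ', hγ'⟩ := e i' z' hz' j' w' hw'
    rwa [le_antisymm (le i' z' hz' i z hz j' w' hw' j w hw o o' _ _ hγ hγ')
      (le i z hz i' z' hz' j w hw j' w' hw' o.symm o'.symm _ _ hγ' hγ)]
  choose γ₂ k using k
  exact ⟨γ₂, fun τ hτ i z hz j w hw => k τ _ _ hτ i z hz j w hw rfl rfl⟩

omit h in
/-- the asymptotic slopes -/
structure Sl (T : AT C) (γ₁ : ℝ → E → ℝ) (γ₂ : ℝ → E → E → ℝ) : Prop where
  g : ∀ τ ≥ (1 : ℝ), ∀ i : Γ × C.I, ∀ z ∈ C.B 3 i.2,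
    Tendsto (fun s => T.g τ i z s / s) atTop (𝓝 (γ₁ τ (C.pt i.1 i.2 z)))
  J : ∀ τ ≥ (1 : ℝ), ∀ i : Γ × C.I, ∀ z ∈ C.B 3 i.2, ∀ j : Γ × C.I, ∀ w ∈ C.B 3 j.2,
    Tendsto (fun s => T.J τ i z j w s / s) atTop (𝓝 (γ₂ τ (C.pt i.1 i.2 z) (C.pt j.1 j.2 w)))

variable {γ₁ : ℝ → E → ℝ} {γ₂ : ℝ → E → E → ℝ} (l : Sl T γ₁ γ₂)

include l

theorem level {τ τ' : ℝ} (hτ : 1 ≤ τ) (e : τ ≤ τ') (x y : E) :
    γ₁ τ x - γ₂ τ x y ≤ γ₁ τ' x - γ₂ τ' x y := by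
  obtain ⟨i, z, hz, rfl⟩ := cov (C := C) x
  obtain ⟨j, w, hw, rfl⟩ := cov (C := C) y
  refine le_of_tendsto_of_tendsto ((l.g τ hτ i z hz).sub (l.J τ hτ i z hz j w hw))
    ((l.g τ' (hτ.trans e) i z hz).sub (l.J τ' (hτ.trans e) i z hz j w hw)) ?_
  filter_upwards [eventually_gt_atTop 0, eventually_gt_atTop T.s₀] with s k1 k2
  rw [← sub_div, ← sub_div]
  exact div_le_div_of_nonneg_right (by linarith [h.sub τ τ' hτ e i z hz j w hw s k2]) k1.le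

theorem R1 {e : ℝ} (he : 0 < e) : ∃ a > (0 : ℝ), ∀ τ ≥ (1 : ℝ), ∀ i : Γ × C.I, ∀ z ∈ C.B 3 i.2,
    ∀ j : Γ × C.I, ∀ w ∈ C.B 3 j.2, (∀ᶠ s in atTop, Dp C (T.φ τ i z s) (e * s) j w s) →
      a ≤ γ₁ τ (C.pt i.1 i.2 z) + T.g₀ - γ₂ τ (C.pt i.1 i.2 z) (C.pt j.1 j.2 w) := by
  obtain ⟨a, ha, M, hM⟩ := h.a1 e he
  refine ⟨a, ha, fun τ hτ i z hz j w hw o => ?_⟩
  linarith [slope_le (l.J τ hτ i z hz j w hw) (l.g τ hτ i z hz)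
    ((o.and (eventually_gt_atTop T.s₀)).mono fun s k =>
      hM τ i z hz j w hw s k.2 k.1).frequently]

omit h [MeasurableSpace E] in
theorem ev_of {τ a M : ℝ} (hτ : 1 ≤ τ) (ha : 0 < a) {i j : Γ × C.I} {z w : Cm n}
    (hz : z ∈ C.B 3 i.2) (hw : w ∈ C.B 3 j.2) {P : ℝ → Prop} (k : ∀ s, T.s₀ < s → ¬ P s →
      T.g τ i z s + (T.g₀ - a / 2) * s - M ≤ T.J τ i z j w s)
    (r : a ≤ γ₁ τ (C.pt i.1 i.2 z) + T.g₀ - γ₂ τ (C.pt i.1 i.2 z) (C.pt j.1 j.2 w)) :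
    ∀ᶠ s in atTop, P s := by
  by_contra o
  linarith [slope_le (b := a / 2 - T.g₀) (M := M) (l.g τ hτ i z hz) (l.J τ hτ i z hz j w hw)
    (((not_eventually.1 o).and_eventually (eventually_gt_atTop T.s₀)).mono fun s o' => by
      linarith [k s o'.2 o'.1])]

theorem R2 {a : ℝ} (ha : 0 < a) : ∃ e > (0 : ℝ), ∀ τ ≥ (1 : ℝ), ∀ i : Γ × C.I, ∀ z ∈ C.B 3 i.2,
    ∀ j : Γ × C.I, ∀ w ∈ C.B 3 j.2,
      a ≤ γ₁ τ (C.pt i.1 i.2 z) + T.g₀ - γ₂ τ (C.pt i.1 i.2 z) (C.pt j.1 j.2 w) →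
      ∀ᶠ s in atTop, Dp C (T.φ (2 * (τ + n)) i z s) (e * s) j w s := by
  obtain ⟨e, he, k⟩ := h.a2 (a / 2) (half_pos ha)
  refine ⟨e, he, fun τ hτ i z hz j w hw r => ?_⟩
  obtain ⟨M, hM⟩ := k τ hτ
  exact ev_of l hτ ha hz hw (hM i z hz j w hw) r

theorem symm {τ a : ℝ} (hτ : 1 ≤ τ) (ha : 0 < a) : ∃ τ' ≥ (1 : ℝ), ∃ a' > (0 : ℝ), ∀ x y,
    a ≤ γ₁ τ x + T.g₀ - γ₂ τ x y → a' ≤ γ₁ τ' y + T.g₀ - γ₂ τ' y x := by
  obtain ⟨τ', hτ', e, he, M, hM⟩ := h.a3 (a / 2) (half_pos ha) τ hτ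
  obtain ⟨a', ha', k⟩ := R1 h l he
  refine ⟨τ', hτ', a', ha', fun x y r => ?_⟩
  obtain ⟨i, z, hz, rfl⟩ := cov (C := C) x
  obtain ⟨j, w, hw, rfl⟩ := cov (C := C) y
  exact k τ' hτ' j w hw i z hz (ev_of l hτ ha hz hw (hM i z hz j w hw) r)

theorem trans {τ a : ℝ} (hτ : 1 ≤ τ) (ha : 0 < a) : ∃ τ' ≥ (1 : ℝ), ∃ a' > (0 : ℝ), ∀ x y u,
    a ≤ γ₁ τ x + T.g₀ - γ₂ τ x y → a ≤ γ₁ τ y + T.g₀ - γ₂ τ y u →
      a' ≤ γ₁ τ' x + T.g₀ - γ₂ τ' x u := by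
  obtain ⟨e, he, k⟩ := R2 h l ha
  obtain ⟨a', ha', k'⟩ := R1 h l he
  have n0 : (0 : ℝ) ≤ n := Nat.cast_nonneg n
  have t1 : 1 ≤ 2 * (τ + n) := by linarith
  replace k := k τ hτ
  generalize 2 * (τ + n) = τ₁ at k t1
  obtain ⟨t, t0, t2, t3⟩ : ∃ t : ℝ, 0 < t ∧ t < 1 ∧ t * (2 * (τ₁ + n)) ≤ e :=
    ⟨min (1 / 2) (e / (2 * (τ₁ + n))), by positivity, min_lt_of_left_lt (by norm_num),
      (le_div_iff₀ (by positivity)).1 (min_le_right _ _)⟩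
  have t4 : 1 ≤ (τ₁ + n) / t := (one_le_div t0).2 (by linarith)
  obtain ⟨M₁, k1⟩ := h.up _ t4
  obtain ⟨M₂, k2⟩ := h.dom t (t * M₁) t0 t2
  obtain ⟨M₃, k3⟩ := h.dom (1 / 2) (M₂ / t / 2) (by norm_num) (by norm_num)
  refine ⟨_, t4, a', ha', fun x y u r r' => ?_⟩
  obtain ⟨i, z, hz, rfl⟩ := cov (C := C) x
  obtain ⟨j, w, hw, rfl⟩ := cov (C := C) y
  obtain ⟨j', w', hw', rfl⟩ := cov (C := C) u
  refine k' _ t4 i z hz j' w' hw' ?_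
  filter_upwards [k i z hz j w hw r, k j w hw j' w' hw' r', eventually_gt_atTop T.s₀,
    eventually_ge_atTop (2 * M₃ / e), eventually_ge_atTop 0] with s o1 o2 o3 o4 o5 v hv
  have p0 := h.np ((τ₁ + n) / t) i z hz s o3
  have p1 := k2 τ₁ t1 i z hz s o3 _ p0
    (Dp_mono (k1 i z hz s o3 s le_rfl) (le_of_eq (by field_simp)))
  have p2 := k3 τ₁ t1 j w hw s o3 _ p0 (fun v hv => le_of_mul_le_mul_left (a := t) (by
    have p3 : t * (M₂ / t) = M₂ := mul_div_cancel₀ _ t0.ne'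
    linarith [p1 (C.pt j.1 j.2 v), o1 v hv, mul_le_mul_of_nonneg_right t3 o5]) t0)
  linarith [p2 (C.pt j'.1 j'.2 v), o2 v hv, (div_le_iff₀ he).1 o4]

theorem refl : ∃ a > (0 : ℝ), ∀ x, a ≤ γ₁ 1 x + T.g₀ - γ₂ 1 x x := by
  obtain ⟨a, ha, k⟩ := R1 h l (e := 1 / 2) (by norm_num)
  obtain ⟨M, hM⟩ := h.up 1 le_rfl
  refine ⟨a, ha, fun x => ?_⟩
  obtain ⟨i, z, hz, rfl⟩ := cov (C := C) x
  refine k 1 le_rfl i z hz i z hz ?_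
  filter_upwards [eventually_gt_atTop T.s₀, eventually_ge_atTop (2 * M)] with s o1 o2
  exact Dp_mono (hM i z hz s o1 s le_rfl) (by linarith)

theorem levels : ∃ τ a : ℕ → ℝ, (∀ k : ℕ, (k : ℝ) + 1 ≤ τ k) ∧ (∀ k, τ k ≤ τ (k + 1)) ∧
    (∀ k, 0 < a k) ∧ (∀ k, a (k + 1) ≤ a k / 4) ∧
    (∀ x, a 0 ≤ γ₁ (τ 0) x + T.g₀ - γ₂ (τ 0) x x) ∧
    (∀ k x y, a k ≤ γ₁ (τ k) x + T.g₀ - γ₂ (τ k) x y →
      a (k + 1) ≤ γ₁ (τ (k + 1)) y + T.g₀ - γ₂ (τ (k + 1)) y x) ∧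
    ∀ k x y u, a k ≤ γ₁ (τ k) x + T.g₀ - γ₂ (τ k) x y → a k ≤ γ₁ (τ k) y + T.g₀ - γ₂ (τ k) y u →
      a (k + 1) ≤ γ₁ (τ (k + 1)) x + T.g₀ - γ₂ (τ (k + 1)) x u := by
  have step : ∀ p : {p : ℝ × ℝ // 1 ≤ p.1 ∧ 0 < p.2}, ∃ q : {p : ℝ × ℝ // 1 ≤ p.1 ∧ 0 < p.2},
      p.1.1 + 1 ≤ q.1.1 ∧ q.1.2 ≤ p.1.2 / 4 ∧
      (∀ x y, p.1.2 ≤ γ₁ p.1.1 x + T.g₀ - γ₂ p.1.1 x y →
        q.1.2 ≤ γ₁ q.1.1 y + T.g₀ - γ₂ q.1.1 y x) ∧
      ∀ x y u, p.1.2 ≤ γ₁ p.1.1 x + T.g₀ - γ₂ p.1.1 x y → p.1.2 ≤ γ₁ p.1.1 y + T.g₀ - γ₂ p.1.1 y u →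
        q.1.2 ≤ γ₁ q.1.1 x + T.g₀ - γ₂ q.1.1 x u := by
    rintro ⟨⟨τ, a⟩, hτ, ha⟩
    obtain ⟨τ₁, t1, a₁, b1, k1⟩ := symm h l hτ ha
    obtain ⟨τ₂, t2, a₂, b2, k2⟩ := trans h l hτ ha
    have m1 := (le_max_left τ₁ τ₂).trans (le_max_right (τ + 1) _)
    have m2 := (le_max_right τ₁ τ₂).trans (le_max_right (τ + 1) _)
    have m3 := (min_le_right (a / 4) _).trans (min_le_left a₁ a₂)
    have m4 := (min_le_right (a / 4) _).trans (min_le_right a₁ a₂)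
    exact ⟨⟨(max (τ + 1) (max τ₁ τ₂), min (a / 4) (min a₁ a₂)), t1.le.trans m1,
      lt_min (by positivity) (lt_min b1 b2)⟩, le_max_left _ _, min_le_left _ _,
      fun x y r => by linarith [k1 x y r, level h l t1 m1 y x],
      fun x y u r r' => by linarith [k2 x y u r r', level h l t2 m2 x u]⟩
  choose f hf using step
  obtain ⟨a, ha, k⟩ := refl h l
  let p : ℕ → {p : ℝ × ℝ // 1 ≤ p.1 ∧ 0 < p.2} := Nat.rec ⟨(1, a), le_rfl, ha⟩ fun _ => f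
  have m : ∀ k, (p k).1.1 + 1 ≤ (p (k + 1)).1.1 := fun k => (hf _).1
  refine ⟨fun k => (p k).1.1, fun k => (p k).1.2, fun k => ?_, fun k => by linarith [m k],
    fun k => (p k).2.2, fun k => (hf _).2.1, k, fun k => (hf _).2.2.1, fun k => (hf _).2.2.2⟩
  induction k with
  | zero => simpa using (p 0).2.1
  | succ k ih =>
    push_cast
    linarith [m k]

/-- a bound for `J` near `w` at large scales gives a bound for the slope at `w` -/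
theorem slope_of {τ b M₀ : ℝ} (hτ : 1 ≤ τ) {i j : Γ × C.I} {z w : Cm n} (hz : z ∈ C.B 3 i.2)
    (hw : w ∈ C.B 3 j.2) (k : ∀ δ > (0 : ℝ), ∃ᶠ s in atTop, ∃ w' ∈ C.B 3 j.2, ‖w - w'‖ ≤ δ ∧
      T.J τ i z j w' s ≤ T.g τ i z s + b * s + M₀) :
    γ₂ τ (C.pt i.1 i.2 z) (C.pt j.1 j.2 w) ≤ γ₁ τ (C.pt i.1 i.2 z) + b := by
  obtain ⟨κ, M, k1⟩ := J_cvx h hτ i j
  obtain ⟨L, k2⟩ := h.J_bd τ hτ
  obtain ⟨M₁, k3⟩ := h.J_move τ hτ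
  obtain ⟨s₁, e1⟩ : ∃ s₁, T.s₀ < s₁ := ⟨_, lt_add_one _⟩
  obtain ⟨A, hA⟩ : ∃ A, A = L * s₁ + M := ⟨_, rfl⟩
  have A0 : 0 ≤ A := by
    linarith [(k2 i z hz j w hw s₁ e1).1, (k2 i z hz j w hw s₁ e1).2,
      (abs_nonneg _).trans ((k1 z hz w hw).1 s₁ e1)]
  have main : ∀ s, s₁ < s → T.J τ i z j w s - (A + M + M₁) ≤
      (s - s₁) * γ₁ τ (C.pt i.1 i.2 z) + (s - s₁) * b := by
    intro s e2
    refine slope_le (v := fun t => (s - s₁) * T.g τ i z t) (M := (s - s₁) * (M₀ + M) +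
      (T.J τ i z j w s - (A + M + M₁)) * s₁) (lin_lim _)
      (((l.g τ hτ i z hz).const_mul _).congr fun t => (mul_div_assoc _ _ _).symm)
      (((k _ (Real.exp_pos (-s / 2))).and_eventually (eventually_gt_atTop s)).mono ?_)
    rintro t ⟨⟨w', w1, w2, w3⟩, e3⟩
    obtain ⟨c1, c2⟩ := k1 z hz w' w1
    have c3 := c2.secant_mono_aux1 e1 (e1.trans (e2.trans e3)) e2 e3
    have c4 := k3 i z hz i z hz j w' w1 j w hw s (e1.trans e2) (cl hz rfl s) ⟨w, hw, w2, rfl⟩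
    have c5 := (abs_le.1 (c1 s (e1.trans e2))).1
    have c6 := mul_le_mul_of_nonneg_left (show T.J τ i z j w' t + κ (z, w') t ≤
      T.g τ i z t + b * t + M₀ + M by linarith [(abs_le.1 (c1 t (e1.trans (e2.trans e3)))).2])
      (sub_pos.2 e2).le
    have c7 := mul_le_mul_of_nonneg_left (show T.J τ i z j w' s₁ + κ (z, w') s₁ ≤ A by
      linarith [(abs_le.1 (c1 s₁ e1)).2, (k2 i z hz j w' w1 s₁ e1).2]) (sub_pos.2 e3).le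
    have c8 := mul_le_mul_of_nonneg_left (show T.J τ i z j w s - (M + M₁) ≤
      T.J τ i z j w' s + κ (z, w') s by linarith) (sub_pos.2 (e2.trans e3)).le
    have c9 := mul_nonneg (sub_pos.2 e2).le A0
    linarith
  exact slope_le (v := fun s => γ₁ τ (C.pt i.1 i.2 z) * s)
    (M := A + M + M₁ - s₁ * (γ₁ τ (C.pt i.1 i.2 z) + b)) (l.J τ hτ i z hz j w hw) (lin_lim _)
    ((eventually_gt_atTop s₁).mono fun s e2 => by linarith [main s e2]).frequently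

theorem wells {τ K : ℝ} (hτ : 1 ≤ τ) (hK : 1 ≤ K) : ∃ a > (0 : ℝ), ∀ τ' ≥ 2 * (τ + n), ∀ γ c,
    ∀ z ∈ C.B 1 c, ∃ (φ : ℝ → E → ℝ) (M S₀ : ℝ), Well C τ M S₀ γ c z φ ∧ ∀ γ' b, ∀ w ∈ C.B 2 b,
      (∀ δ > (0 : ℝ), ∀ S₁ : ℝ, ∃ S ≥ S₁, ∃ w' ∈ ball w δ,
        ∀ w'' ∈ closedBall w' (Real.exp (-(K * S) / 2)), φ S (C.pt γ' b w'') ≤ -S) →
      a ≤ γ₁ τ' (C.pt γ c z) + T.g₀ - γ₂ τ' (C.pt γ c z) (C.pt γ' b w) := by
  have n0 : (0 : ℝ) ≤ n := Nat.cast_nonneg n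
  have t1 : 1 ≤ 2 * (τ + n) := by linarith
  have K0 : 0 < K := by linarith
  obtain ⟨a, ha, M₀, k0⟩ := h.a1 K⁻¹ (inv_pos.2 K0)
  obtain ⟨M₁, k1⟩ := h.up _ t1
  obtain ⟨M₂, k2⟩ := h.dom (1 / 2) (M₁ / 2) (by norm_num) (by norm_num)
  obtain ⟨M₃, k3⟩ := h.lo
  obtain ⟨M₄, k4⟩ := h.up τ hτ
  refine ⟨a, ha, fun τ' hτ' γ c z hz => ?_⟩
  replace hz : z ∈ C.B 3 (γ, c).2 := C.B_mono (by norm_num) c hz
  have s1 : ∀ {S}, T.s₀ + 1 ≤ S → T.s₀ < S := fun o => (lt_add_one _).trans_le o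
  refine ⟨T.φ τ (γ, c) z, max M₃ M₄, T.s₀ + 1, ⟨fun S o y γ' b w hw e =>
    ((h.np τ _ z hz S (s1 o)).1 y trivial).1 (γ', b) w hw e, fun S o γ' b w hw => ?_,
    fun S o y => ?_, fun S o => (h.np τ _ z hz S (s1 o)).2, fun S o z' hz' => ?_⟩,
    fun γ' b w hw H => ?_⟩
  · simp only [Cov.om, one_mul]
    exact ((h.np τ _ z hz S (s1 o)).1 _ trivial).2 (γ', b) w hw rfl
  · linarith [k3 τ hτ _ z hz S (s1 o) y, le_max_left M₃ M₄]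
  · linarith [k4 _ z hz S (s1 o) S le_rfl z' (mem_closedBall_iff_norm.1 hz'), le_max_right M₃ M₄]
  replace hw : w ∈ C.B 3 (γ', b).2 := C.B_mono (by norm_num) b hw
  obtain ⟨δ₀, d0, d1⟩ := Metric.isOpen_iff.1 (C.isOpen_B 3 b) w hw
  suffices o : γ₂ τ' (C.pt γ c z) (C.pt γ' b w) ≤ γ₁ τ' (C.pt γ c z) + (T.g₀ - a) by linarith
  refine slope_of h l (M₀ := M₀) (t1.trans hτ') hz hw fun δ hδ => frequently_atTop.2 fun S₁ => ?_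
  obtain ⟨S, e1, w', w1, w2⟩ := H _ (lt_min hδ d0) (max S₁ (max (T.s₀ + 1) (2 * M₂)))
  simp only [ge_iff_le, max_le_iff] at e1
  have e2 : S ≤ K * S := le_mul_of_one_le_left (by linarith [h.s₀_ge, e1.2.1]) hK
  have e3 := s1 (e1.2.1.trans e2)
  have w3 : w' ∈ C.B 3 (γ', b).2 := d1 (ball_subset_ball (min_le_right _ _) w1)
  have p1 := k2 τ hτ _ z hz S (s1 e1.2.1) _ (h.np _ _ z hz _ e3)
    (Dp_mono (k1 _ z hz _ e3 S e2) (le_of_eq (by ring)))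
  have p2 := k0 (2 * (τ + n)) _ z hz _ w' w3 _ e3 fun v hv => by
    rw [inv_mul_cancel_left₀ K0.ne']
    linarith [p1 (C.pt γ' b v), w2 v (mem_closedBall_iff_norm.2 hv), e1.2.2]
  exact ⟨K * S, e1.1.trans e2, w', w3,
    ((mem_ball_iff_norm'.1 w1).trans_le (min_le_left _ _)).le,
    by linarith [h.sub _ τ' t1 hτ' _ z hz _ w' w3 _ e3]⟩

end Ad

open Ad in
theorem stAD : StAD := by
  intro n Γ E _ _ _ _ _ _ _ C μ _ T h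
  obtain ⟨γ₁, l1⟩ := ex₁ h
  obtain ⟨γ₂, l2⟩ := ex₂ h
  have l : Sl T γ₁ γ₂ := ⟨l1, l2⟩
  obtain ⟨τ, a, t1, t2, a1, a2, r1, r2, r3⟩ := levels h l
  have t0 : ∀ k, 1 ≤ τ k := fun k => le_trans (le_add_of_nonneg_left (Nat.cast_nonneg k)) (t1 k)
  have n0 : (0 : ℝ) ≤ n := Nat.cast_nonneg n
  refine ⟨⟨a, T.s₀, T.g₀, fun k => T.g (τ k), fun k => T.J (τ k), fun k => γ₁ (τ k),
    fun k => γ₂ (τ k)⟩, ⟨a1, a2, h.s₀_ge, fun k => h.g_bd _ (t0 k), fun k => h.J_bd _ (t0 k),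
    fun k => h.g_psh _ (t0 k), fun k => h.J_psh _ (t0 k), fun k => l1 _ (t0 k),
    fun k => l2 _ (t0 k), fun k => h.g_inv _, fun k => h.J_inv _, fun k => h.g_move _ (t0 k),
    fun k => h.J_move _ (t0 k), fun k => level h l (t0 k) (t2 k), r1, r2, r3, fun k x => ?_⟩,
    fun W hW τ' K hτ hK => ?_⟩
  · obtain ⟨e, he, k1⟩ := R2 h l (a1 k)
    obtain ⟨M, hM, k2⟩ := h.vol (2 * (τ k + n)) (by linarith [t0 k])
    obtain ⟨i, z, hz, rfl⟩ := cov (C := C) x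
    exact ⟨T.φ (2 * (τ k + n)) i z, e, M, he, hM, (eventually_gt_atTop T.s₀).mono fun s o =>
      ⟨(h.np _ i z hz s o).1, (h.np _ i z hz s o).2, k2 i z hz s o⟩, fun γ b w hw r =>
        k1 _ (t0 k) i z hz (γ, b) w (C.B_mono (by norm_num) b hw) r⟩
  · obtain ⟨b, hb, k1⟩ := wells h l hτ hK
    have a3 : ∀ k : ℕ, a k * (k + 1) ≤ a 0 := fun k => by
      induction k with
      | zero => simp
      | succ k ih =>
        push_cast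
        nlinarith [a1 k, a2 k, a1 (k + 1), (Nat.cast_nonneg k : (0 : ℝ) ≤ k)]
    obtain ⟨k, hk⟩ := exists_nat_ge (max (2 * (τ' + n)) (a 0 / b))
    have a4 : a k ≤ b := by
      have := (div_le_iff₀ hb).1 ((le_max_right _ _).trans hk)
      nlinarith [a3 k, a1 k, (Nat.cast_nonneg k : (0 : ℝ) ≤ k)]
    refine ⟨k, fun γ c z hz => ?_⟩
    obtain ⟨φ, M, S₀, k2, k3⟩ := k1 (τ k) (by linarith [t1 k, (le_max_left _ _).trans hk]) γ c z hz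
    exact ⟨φ, M, S₀, k2, fun γ' b' w hw H => hW ▸ a4.trans (k3 γ' b' w hw H)⟩

end Vale.Agent.P284Y.A
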