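import Vale.Agent.P284Y.A.Sk

/-!
# P284Y, block A: the continuous family
-/

open scoped ENNReal
open Set MeasureTheory

noncomputable section

namespace Vale.Agent.P284Y.A

open Vale.Agent.P272.K Vale.Agent.P284Z Vale.Agent.P284Y.Lib

namespace At

variable {n : ℕ} {Γ E : Type} [Group Γ] [TopologicalSpace E] [MulAction Γ E] [MeasurableSpace E]
  {C : Cov n Γ E} {μ : Measure E} {S : MAS (QE C) μ} {s₀ M₀ c₀ : ℝ} {i : Γ × C.I} {z : Cm n}
  {s : ℝ}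

theorem pos (g : G1 C μ s₀ M₀) (hs : s₀ < s) : 0 < s := by linarith [g.s₀_ge]

theorem dens (hG : Gen S) (g : G1 C μ s₀ M₀) (hz : z ∈ C.B 3 i.2) (hs : s₀ < s) (a : ℝ) :
    (QE C).Dens (Real.exp a • del C i z s) :=
  hG.pg.dens_smul _ _ (Real.exp_pos a).le (g.dens i z hz s hs)

theorem mono (g : G1 C μ s₀ M₀) (hz : z ∈ C.B 3 i.2) (hs : s₀ < s) {a b : ℝ} (h : a ≤ b) :
    Real.exp (a * s) • del C i z s ≤ Real.exp (b * s) • del C i z s := fun y =>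
  mul_le_mul_of_nonneg_right
    (Real.exp_le_exp.2 (mul_le_mul_of_nonneg_right h (pos g hs).le)) ((g.dens i z hz s hs).nonneg y)

theorem np (hG : Gen S) {ν : E → ℝ} (h : (QE C).Dens ν) : NP C (S.φ ν) :=
  ⟨hG.sp _ h, S.nonpos _ h⟩

theorem supp (g : G1 C μ s₀ M₀) (hz : z ∈ C.B 3 i.2) (hs : s₀ < s) {ψ : E → ℝ} {X a : ℝ}
    (h : Dp C ψ X i z s) (y : E) (hy : (a • del C i z s) y ≠ 0) : ψ y ≤ -X := by
  obtain ⟨w, _, h1, rfl⟩ := g.supp i z hz s hs y (right_ne_zero_of_mul hy)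
  exact h w h1.le

theorem up (hG : Gen S) (g : G1 C μ s₀ M₀) (l : L1 S s₀) {τ : ℝ} (hτ : 0 ≤ τ) :
    ∃ M ≥ (0 : ℝ), ∀ i : Γ × C.I, ∀ z ∈ C.B 3 i.2, ∀ s, s₀ < s → ∀ t ≤ s,
      Dp C (S.φ (Real.exp (τ * s) • del C i z s)) (τ * t - M) i z t := by
  obtain ⟨M, hM, h⟩ := l.up τ hτ
  refine ⟨M, hM, fun i z hz s hs t ht => ?_⟩
  have h0 := pos g hs
  have k := h i z hz s hs _ (dens hG g hz hs _) (τ * s) ⟨by positivity, le_rfl⟩ le_rfl t ht
  rwa [show τ * s * t / s = τ * t by field_simp] at k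

theorem m1 (hG : Gen S) (l : L1 S s₀) {τ : ℝ} (hτ : 0 ≤ τ) :
    ∃ m : ℝ, ∀ i : Γ × C.I, ∀ z ∈ C.B 3 i.2, ∀ s, s₀ < s →
      S.ms (Real.exp (τ * s) • del C i z s) (Real.exp (τ * s) • del C i z s) ≤ m := by
  obtain ⟨m, _, h⟩ := l.m1 τ hτ
  refine ⟨m, fun i z hz s hs => ?_⟩
  have k := h i z hz s hs 0 hG.pg.dens_zero _ le_rfl
  rwa [MAS.msl, zero_add] at k

theorem bd (g : G1 C μ s₀ M₀) (l : L1 S s₀) {τ : ℝ} (hτ : 0 ≤ τ) :
    ∃ L : ℝ, ∀ i : Γ × C.I, ∀ z ∈ C.B 3 i.2, ∀ s, s₀ < s → ∀ ν, (QE C).Dens ν →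
      S.G (ν + Real.exp (τ * s) • del C i z s) ≤ S.G ν + L * s := by
  obtain ⟨m, hm, h⟩ := l.shift τ hτ
  refine ⟨m * (τ + 1), fun i z hz s hs ν hν => ?_⟩
  have h0 := pos g hs
  have k := (h i z hz s hs ν hν _ _ le_rfl le_rfl).2 (by positivity)
  have : 1 ≤ s := by linarith [g.s₀_ge]
  nlinarith

theorem low (hG : Gen S) (g : G1 C μ s₀ M₀) (l : GL2 S s₀ c₀) {η : ℝ} (hη : 0 < η) :
    ∃ M : ℝ, ∀ c ∈ Icc (0 : ℝ) c₀, ∀ i : Γ × C.I, ∀ z ∈ C.B 3 i.2, ∀ s, s₀ < s →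
      (g0 n c - η) * s - M ≤ S.G (Real.exp (c * s) • del C i z s) := by
  obtain ⟨e, he, h⟩ := l η hη
  obtain ⟨M, h⟩ := h 0 0
  refine ⟨M, fun c hc i z hz s hs => ?_⟩
  have k := h c hc i z hz s hs 0 _ hG.pg.dens_zero (np hG hG.pg.dens_zero) (fun k => by
    have k1 := k z (by rw [sub_self, norm_zero]; positivity)
    rw [hG.zero, Pi.zero_apply] at k1
    nlinarith [pos g hs]) (by simp [MAS.ms]) fun y hy => absurd rfl hy
  rwa [zero_add, S.G0, sub_zero] at k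

/-- the action of `δ` -/
def hom (C : Cov n Γ E) (δ : Γ) : E ≃ₜ E :=
  ⟨MulAction.toPerm δ, C.cont δ, C.cont δ⁻¹⟩

theorem inv (g : G1 C μ s₀ M₀) (hz : z ∈ C.B 3 i.2) (hs : s₀ < s) (δ : Γ) (a : ℝ) :
    (a • del C (δ * i.1, i.2) z s) ∘ hom C δ = a • del C i z s :=
  funext fun y => congrArg (a * ·) (g.inv δ i z hz s hs y)

theorem a1 (hG : Gen S) (g : G1 C μ s₀ M₀) (l : L1 S s₀) (l2 : GL2 S s₀ c₀) (hc : 0 < c₀) {e : ℝ}
    (he : 0 < e) : ∃ a > (0 : ℝ), ∃ M : ℝ, ∀ ν, (QE C).Dens ν → ∀ j : Γ × C.I, ∀ w ∈ C.B 3 j.2,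
    ∀ s, s₀ < s → Dp C (S.φ ν) (e * s) j w s →
      S.G (ν + Real.exp (c₀ * s) • del C j w s) ≤ S.G ν + (g0 n c₀ - a) * s + M := by
  have he' : 0 < min e c₀ := lt_min he hc
  have hg : 0 < g0 n (min e c₀) := by
    have := mR_pos n
    unfold g0
    positivity
  obtain ⟨Mu, hu⟩ := l.gu c₀ hc.le (g0 n (min e c₀) / 4) (by positivity)
  obtain ⟨Ml, hl⟩ := low hG g l2 (η := g0 n (min e c₀) / 4) (by positivity)
  refine ⟨g0 n (min e c₀) / 2, by positivity, 1 + Mu + Ml, fun ν hν j w hw s hs hD => ?_⟩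
  have d1 := dens hG g hw hs (min e c₀ * s)
  have d2 := hG.pg.dens_add _ _ hν d1
  have k1 := hG.G_le ν _ _ hν d2 d1 le_rfl
  have k2 := hG.ms_le ν _ _ hν d1 (supp g hw hs hD)
  have k3 := hG.sub _ _ _ d1 d2 (hG.pg.dens_sub _ _ d1 (dens hG g hw hs (c₀ * s))
    (mono g hw hs (min_le_right e c₀))) (le_add_of_nonneg_left hν.nonneg)
  simp only [Pi.smul_apply, smul_eq_mul] at k2
  rw [integral_const_mul, g.int j w hw s hs, mul_one, ← Real.exp_add] at k2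
  have k4 : Real.exp (-(e * s) + min e c₀ * s) ≤ 1 :=
    Real.exp_le_one_iff.2 (by nlinarith [min_le_left e c₀, pos g hs])
  rw [MAS.I, MAS.I, add_assoc, add_sub_cancel] at k3
  linarith [hu j w hw s hs, hl _ ⟨he'.le, min_le_right _ _⟩ j w hw s hs]

end At

open At

theorem stAT : StAT := by
  intro hQ n Γ E _ _ _ _ _ _ _ C μ _ S hG s₀ M₀ c₀ g hc hc' hD l lp l2 l3
  have d := fun {i : Γ × C.I} {z : Cm n} {s : ℝ} => dens (i := i) (z := z) (s := s) hG g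
  have d0 := hG.pg.dens_zero
  have hn : (0 : ℝ) ≤ n := n.cast_nonneg
  obtain ⟨Ml, _, hl⟩ := l.lo
  refine ⟨⟨s₀, g0 n c₀, fun τ i z s => S.φ (Real.exp (τ * s) • del C i z s), gE S, JE S c₀⟩,
    by linarith [g.s₀_ge], fun τ i z hz s hs => np hG (d hz hs _),
    ⟨Ml, fun τ hτ i z hz s hs => hl τ (by linarith) i z hz i z hz s hs _ (d hz hs _)
      (le_add_of_nonneg_right (d hz hs _).nonneg)⟩,
    fun τ hτ => (up hG g l (by linarith)).imp fun _ h => h.2,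
    fun t D h0 h1 => (hD t D h0 h1).imp fun _ h τ hτ => h.2 τ (by linarith), fun τ hτ => ?_,
    fun τ hτ => ?_, fun τ hτ => ?_, fun τ hτ => lp.g_psh τ (by linarith),
    fun τ hτ => lp.J_psh c₀ hc.le τ (by linarith), fun τ δ i z hz s hs => ?_,
    fun τ δ i z hz j w hw s hs => ?_, fun τ hτ => ?_, fun τ hτ => ?_,
    fun τ τ' _ h i z hz j w hw s hs =>
      hG.sub _ _ _ (d hz hs _) (d hz hs _) (d hw hs _) (mono g hz hs h),
    fun e he => ?_, fun a ha => ?_, fun a ha τ hτ => ?_⟩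
  · obtain ⟨m, h⟩ := m1 hG l (τ := τ) (by linarith)
    exact ⟨_, ENNReal.ofReal_lt_top, fun i z hz s hs => (hG.vneg _ (d hz hs _)).trans
      (ENNReal.ofReal_le_ofReal (mul_le_mul_of_nonneg_left (h i z hz s hs) zero_le_two))⟩
  · obtain ⟨L, h⟩ := bd g l (τ := τ) (by linarith)
    refine ⟨L, fun i z hz s hs => ⟨hG.G_nonneg _ (d hz hs _), ?_⟩⟩
    have k := h i z hz s hs 0 d0
    rwa [zero_add, S.G0, zero_add] at k
  · obtain ⟨L, h⟩ := bd g l (τ := τ) (by linarith)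
    obtain ⟨L', h'⟩ := bd g l hc.le
    refine ⟨L + L', fun i z hz j w hw s hs =>
      ⟨hG.G_nonneg _ (hG.pg.dens_add _ _ (d hz hs _) (d hw hs _)), ?_⟩⟩
    have k := h i z hz s hs 0 d0
    rw [zero_add, S.G0] at k
    exact (h' j w hw s hs _ (d hz hs _)).trans (by linarith)
  · have k := (hG.aut (hom C δ) ((hQ n Γ E C).2 δ) _ (d (i := (δ * i.1, i.2)) hz hs (τ * s))).2
    rw [inv g hz hs] at k
    exact k.symm
  · have k := (hG.aut (hom C δ) ((hQ n Γ E C).2 δ) _ (hG.pg.dens_add _ _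
      (d (i := (δ * i.1, i.2)) hz hs (τ * s)) (d (i := (δ * j.1, j.2)) hw hs (c₀ * s)))).2
    rw [Pi.add_comp, inv g hz hs, inv g hw hs] at k
    exact k.symm
  · obtain ⟨M, _, h⟩ := l.move τ (by linarith)
    refine ⟨M, fun i z hz i' z' hz' s hs hcl => ?_⟩
    have k := h i z hz i' z' hz' s hs hcl 0 d0 (τ * s)
      ⟨mul_nonneg (by linarith) (pos g hs).le, le_rfl⟩
    rwa [zero_add, zero_add] at k
  · obtain ⟨M, _, h⟩ := l.move τ (by linarith)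
    refine ⟨M + M, fun i z hz i' z' hz' j w hw j' w' hw' s hs hcl hcl' => ?_⟩
    have h0 := pos g hs
    have k := h i z hz i' z' hz' s hs hcl _ (d hw hs (c₀ * s)) (τ * s)
      ⟨mul_nonneg (by linarith) h0.le, le_rfl⟩
    have k' := h j w hw j' w' hw' s hs hcl' _ (d hz' hs (τ * s)) (c₀ * s)
      ⟨by positivity, mul_le_mul_of_nonneg_right (by linarith) h0.le⟩
    rw [add_comm (_ • _), add_comm (_ • del C j w s)] at k
    exact k'.trans (by unfold JE; linarith)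
  · obtain ⟨a, ha, M, h⟩ := a1 hG g l l2 hc he
    exact ⟨a, ha, M, fun τ i z hz j w hw s hs => h _ (d hz hs _) j w hw s hs⟩
  · obtain ⟨e, he, h⟩ := l2 a ha
    refine ⟨e, he, fun τ hτ => ?_⟩
    obtain ⟨m, hm⟩ := m1 hG l (τ := τ) (by linarith)
    obtain ⟨Mu, _, hu⟩ := up hG g l (τ := 2 * (τ + n)) (by linarith)
    obtain ⟨M, h⟩ := h m (Mu / 2 + Ml)
    refine ⟨M, fun i z hz j w hw s hs hN => ?_⟩
    have k := h c₀ ⟨hc.le, le_rfl⟩ j w hw s hs _ _ (d hz hs (τ * s)) (np hG (d hz hs _)) hN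
      (hm i z hz s hs) fun y hy => by
        have k1 := supp g hz hs (hu i z hz s hs s le_rfl) y hy
        have k2 := hl τ (by linarith) i z hz j w hw s hs _
          (hG.pg.dens_add _ _ (d hz hs _) (d hw hs _))
          (add_le_add le_rfl (mono g hw hs (hc'.trans hτ))) y
        linarith
    unfold gE JE
    linarith
  · obtain ⟨t, ht, e, he, h⟩ := l3 (a / 2) (by linarith) τ (by linarith)
    obtain ⟨m, hm⟩ := m1 hG l hc.le
    have h1 : 1 ≤ (τ + n) / t := (one_le_div ht.1).2 (by linarith [ht.2])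
    obtain ⟨Mu, hMu, hu⟩ := up hG g l (zero_le_one.trans h1)
    obtain ⟨M, h⟩ := h m (Mu + Ml)
    obtain ⟨M', h'⟩ := low hG g l2 (half_pos ha)
    refine ⟨_, h1, e, he, M + M', fun i z hz j w hw s hs hN => ?_⟩
    have k := h i z hz s hs _ _ (d hw hs (c₀ * s)) (np hG (d hw hs _)) hN
      (hm j w hw s hs) fun y hy => by
        have k1 := mul_le_mul_of_nonneg_left (supp g hw hs (hu j w hw s hs s le_rfl) y hy) ht.1.le
        have k2 := hl τ (by linarith) j w hw i z hz s hs _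
          (hG.pg.dens_add _ _ (d hw hs _) (d hz hs _))
          (add_le_add (mono g hw hs (hc'.trans hτ)) le_rfl) y
        rw [neg_sub, mul_sub, ← mul_assoc, mul_div_cancel₀ _ ht.1.ne'] at k1
        nlinarith [ht.2]
    have k' := h' c₀ ⟨hc.le, le_rfl⟩ j w hw s hs
    rw [add_comm (_ • _)] at k
    unfold gE JE
    linarith

end Vale.Agent.P284Y.A
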