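import Vale.Agent.P284Y.A.Sk
import Vale.Agent.P284Y.A.Lip

/-!
# P284Y, block A: small lemmas shared by the rows A0 - A5
-/

open scoped ContDiff Topology ComplexOrder ENNReal Matrix
open Filter Set Function Metric MeasureTheory

noncomputable section

namespace Vale.Agent.P284Y.A

open Vale.Agent.P272.K Vale.Agent.P284Z Vale.Agent.P284Z.J Vale.Agent.P284Y.Lib

theorem det_mono {k : ℕ} {A B : Mx k} (hA : A.PosSemidef) (h : (B - A).PosSemidef) :
    A.det.re ≤ B.det.re := by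
  have h1 := md_mono (X := fun _ => A) (Y := fun _ => B) (fun _ => hA) fun _ => h
  rw [md_const, md_const] at h1
  exact le_of_mul_le_mul_left h1 (by positivity)

theorem nsq_le {k : ℕ} (x : Cm k) : nsq x ≤ k * ‖x‖ ^ 2 := by
  simpa [nsq] using Finset.sum_le_card_nsmul Finset.univ (fun b => ‖x b‖ ^ 2) (‖x‖ ^ 2)
    fun b _ => pow_le_pow_left₀ (norm_nonneg _) (norm_le_pi_norm x b) 2

theorem exp_half_sq (s : ℝ) : Real.exp (-s / 2) ^ 2 = Real.exp (-s) := by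
  rw [sq, ← Real.exp_add, add_halves]

variable {n : ℕ} {Γ E : Type} [Group Γ] [TopologicalSpace E] [MulAction Γ E] {C : Cov n Γ E}
  {ψ ψ' : E → ℝ} {X X' s s' s₀ M : ℝ} {i : Γ × C.I} {z w : Cm n}

theorem Dp.mono (h : Dp C ψ X i z s) (h1 : X' ≤ X) (h2 : s ≤ s') : Dp C ψ X' i z s' :=
  fun w hw => (h w (hw.trans (Real.exp_le_exp.2 (by linarith)))).trans (neg_le_neg h1)

theorem NP.dp (h : NP C ψ) (hX : X ≤ 0) (i : Γ × C.I) (z : Cm n) (s : ℝ) : Dp C ψ X i z s :=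
  fun _ _ => (h.2 _).trans (neg_nonneg.2 hX)

theorem NP.sm (h : NP C ψ) (y : E) : (QE C).SmAt ψ y := (h.1 y trivial).1

theorem NP.psd (h : NP C ψ) (y : E) : (QE C).PsdAt ψ y := (h.1 y trivial).2

theorem NP.chart (h : NP C ψ) (i : Γ × C.I) (hz : z ∈ C.B 4 i.2) :
    ContDiffAt ℝ ∞ (fun w => ψ (C.pt i.1 i.2 w)) z ∧
      (cHess (fun w => C.ρ i.2 w + ψ (C.pt i.1 i.2 w)) z).PosSemidef :=
  ⟨h.sm _ i z hz rfl, h.psd _ i z hz rfl⟩

theorem NP.psh (h : NP C ψ) (i : Γ × C.I) :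
    Psh (fun w => C.ρ i.2 w + ψ (C.pt i.1 i.2 w)) (C.B 4 i.2) :=
  psh_of_cHess fun z hz =>
    ⟨((C.ρ_sm _ z hz).add (h.chart i hz).1).of_le two_le, (h.chart i hz).2⟩

theorem NP.contOn (h : NP C ψ) (i : Γ × C.I) :
    ContinuousOn (fun w => C.ρ i.2 w + ψ (C.pt i.1 i.2 w)) (C.B 4 i.2) := fun z hz =>
  ((C.ρ_sm _ z hz).add (h.chart i hz).1).continuousAt.continuousWithinAt

theorem om_const (c : ℝ) (i : Γ × C.I) (hz : z ∈ C.B 4 i.2) :
    (QE C).om (fun _ => c) i z = cHess (C.ρ i.2) z := by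
  have := hess_const_add c ((C.ρ_sm _ z hz).of_le two_le)
  simp only [add_comm c] at this
  exact this

theorem np_const {c : ℝ} (hc : c ≤ 0) : NP C fun _ => c :=
  ⟨fun _ _ => ⟨fun _ _ _ _ => contDiffAt_const, fun i z hz _ => by
    rw [om_const c i hz]
    exact (C.ρ_pos _ z hz).posSemidef⟩, fun _ => hc⟩

variable {_ : MeasurableSpace E} {μ : Measure E}

theorem NP.cont (h : NP C ψ) (hP : PG (QE C) μ) : Continuous ψ :=
  continuous_iff_continuousAt.2 fun y => hP.cont ψ y (h.sm y)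

theorem NP.ma_pt (h : NP C ψ) (hP : PG (QE C) μ) (i : Γ × C.I) (hz : z ∈ C.B 4 i.2) :
    (QE C).MA ψ (C.pt i.1 i.2 z) =
      (cHess (fun w => C.ρ i.2 w + ψ (C.pt i.1 i.2 w)) z).det.re / (QE C).vol i z :=
  hP.ma_pt ψ i z hz ((h.chart i hz).1.of_le two_le)

theorem NP.ma_nonneg (h : NP C ψ) (hP : PG (QE C) μ) (y : E) : 0 ≤ (QE C).MA ψ y := by
  obtain ⟨γ, a, z, hz, rfl⟩ := C.exists_pt y
  rw [h.ma_pt hP (γ, a) (C.B14 hz)]
  exact div_nonneg (Complex.nonneg_iff.1 (h.chart (γ, a) (C.B14 hz)).2.det_nonneg).1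
    (hP.vol_pos (γ, a) z (C.B14 hz)).1.le

theorem ma_const (hP : PG (QE C) μ) (c : ℝ) (y : E) : (QE C).MA (fun _ => c) y = 1 := by
  obtain ⟨γ, a, z, hz, rfl⟩ := C.exists_pt y
  refine (hP.ma_pt _ (γ, a) z (C.B14 hz) contDiffAt_const).trans ?_
  rw [om_const c (γ, a) (C.B14 hz)]
  exact div_self (hP.vol_pos (γ, a) z (C.B14 hz)).1.ne'

/-- convex combinations -/
theorem NP.cvx (h : NP C ψ) (h' : NP C ψ') (hP : PG (QE C) μ) {t : ℝ} (h0 : 0 ≤ t) (h1 : t ≤ 1) :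
    NP C (fun y => (1 - t) * ψ y + t * ψ' y) ∧ ∀ y,
      (1 - t) ^ n * (QE C).MA ψ y ≤ (QE C).MA (fun y => (1 - t) * ψ y + t * ψ' y) y :=
  have k := fun y => hP.ma_cvx ψ ψ' t y h0 h1 (h.sm y) (h'.sm y) (h.psd y) (h'.psd y)
  ⟨⟨fun y _ => ⟨fun i z hz e => (contDiffAt_const.mul (h.sm y i z hz e)).add
      (contDiffAt_const.mul (h'.sm y i z hz e)), (k y).1⟩, fun y => add_nonpos
    (mul_nonpos_of_nonneg_of_nonpos (sub_nonneg.2 h1) (h.2 y))
    (mul_nonpos_of_nonneg_of_nonpos h0 (h'.2 y))⟩, fun y => (k y).2.1⟩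

theorem dens_cont (hP : PG (QE C) μ) {ν : E → ℝ} (h : (QE C).Dens ν) : Continuous ν :=
  continuous_iff_continuousAt.2 fun y => hP.cont ν y (h.sm y)

/-- points near the centre lie in the compact part of the chart -/
theorem G1.near (g : G1 C μ s₀ M) (hz : z ∈ C.B 3 i.2) (hs : s₀ ≤ s)
    (hw : ‖w - z‖ ≤ 4 * Real.exp (-s / 2)) : w ∈ C.cB (7 / 2) i.2 ∧ w ∈ C.B 4 i.2 :=
  have h := g.ball _ z hz (mem_closedBall_iff_norm.2 (hw.trans
    (mul_le_mul_of_nonneg_left (Real.exp_le_exp.2 (by linarith)) zero_le_four)))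
  ⟨h, C.cB_sub_B (by norm_num) _ h⟩

theorem G1.pw (g : G1 C μ s₀ M) (hP : PG (QE C) μ) (hz : z ∈ C.B 3 i.2) (hs : s₀ < s) (lam : ℝ) :
    (QE C).Dens (Real.exp lam • del C i z s) :=
  hP.dens_smul _ _ (Real.exp_pos _).le (g.dens i z hz s hs)

/-- depth on the support of the point mass -/
theorem G1.dp (g : G1 C μ s₀ M) (hz : z ∈ C.B 3 i.2) (hs : s₀ < s) (h : Dp C ψ X i z s) {y : E}
    (hy : del C i z s y ≠ 0) : ψ y ≤ -X := by
  obtain ⟨w, -, h1, rfl⟩ := g.supp i z hz s hs y hy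
  exact h w h1.le

variable {S : MAS (QE C) μ} {ν p : E → ℝ}

theorem np_phi (hG : Gen S) (h : (QE C).Dens ν) : NP C (S.φ ν) := ⟨hG.sp ν h, S.nonpos ν h⟩

theorem le_add_dens (h : (QE C).Dens p) (ν : E → ℝ) : ν ≤ ν + p ∧ ν ≤ p + ν :=
  ⟨fun y => le_add_of_nonneg_right (h.nonneg y), fun y => le_add_of_nonneg_left (h.nonneg y)⟩

theorem exp_smul_le (h : (QE C).Dens p) {a b : ℝ} (hab : a ≤ b) :
    Real.exp a • p ≤ Real.exp b • p := fun y =>
  mul_le_mul_of_nonneg_right (Real.exp_le_exp.2 hab) (h.nonneg y)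

/-- integration of an upper bound for the mass -/
theorem incr_le (hG : Gen S) (h : (QE C).Dens ν) (hp : (QE C).Dens p) {a b : ℝ} (hab : a ≤ b)
    {F F' : ℝ → ℝ} (hF : ∀ x, HasDerivAt F (F' x) x) (hm : ∀ x ∈ Icc a b, S.msl ν p x ≤ F' x) :
    S.G (ν + Real.exp b • p) - S.G (ν + Real.exp a • p) ≤ F b - F a := by
  have k := fun x => (hF x).fun_sub (hG.deriv ν p x h hp)
  have := monotoneOn_of_deriv_nonneg (convex_Icc a b) (fun x _ => (k x).continuousAt.continuousWithinAt)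
    (fun x _ => (k x).differentiableAt.differentiableWithinAt)
    (fun x hx => by rw [(k x).deriv]; exact sub_nonneg.2 (hm x (interior_subset hx)))
    (left_mem_Icc.2 hab) (right_mem_Icc.2 hab) hab
  linarith

/-- integration of a lower bound for the mass -/
theorem le_incr (hG : Gen S) (h : (QE C).Dens ν) (hp : (QE C).Dens p) {a b : ℝ} (hab : a ≤ b)
    {F F' : ℝ → ℝ} (hF : ∀ x, HasDerivAt F (F' x) x) (hm : ∀ x ∈ Icc a b, F' x ≤ S.msl ν p x) :
    F b - F a ≤ S.G (ν + Real.exp b • p) - S.G (ν + Real.exp a • p) := by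
  have k := fun x => (hG.deriv ν p x h hp).fun_sub (hF x)
  have := monotoneOn_of_deriv_nonneg (convex_Icc a b) (fun x _ => (k x).continuousAt.continuousWithinAt)
    (fun x _ => (k x).differentiableAt.differentiableWithinAt)
    (fun x hx => by rw [(k x).deriv]; exact sub_nonneg.2 (hm x (interior_subset hx)))
    (left_mem_Icc.2 hab) (right_mem_Icc.2 hab) hab
  linarith

/-- a mass which is placed where `φ ν ≤ -X` costs at most `exp (lam - X)` -/
theorem free_le (hG : Gen S) (h : (QE C).Dens ν) (hp : (QE C).Dens p) (h1 : ∫ y, p y ∂μ = 1)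
    (hX : ∀ y, p y ≠ 0 → S.φ ν y ≤ -X) (lam : ℝ) :
    S.G (ν + Real.exp lam • p) ≤ S.G ν + Real.exp (lam - X) := by
  have hq := hG.pg.dens_smul _ _ (Real.exp_pos lam).le hp
  have h2 := hG.G_le ν _ _ h (hG.pg.dens_add _ _ h hq) hq le_rfl
  have h3 := mul_le_mul_of_nonneg_left (hG.ms_le ν p (-X) h hp hX) (Real.exp_pos lam).le
  rw [hG.ms_smul] at h2
  rw [h1, mul_one, ← Real.exp_add] at h3
  exact h2.trans (add_le_add_right h3 _)

/-- the total mass of a sum -/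
theorem ms_tot (hG : Gen S) (h : (QE C).Dens ν) (hp : (QE C).Dens p) (lam : ℝ) :
    S.ms (ν + Real.exp lam • p) (ν + Real.exp lam • p) ≤ S.ms ν ν + S.msl ν p lam := by
  have hq := hG.pg.dens_smul _ _ (Real.exp_pos lam).le hp
  have hs := hG.pg.dens_add _ _ h hq
  rw [hG.ms_add _ _ _ hs h hq]
  exact add_le_add_left (hG.ms_mono _ _ _ _ hs h h h (le_add_dens hq ν).1 le_rfl) _

end Vale.Agent.P284Y.A
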