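import Vale.Agent.P284Y.A.Sk

/-!
# P284Y, block A: domination by a function which is deep at the point mass
-/

open scoped ContDiff Topology ComplexOrder
open Filter Set MeasureTheory

namespace Vale.Agent.P284Y.A

open Vale.Agent.P272.K Vale.Agent.P284Z Vale.Agent.P284Z.J

theorem Dom.psd_const {N : ℕ} {M : Type} [TopologicalSpace M] {Q : Pat N M} (h : Q.Ok) (c : ℝ)
    (y : M) : Q.PsdAt (fun _ => c) y := fun i z hz _ => by
  rw [Pat.om, C2.cHess_add ((h.ρ_sm i z hz).of_le (by norm_cast)) contDiffAt_const,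
    C2.cHess_const, add_zero]
  exact (h.ρ_pos i z hz).posSemidef

theorem stDOM : StDOM := by
  intro n Γ E _ _ _ _ _ _ _ C μ _ S hG s₀ M g1 t D ht0 ht1
  have h1 : 0 < 1 - t := by linarith
  set A := 1 + Real.exp (D + M) with hA
  have hA1 : 1 ≤ A := le_add_of_nonneg_right (Real.exp_pos _).le
  set m := Real.log A - n * Real.log (1 - t) with hm
  have hm0 : 0 ≤ m := by
    have := Real.log_nonneg hA1
    have := mul_nonpos_of_nonneg_of_nonpos (Nat.cast_nonneg (α := ℝ) n)
      (Real.log_nonpos h1.le (by linarith))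
    linarith
  have hmA : Real.exp (-m) * A = (1 - t) ^ n := by
    rw [hm, neg_sub, Real.exp_sub, Real.exp_log (by linarith), Real.exp_nat_mul, Real.exp_log h1,
      div_mul_cancel₀ _ (by linarith)]
  refine ⟨m, hm0, fun τ _ i z hz s hs ψ hψ hD y => ?_⟩
  have hd := g1.dens i z hz s hs
  have e : (fun x => (1 - t) * (-m / (1 - t)) + t * ψ x) = fun x => t * ψ x - m := by
    funext x
    rw [mul_div_cancel₀ _ h1.ne']
    ring
  have hs' : ∀ x, (QE C).SmAt (fun x => t * ψ x - m) x := fun x j w hw e =>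
    (contDiffAt_const.mul ((hψ.1 x trivial).1 j w hw e)).sub contDiffAt_const
  have hn : ∀ x, t * ψ x ≤ 0 := fun x => mul_nonpos_of_nonneg_of_nonpos ht0.le (hψ.2 x)
  refine hG.vc _ univ (fun x => t * ψ x - m) (hG.pg.dens_smul _ _ (Real.exp_pos _).le hd)
    isOpen_univ ((continuous_iff_continuousAt.2 fun x => hG.pg.cont _ x
      (hs' x)).upperSemicontinuous.upperSemicontinuousOn _) (by simp)
    (fun ε hε => ⟨∅, isCompact_empty, fun x _ => by linarith [hn x]⟩) (fun x _ _ => ?_) y trivial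
  obtain ⟨k1, k2, -⟩ := hG.pg.ma_cvx (fun _ => -m / (1 - t)) ψ t x ht0.le ht1.le
    (fun _ _ _ _ => contDiffAt_const) (hψ.1 x trivial).1 (Dom.psd_const S.ok _ x)
    (hψ.1 x trivial).2
  have k3 := hG.ma 0 hG.pg.dens_zero x
  rw [hG.zero] at k3
  rw [e] at k1 k2
  rw [hG.pg.ma_congr _ 0 (-m / (1 - t)) x (.of_forall fun _ => by simp), k3] at k2
  refine hG.pg.tch _ _ _ x (hs' x) k1 rfl (.of_forall fun _ => le_rfl) (le_trans ?_ k2)
  simp only [Pi.zero_apply, Real.exp_zero, add_zero, mul_one, Pi.smul_apply, smul_eq_mul]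
  rw [← hmA, sub_eq_neg_add, Real.exp_add, mul_assoc]
  refine mul_le_mul_of_nonneg_left ?_ (Real.exp_pos _).le
  rw [mul_add, mul_one]
  refine add_le_add (Real.exp_le_one_iff.2 (hn x)) ?_
  by_cases h0 : del C i z s x = 0
  · rw [h0, mul_zero, mul_zero]
    exact (Real.exp_pos _).le
  obtain ⟨w, -, h2, rfl⟩ := g1.supp i z hz s hs x h0
  have h3 := mul_le_mul_of_nonneg_left (hD w h2.le) ht0.le
  rw [mul_neg, mul_div_cancel₀ _ ht0.ne'] at h3
  refine (mul_le_mul_of_nonneg_left (mul_le_mul_of_nonneg_left (g1.le i z hz s hs _)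
    (Real.exp_pos _).le) (Real.exp_pos _).le).trans ?_
  rw [← Real.exp_add, ← Real.exp_add]
  exact Real.exp_le_exp.2 (by linarith)

end Vale.Agent.P284Y.A
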