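import Vale.Agent.P284Y.A.Sk
import Vale.Agent.P284Y.A.Lip
import Vale.Agent.P284Z.K.Bas

/-!
# P284Y, block A, row G1: the constants of the covering and the point masses
-/

open scoped ContDiff Topology ComplexOrder ENNReal Matrix
open Filter Set Function Metric MeasureTheory

noncomputable section

namespace Vale.Agent.P284Y.A

open Vale.Agent.P272.K Vale.Agent.P284Z Vale.Agent.P284Z.J Vale.Agent.P284Y.Lib

namespace Gone

variable {n : ℕ} {s : ℝ}

theorem sc_mul (u : Cm n) : sc n s *ᵥ u = ((Real.exp (-s / 2) : ℝ) : ℂ) • u := by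
  rw [sc, Matrix.smul_mulVec, Matrix.one_mulVec]

theorem exp_sq (s : ℝ) : Real.exp (-s / 2) ^ 2 = Real.exp (-s) := by
  rw [sq, ← Real.exp_add, add_halves]

theorem sc_det : ‖(sc n s).det‖ ^ 2 = (Real.exp (n * s))⁻¹ := by
  rw [sc, Matrix.det_smul, Matrix.det_one, mul_one, norm_pow, Complex.norm_real,
    Real.norm_of_nonneg (Real.exp_pos _).le, Fintype.card_fin, ← pow_mul, mul_comm, pow_mul, exp_sq,
    ← Real.exp_nat_mul, ← Real.exp_neg, mul_neg]

theorem sc_ne : (sc n s).det ≠ 0 := fun h => by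
  have h1 := sc_det (n := n) (s := s)
  rw [h, norm_zero, zero_pow two_ne_zero] at h1
  exact (inv_pos.2 (Real.exp_pos _)).ne h1

theorem norm_sc (z u : Cm n) : ‖z + sc n s *ᵥ u - z‖ = Real.exp (-s / 2) * ‖u‖ := by
  rw [add_sub_cancel_left, sc_mul, norm_smul, Complex.norm_real,
    Real.norm_of_nonneg (Real.exp_pos _).le]

theorem nsq_sc (z u : Cm n) : nsq (z + sc n s *ᵥ u - z) = Real.exp (-s) * nsq u := by
  simp only [add_sub_cancel_left, sc_mul, nsq, Pi.smul_apply, norm_smul, Complex.norm_real,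
    Real.norm_of_nonneg (Real.exp_pos _).le, mul_pow, exp_sq, Finset.mul_sum]

theorem sc_surj (s : ℝ) (z w : Cm n) : ∃ u, w = z + sc n s *ᵥ u :=
  ⟨((Real.exp (-s / 2) : ℝ) : ℂ)⁻¹ • (w - z), by
    rw [sc_mul, smul_inv_smul₀ (Complex.ofReal_ne_zero.2 (Real.exp_pos _).ne'), add_sub_cancel]⟩

theorem norm_lt {u : Cm n} (h : nsq u < 1) : ‖u‖ < 1 :=
  (sq_lt_one_iff₀ (norm_nonneg _)).1 ((sq_le_nsq u).trans_lt h)

theorem ev_bd {K : Set (Cm n)} (hK : IsCompact K) {f : Cm n → ℝ} (hf : ContinuousOn f K) :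
    ∀ᶠ M in atTop, ∀ z ∈ K, |f z| ≤ M := by
  obtain ⟨M, hM⟩ := hK.exists_bound_of_continuousOn hf
  exact (eventually_ge_atTop M).mono fun M' h z hz => (hM z hz).trans h

theorem ev_hess {K : Set (Cm n)} (hK : IsCompact K) {H : Cm n → Mx n} (hc : ContinuousOn H K)
    (hp : ∀ z ∈ K, (H z).PosDef) : ∀ᶠ M : ℝ in atTop, ∀ z ∈ K,
      (Matrix.diagonal (fun _ => ((M : ℝ) : ℂ)) - H z).PosSemidef ∧
        (H z - ((M⁻¹ : ℝ) : ℂ) • (1 : Mx n)).PosSemidef := by
  obtain ⟨c, -, h1⟩ := P284Z.K.exists_dom hK hc (B := fun _ => 1) continuousOn_const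
    (fun z hz => (hp z hz).isHermitian) fun _ _ => Matrix.PosDef.one
  obtain ⟨d, hd, h2⟩ := P284Z.K.exists_dom hK (A := fun _ => 1) continuousOn_const hc
    (fun _ _ => Matrix.isHermitian_one) hp
  filter_upwards [eventually_ge_atTop c, eventually_ge_atTop d] with M hM hM' z hz
  have h0 : 0 < M := by linarith
  constructor
  · have h3 := (h1 z hz).add (psd_smul Matrix.PosSemidef.one (sub_nonneg.2 hM))
    rwa [Complex.ofReal_sub, sub_smul, add_comm, sub_add_sub_cancel,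
      Matrix.smul_one_eq_diagonal] at h3
  · have h3 := psd_smul ((h2 z hz).add (psd_smul (hp z hz).posSemidef (sub_nonneg.2 hM')))
      (inv_pos.2 h0).le
    rwa [Complex.ofReal_sub, sub_smul, add_comm, sub_add_sub_cancel, smul_sub, smul_smul,
      ← Complex.ofReal_mul, inv_mul_cancel₀ h0.ne', Complex.ofReal_one, one_smul] at h3

end Gone

open Gone in
theorem stG1 : StG1 := by
  intro hB n Γ E _ _ _ _ _ _ _ C μ _ hP
  obtain ⟨r₀, hr₀, hr⟩ := C.exists_r
  obtain ⟨c, hc, hbd⟩ := hB.bd n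
  replace hbd := hbd (1 / 2) one_half_pos le_rfl
  obtain ⟨hker, hint⟩ := hB.ker n (1 / 2) one_half_pos one_half_lt_one
  have h74 : (7 / 2 : ℝ) < 4 := by norm_num
  obtain ⟨s₀, hs2, hs₀⟩ : ∃ s₀ : ℝ, 2 ≤ s₀ ∧ 4 * Real.exp (-s₀ / 2) ≤ r₀ / 2 := by
    refine ⟨max 2 (-2 * Real.log (r₀ / 8)), le_max_left _ _, ?_⟩
    have h1 := Real.exp_le_exp.2 (by linarith [le_max_right 2 (-2 * Real.log (r₀ / 8))] :
      -max 2 (-2 * Real.log (r₀ / 8)) / 2 ≤ Real.log (r₀ / 8))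
    rw [Real.exp_log (by positivity)] at h1
    linarith
  have hv := fun (a : C.I) z (hz : z ∈ C.cB (7 / 2) a) =>
    hP.vol_pos (1, a) z (C.cB_sub_B h74 a hz)
  obtain ⟨M, ⟨hM1, hMc⟩, hM⟩ := (((eventually_ge_atTop (1 : ℝ)).and
    (eventually_ge_atTop |Real.log c|)).and (eventually_all.2 fun a : C.I =>
      (ev_bd (C.isCompact_cB (7 / 2) a) (f := C.ρ a) fun z hz =>
        (C.ρ_sm a z (C.cB_sub_B h74 a hz)).continuousAt.continuousWithinAt).and
      ((ev_bd (C.isCompact_cB (7 / 2) a)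
        (f := fun z => |Real.log ((QE C).vol (1, a) z)| + |Real.log c|) fun z hz =>
        ((((hv a z hz).2.continuousAt.log (hv a z hz).1.ne').abs).add
          continuousAt_const).continuousWithinAt).and
      (ev_hess (C.isCompact_cB (7 / 2) a) (H := cHess (C.ρ a)) (fun z hz =>
        (K.cont_cHess (C.ρ_sm a z (C.cB_sub_B h74 a hz))).continuousWithinAt)
        fun z hz => C.ρ_pos a z (C.cB_sub_B h74 a hz))))).exists
  have hvol : ∀ i : Γ × C.I, ∀ z ∈ C.cB (7 / 2) i.2, Real.exp (-(M - |Real.log c|)) ≤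
      (QE C).vol i z ∧ (QE C).vol i z ≤ Real.exp (M - |Real.log c|) := fun i z hz => by
    have h1 := abs_le.1 (le_sub_iff_add_le.2 (le_of_abs_le ((hM i.2).2.1 z hz)))
    exact ⟨(Real.le_log_iff_exp_le (hv i.2 z hz).1).1 h1.1,
      (Real.log_le_iff_le_exp (hv i.2 z hz).1).1 h1.2⟩
  have hc1 : Real.exp (-|Real.log c|) ≤ c := (Real.le_log_iff_exp_le hc).1 (neg_abs_le _)
  have hc2 : c⁻¹ ≤ Real.exp |Real.log c| := by
    rw [← inv_inv (Real.exp _), ← Real.exp_neg]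
    exact inv_anti₀ (Real.exp_pos _) hc1
  have hball : ∀ a, ∀ z ∈ C.B 3 a, closedBall z (4 * Real.exp (-s₀ / 2)) ⊆ C.cB (7 / 2) a :=
    fun a z hz => closedBall_subset_closedBall' (by linarith [mem_ball.1 hz, hr a])
  have hin : ∀ a, ∀ z ∈ C.B 3 a, ∀ s, s₀ < s → ∀ u : Cm n, ‖u‖ ≤ 1 →
      z + sc n s *ᵥ u ∈ C.cB (7 / 2) a := fun a z hz s hs u hu => hball a z hz (by
    rw [mem_closedBall_iff_norm, norm_sc]
    have h1 := Real.exp_le_exp.2 (by linarith : -s / 2 ≤ -s₀ / 2)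
    have h2 := mul_le_of_le_one_right (Real.exp_pos (-s / 2)).le hu
    linarith [Real.exp_pos (-s₀ / 2)])
  have hinn : ∀ i : Γ × C.I, ∀ z ∈ C.B 3 i.2, ∀ s, s₀ < s → (QE C).In i z (sc n s) :=
    fun i z hz s hs => ⟨sc_ne, fun u hu => C.cB_sub_B h74 _ (hin i.2 z hz s hs u hu)⟩
  have hsupp : ∀ i : Γ × C.I, ∀ z ∈ C.B 3 i.2, ∀ s, s₀ < s → ∀ y, del C i z s y ≠ 0 →
      ∃ w, nsq (w - z) < Real.exp (-s) ∧ ‖w - z‖ < Real.exp (-s / 2) ∧ y = C.pt i.1 i.2 w :=
    fun i z hz s hs y hy => by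
      obtain ⟨u, hu, e⟩ := hP.pm_ne i z _ _ y hker (hinn i z hz s hs) hy
      have h1 := hB.supp n _ u one_half_pos hu
      refine ⟨_, ?_, ?_, e⟩
      · rw [nsq_sc]
        exact mul_lt_of_lt_one_right (Real.exp_pos _) h1
      · rw [norm_sc]
        exact mul_lt_of_lt_one_right (Real.exp_pos _) (norm_lt h1)
  have hhalf : ∀ (z u : Cm n) (s : ℝ), nsq (z + sc n s *ᵥ u - z) ≤ Real.exp (-s) / 2 →
      nsq u ≤ 1 - 1 / 2 := fun z u s h => by
    rw [nsq_sc] at h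
    exact le_of_mul_le_mul_left (by linarith) (Real.exp_pos (-s))
  have hl : ∀ i : Γ × C.I, ∀ z ∈ C.B 3 i.2, ∀ s, s₀ < s → ∀ f : E → ℝ≥0∞, Measurable f →
      ∫⁻ y, f y * ENNReal.ofReal (del C i z s y) ∂μ =
        ∫⁻ w, f (C.pt i.1 i.2 w) * ENNReal.ofReal (mv z (sc n s) (bmp n (1 / 2)) w) :=
    fun i z hz s hs f hf => (hP.pm_lint i z _ _ f hker (hinn i z hz s hs) hf).trans
      (hB.mv_lint n z _ _ (fun w => f (C.pt i.1 i.2 w)) sc_ne).symm
  refine ⟨s₀, M, hs2, hM1, hball, fun a => (hM a).1, fun i z hz => ?_, fun a => (hM a).2.2, hinn,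
    fun i z hz s hs => hP.pm_dens i z _ _ hker (hinn i z hz s hs), fun i z hz s hs => ?_, hsupp,
    fun i z hz s hs y => ?_, fun i z hz s hs w hw => ?_, fun δ i z hz s hs y => ?_,
    fun i z hz s hs f hf => ?_, fun i z hz s hs f hf => ?_, ?_⟩
  · have h1 := abs_nonneg (Real.log c)
    exact ⟨(Real.exp_le_exp.2 (by linarith)).trans (hvol i z hz).1,
      (hvol i z hz).2.trans (Real.exp_le_exp.2 (by linarith))⟩
  · have h1 := hP.pm_int i z _ _ (fun _ => 1) hker (hinn i z hz s hs) continuous_const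
    simp only [one_mul] at h1
    exact h1.trans hint
  · by_cases hy : del C i z s y = 0
    · exact hy.trans_le (Real.exp_pos _).le
    obtain ⟨u, hu, rfl⟩ := hP.pm_ne i z _ _ y hker (hinn i z hz s hs) hy
    have h1 := hin i.2 z hz s hs u (hker.2.2 u hu)
    refine (hP.pm_pt i z _ _ u (hinn i z hz s hs) (C.cB_sub_B h74 _ h1)).trans_le
      ((div_le_div₀ (Real.exp_pos _).le ((hbd u).1.trans hc2) (by rw [sc_det]; positivity)
        (mul_le_mul_of_nonneg_left (hvol i _ h1).1 (sq_nonneg _))).trans_eq ?_)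
    rw [sc_det, ← Real.exp_neg, ← Real.exp_add, ← Real.exp_sub]
    congr 1
    ring
  · obtain ⟨u, rfl⟩ := sc_surj s z w
    have h0 := hhalf z u s hw
    have h1 := hin i.2 z hz s hs u (norm_lt (by linarith)).le
    refine le_trans (le_of_eq ?_) (((div_le_div₀ (hker.2.1 u) (hc1.trans ((hbd u).2 h0))
      (mul_pos (by rw [sc_det]; positivity) (hv i.2 _ h1).1)
      (mul_le_mul_of_nonneg_left (hvol i _ h1).2 (sq_nonneg _)))).trans_eq
      (hP.pm_pt i z _ _ u (hinn i z hz s hs) (C.cB_sub_B h74 _ h1)).symm)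
    rw [sc_det, ← Real.exp_neg, ← Real.exp_add, ← Real.exp_sub]
    congr 1
    ring
  · by_cases hy : y ∈ (QE C).pt i '' (QE C).U i
    · obtain ⟨w, hw, rfl⟩ := hy
      exact ((congrArg _ (C.smul_pt δ i.1 i.2 w)).trans (hP.push_pt (δ * i.1, i.2) _ w hw)).trans
        (hP.push_pt i _ w hw).symm
    · refine (hP.push_out (δ * i.1, i.2) _ _ ?_).trans (hP.push_out i _ y hy).symm
      rintro ⟨w, hw, e⟩
      exact hy ⟨w, hw, smul_left_cancel δ ((C.smul_pt δ i.1 i.2 w).trans e)⟩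
  · rw [hl i z hz s hs f hf, ← lintegral_const_mul' _ _ ENNReal.ofReal_ne_top]
    refine (lintegral_mono fun w => ?_).trans (lintegral_indicator_le _ _)
    obtain ⟨u, rfl⟩ := sc_surj s z w
    rw [hB.mv_at n z _ _ u sc_ne]
    by_cases hu : bmp n (1 / 2) u = 0
    · rw [hu, zero_div, ENNReal.ofReal_zero, mul_zero]
      exact zero_le
    rw [indicator_of_mem (by
      rw [mem_ball_iff_norm, norm_sc]
      exact mul_lt_of_lt_one_right (Real.exp_pos _) (norm_lt (hB.supp n _ u one_half_pos hu))),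
      mul_comm, sc_det, div_inv_eq_mul, Real.exp_add, mul_comm (Real.exp _)]
    gcongr
    exact ((hbd u).1.trans hc2).trans (Real.exp_le_exp.2 hMc)
  · rw [hl i z hz s hs f hf, ← lintegral_const_mul' _ _ ENNReal.ofReal_ne_top,
      ← lintegral_indicator (isClosed_le (by unfold nsq; fun_prop) continuous_const).measurableSet]
    refine lintegral_mono fun w => indicator_apply_le' (fun hw => ?_) fun _ => zero_le
    obtain ⟨u, rfl⟩ := sc_surj s z w
    rw [hB.mv_at n z _ _ u sc_ne, mul_comm, sc_det, div_inv_eq_mul, sub_eq_add_neg, Real.exp_add,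
      mul_comm (Real.exp _)]
    gcongr
    exact ((Real.exp_le_exp.2 (neg_le_neg hMc)).trans hc1).trans ((hbd u).2 (hhalf z u s hw))
  · obtain ⟨δ, hδ, K, hK, h⟩ := lip C (k := 3) (by norm_num)
    refine ⟨2 * Real.log (1 + K), -2 * Real.log δ,
      mul_nonneg zero_le_two (Real.log_nonneg (by linarith)), ?_⟩
    rintro i z hz i' z' hz' s hs hs1 ⟨v, hv, h1, e⟩ y hy
    obtain ⟨w', -, h2, rfl⟩ := hsupp i' z' hz' s hs y hy
    obtain ⟨-, w, -, e', h3⟩ := h _ _ _ _ z' (C.B_sub_cB 3 _ hz') v (C.B_sub_cB 3 _ hv) e.symm w'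
      (h2.le.trans ((Real.le_log_iff_exp_le hδ).1 (by linarith)))
    refine ⟨w, ?_, e'⟩
    rw [show -(s - 2 * Real.log (1 + K)) / 2 = Real.log (1 + K) + -s / 2 by ring, Real.exp_add,
      Real.exp_log (by linarith)]
    have h4 := mul_le_mul_of_nonneg_left h2.le (by linarith : 0 ≤ K)
    linarith [norm_sub_le_norm_sub_add_norm_sub w v z]

end Vale.Agent.P284Y.A
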