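import Vale.Agent.P284Y.A.Bas
import Vale.Agent.P284Z.F0.Ball

/-!
# P284Y, block A, row G2: sub-mean property, three circles, inequality of Chebyshev
-/

open scoped ContDiff Topology ComplexOrder ENNReal Matrix
open Filter Set Function Metric MeasureTheory

noncomputable section

namespace Vale.Agent.P284Y.A

open Vale.Agent.P272.K Vale.Agent.P284Z Vale.Agent.P284Z.J Vale.Agent.P284Y.Lib

variable {n : ℕ} {Γ E : Type} [Group Γ] [TopologicalSpace E] [MulAction Γ E] {C : Cov n Γ E}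
  {ψ : E → ℝ} {X K s s₀ M : ℝ} {i : Γ × C.I} {z w : Cm n} {_ : MeasurableSpace E} [BorelSpace E]
  {μ : Measure E}

theorem vol_ball (z : Cm n) {r : ℝ} (hr : 0 < r) :
    volume (ball z r) = ENNReal.ofReal ((r ^ 2 * Real.pi) ^ n) := by
  simp only [volume_pi_ball z hr, Complex.volume_ball, Finset.prod_const, Finset.card_fin]
  rw [ENNReal.ofReal_pow (by positivity), ENNReal.ofReal_mul (sq_nonneg r), ENNReal.ofReal_pow hr.le,
    ← NNReal.coe_real_pi, ENNReal.ofReal_coe_nnreal]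

/-- the sub-mean property -/
theorem g2_mean (hP : PG (QE C) μ) (g : G1 C μ s₀ M) (h : NP C ψ) (hz : z ∈ C.B 3 i.2)
    (hs : s₀ < s) (hX : ∫ y, Real.exp (ψ y) * del C i z s y ∂μ ≤ Real.exp (-X))
    (hw : w ∈ closedBall z (Real.exp (-(s + 8 * n) / 2))) :
    C.ρ i.2 w + ψ (C.pt i.1 i.2 w) ≤ 2 * M + 8 * n ^ 2 - X := by
  set r := Real.exp (-(s + 8 * n) / 2) with hr
  have r0 : 0 < r := Real.exp_pos _
  have n0 : (0 : ℝ) ≤ n := n.cast_nonneg
  have r1 : r ≤ Real.exp (-s / 2) := Real.exp_le_exp.2 (by linarith)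
  have r2 : 8 * n * r ^ 2 ≤ Real.exp (-s) := by
    rw [hr, exp_half_sq, show -s = 8 * n + -(s + 8 * n) by ring, Real.exp_add]
    exact mul_le_mul_of_nonneg_right (by linarith [Real.add_one_le_exp (8 * n : ℝ)]) (Real.exp_pos _).le
  have k : ∀ y ∈ closedBall w r, ‖y - z‖ ≤ 2 * r := fun y hy => by
    linarith [norm_sub_le_norm_sub_add_norm_sub y w z, mem_closedBall_iff_norm.1 hy,
      mem_closedBall_iff_norm.1 hw]
  have k' := fun y hy => g.near hz hs.le (w := y) ((k y hy).trans (by linarith))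
  have hl := (h.psh i).lpsh_exp (.of_cont (h.contOn i))
  have hc := (h.cont hP).rexp
  have h1 := ENNReal.ofReal_le_ofReal (hl.psh.le_ball volume hl.lb fun y hy => (k' y hy).2)
  rw [ofReal_integral_eq_lintegral_ofReal ((usc_integrableOn volume hl.usc hl.lb
    (isCompact_closedBall w r) fun y hy => (k' y hy).2).mono_set ball_subset_closedBall)
    (.of_forall fun _ => (Real.exp_pos _).le), measureReal_def, vol_ball w r0,
    ENNReal.toReal_ofReal (by positivity)] at h1
  have h2 := g.lint_ge i z hz s hs _ hc.measurable.ennreal_ofReal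
  have h3 := ENNReal.ofReal_le_ofReal hX
  rw [ofReal_integral_eq_lintegral_ofReal (hP.dens_int _ _ (g.dens i z hz s hs) hc)
    (.of_forall fun y => mul_nonneg (Real.exp_pos _).le ((g.dens i z hz s hs).nonneg y))] at h3
  simp only [ENNReal.ofReal_mul (Real.exp_pos _).le] at h3
  have h4 : ∫⁻ y in ball w r, ENNReal.ofReal (Real.exp (C.ρ i.2 y + ψ (C.pt i.1 i.2 y))) ≤
      ENNReal.ofReal (Real.exp M) * ∫⁻ y in {w | nsq (w - z) ≤ Real.exp (-s) / 2},
        ENNReal.ofReal (Real.exp (ψ (C.pt i.1 i.2 y))) := by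
    rw [← lintegral_const_mul' _ _ ENNReal.ofReal_ne_top]
    refine (setLIntegral_mono' measurableSet_ball fun y hy => ?_).trans (lintegral_mono_set
      fun y hy => (nsq_le _).trans ?_)
    · rw [← ENNReal.ofReal_mul (Real.exp_pos _).le, ← Real.exp_add]
      exact ENNReal.ofReal_le_ofReal (Real.exp_le_exp.2 (add_le_add_left
        (abs_le.1 (g.rho _ y (k' y (ball_subset_closedBall hy)).1)).2 _))
    · have := mul_le_mul_of_nonneg_left
        (pow_le_pow_left₀ (norm_nonneg _) (k y (ball_subset_closedBall hy)) 2) n0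
      linarith
  have h5 := (mul_le_mul_right (h1.trans h4) (ENNReal.ofReal (Real.exp (n * s - M)))).trans
    ((mul_left_comm _ _ _).trans_le (mul_le_mul_right (h2.trans h3) _))
  rw [← ENNReal.ofReal_mul (Real.exp_pos _).le, ← ENNReal.ofReal_mul (Real.exp_pos _).le,
    ENNReal.ofReal_le_ofReal_iff (by positivity)] at h5
  have h6 : Real.exp (n * -(s + 8 * n)) ≤ (r ^ 2 * Real.pi) ^ n := by
    rw [Real.exp_nat_mul, hr, exp_half_sq]
    exact pow_le_pow_left₀ (Real.exp_pos _).le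
      (le_mul_of_one_le_right (Real.exp_pos _).le (by linarith [Real.pi_gt_three])) n
  have h7 := (mul_le_mul_of_nonneg_left (mul_le_mul_of_nonneg_left h6 (Real.exp_pos _).le)
    (Real.exp_pos _).le).trans h5
  simp only [← Real.exp_add, Real.exp_le_exp] at h7
  linarith

theorem g2_up (hP : PG (QE C) μ) (g : G1 C μ s₀ M) (h : NP C ψ) (hz : z ∈ C.B 3 i.2)
    (hs : s₀ < s) (X0 : 0 ≤ X) (hX : ∫ y, Real.exp (ψ y) * del C i z s y ∂μ ≤ Real.exp (-X))
    {t : ℝ} (ht : t ≤ s) :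
    Dp C ψ (X * t / s - (3 * M + 8 * n ^ 2 + s₀ + 8 * n) * (1 + X / s)) i z t := by
  have n0 : (0 : ℝ) ≤ n := n.cast_nonneg
  have n2 := sq_nonneg (n : ℝ)
  have s2 := g.s₀_ge
  have M1 := g.M_ge
  have s0 : 0 < s := by linarith
  have x0 := div_nonneg X0 s0.le
  rw [mul_div_right_comm]
  rcases le_total t s₀ with h0 | h0
  · exact h.dp (by nlinarith) i z t
  intro w hw
  have k := fun y (hy : y ∈ closedBall z (Real.exp (-s₀ / 2))) => g.near hz le_rfl
    ((mem_closedBall_iff_norm.1 hy).trans (by linarith [Real.exp_pos (-s₀ / 2)]))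
  have e1 : Real.exp (-t / 2) ≤ Real.exp (-s₀ / 2) := Real.exp_le_exp.2 (by linarith)
  have hw' := mem_closedBall_iff_norm.2 hw
  have h1 := three (h.psh i) (.of_cont (h.contOn i)) (fun y hy => (k y hy).2) (Real.exp_pos _)
    (Real.exp_le_exp.2 (by linarith)) e1 (Real.exp_lt_exp.2 (by linarith)) (sub_le_self _ X0)
    (fun y hy => g2_mean hP g h hz hs hX hy)
    (fun y hy => by linarith [(abs_le.1 (g.rho _ y (k y hy).1)).2, h.2 (C.pt i.1 i.2 y)]) hw'
  simp only [← Real.exp_sub, Real.log_exp, sub_sub_cancel] at h1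
  have l : 0 < -s₀ / 2 - -(s + 8 * n) / 2 := by linarith
  have t1 := (div_le_one l).2 (show -s₀ / 2 - -t / 2 ≤ _ by linarith)
  have t0 := div_nonneg (show 0 ≤ -s₀ / 2 - -t / 2 by linarith) l.le
  have t2 := div_mul_cancel₀ (-s₀ / 2 - -t / 2) l.ne'
  generalize (-s₀ / 2 - -t / 2) / (-s₀ / 2 - -(s + 8 * n) / 2) = θ at h1 t0 t1 t2
  have t3 := mul_le_mul_of_nonneg_left (show t - s₀ - 8 * n ≤ s * θ by nlinarith) x0
  rw [← mul_assoc, div_mul_cancel₀ _ s0.ne'] at t3
  have := (abs_le.1 (g.rho _ w (k w (closedBall_subset_closedBall e1 hw')).1)).1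
  nlinarith

theorem g2_cheb (hP : PG (QE C) μ) (g : G1 C μ s₀ M) (h : NP C ψ) (hz : z ∈ C.B 3 i.2)
    (hs : s₀ < s) (hK : 0 < K) (hX : ¬ Dp C ψ X i z s) :
    ∫⁻ y in {y | ψ y < -(K * (X + 1))}, ENNReal.ofReal (del C i z s y) ∂μ ≤
      ENNReal.ofReal (Real.exp M * (4 * Real.pi) ^ n * (2 * M) / K) := by
  simp only [Dp, not_forall, not_le] at hX
  obtain ⟨w, hw, hX⟩ := hX
  have X0 : 0 < X := by linarith [h.2 (C.pt i.1 i.2 w)]
  have M1 := g.M_ge
  set r := Real.exp (-s / 2) with hr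
  have r0 : 0 < r := Real.exp_pos _
  have k := fun y (hy : y ∈ closedBall w (2 * r)) => g.near hz hs.le (w := y) (by
    linarith [norm_sub_le_norm_sub_add_norm_sub y w z, mem_closedBall_iff_norm.1 hy])
  have k' := fun y hy => abs_le.1 (g.rho _ y (k y hy).1)
  have h1 := (h.psh i).lint_ball volume (.of_cont (h.contOn i)) (M := M) (fun y hy => (k y hy).2)
    fun y hy => by linarith [(k' y (ball_subset_closedBall hy)).2, h.2 (C.pt i.1 i.2 y)]
  have hm := (isOpen_lt (h.cont hP) continuous_const : IsOpen {y | ψ y < -(K * (X + 1))}).measurableSet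
  have h2 := g.lint_le i z hz s hs _ (measurable_one.indicator hm)
  have p : 0 < K * (X + 1) := by positivity
  have h3 : ∫⁻ y in ball z r, {y | ψ y < -(K * (X + 1))}.indicator 1 (C.pt i.1 i.2 y) ≤
      ENNReal.ofReal (K * (X + 1))⁻¹ *
        ∫⁻ y in ball w (2 * r), ENNReal.ofReal (M - (C.ρ i.2 y + ψ (C.pt i.1 i.2 y))) := by
    rw [← lintegral_const_mul' _ _ ENNReal.ofReal_ne_top]
    refine (lintegral_mono_set (ball_subset_ball' ?_)).trans
      (setLIntegral_mono' measurableSet_ball fun y hy => indicator_apply_le' (fun hy' => ?_)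
        fun _ => zero_le)
    · rw [dist_comm, dist_eq_norm]
      linarith
    · rw [← ENNReal.ofReal_mul (inv_pos.2 p).le]
      refine ENNReal.one_le_ofReal.2 ((le_inv_mul_iff₀ p).2 ?_)
      linarith [(k' y (ball_subset_closedBall hy)).2, show ψ _ < _ from hy']
  rw [← lintegral_indicator hm]
  refine (lintegral_congr fun y => ?_).trans_le (h2.trans ?_)
  · simp only [indicator_apply, ite_mul, Pi.one_apply, one_mul, zero_mul]
  refine (mul_le_mul_right (h3.trans (mul_le_mul_right h1 _)) _).trans ?_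
  have a := k' w (mem_closedBall_self (by positivity))
  rw [vol_ball w (by positivity), ← ENNReal.ofReal_mul' (by positivity),
    ← ENNReal.ofReal_mul (inv_pos.2 p).le, ← ENNReal.ofReal_mul (Real.exp_pos _).le]
  refine ENNReal.ofReal_le_ofReal ((mul_le_mul_of_nonneg_left (mul_le_mul_of_nonneg_left
    (mul_le_mul_of_nonneg_right (show _ ≤ 2 * M * (X + 1) by nlinarith) (by positivity))
    (inv_pos.2 p).le) (Real.exp_pos _).le).trans_eq ?_)
  have e : Real.exp s ^ n * Real.exp (-s) ^ n = 1 := by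
    rw [← mul_pow, ← Real.exp_add, add_neg_cancel, Real.exp_zero, one_pow]
  rw [mul_pow 2 r, hr, exp_half_sq, Real.exp_add, Real.exp_nat_mul, mul_right_comm (2 ^ 2 : ℝ), mul_pow]
  field_simp
  norm_num
  linear_combination (4 * Real.pi) ^ n * e

theorem stG2 : StG2 := fun n _ _ _ _ _ _ _ _ _ _ _ _ hP s₀ M g =>
  have M0 := zero_le_one.trans g.M_ge
  have s0 := zero_le_two.trans g.s₀_ge
  ⟨⟨3 * M + 8 * n ^ 2 + s₀ + 8 * n, by positivity, fun _ h _ _ hz _ hs _ X0 hX _ ht =>
    g2_up hP g h hz hs X0 hX ht⟩, ⟨Real.exp M * (4 * Real.pi) ^ n * (2 * M), by positivity,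
      fun _ h _ _ hz _ hs _ _ hK hX => g2_cheb hP g h hz hs hK hX⟩⟩

end Vale.Agent.P284Y.A
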