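import Vale.Agent.P284Y.A.Bas
import Vale.Agent.P284Z.L.Gc

/-!
# P284Y, block A: global functions with a logarithmic pole
-/

open scoped ContDiff Topology ComplexOrder ENNReal Matrix
open Filter Set Function Metric MeasureTheory

noncomputable section

namespace Vale.Agent.P284Y.A

open Vale.Agent.P272.K Vale.Agent.P284Z Vale.Agent.P284Z.J Vale.Agent.P284Y.Lib Real

variable {n : ℕ} {Γ E : Type} [Group Γ] [TopologicalSpace E] [MulAction Γ E]

namespace G3a

/-- a cut-off of the identity: `0` on `[-T, ∞)`, slope `1` on `(-∞, -T - 1]` -/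
def fc (T x : ℝ) : ℝ := -L.Gc (-T - x)

theorem fc_sm (T : ℝ) : ContDiff ℝ ∞ (fc T) :=
  (L.contDiff_Gc.comp (contDiff_const.sub contDiff_id)).neg

theorem deriv_fc (T : ℝ) : deriv (fc T) = fun x => smoothTransition (-T - x) := by
  funext x
  exact ((L.hasDerivAt_Gc (-T - x)).comp_const_sub (-T) x).fun_neg.deriv.trans (neg_neg _)

variable {ε c m T : ℝ}

theorem hess_fc (hε : 0 < ε) (c T : ℝ) (z w : Cm n) :
    cHess (fun w => c * fc T (lg ε z w)) w = (c : ℂ) •
      (((smoothTransition (-T - lg ε z w) : ℝ) : ℂ) • cHess (lg ε z) w +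
      ((-deriv smoothTransition (-T - lg ε z w) : ℝ) : ℂ) • P284.H650.gg (lg ε z) (lg ε z) w) := by
  rw [C2.cHess_const_mul (u := fun w => fc T (lg ε z w)) c
      (((fc_sm T).comp (lg_smooth hε z)).contDiffAt.of_le two_le),
    cHess_comp' ((fc_sm T).contDiffAt.of_le two_le) ((lg_smooth hε z).contDiffAt.of_le two_le),
    deriv_fc, deriv_comp_const_sub]

theorem one_eq (hε : 0 < ε) (z w : Cm n) : (1 : Mx n) =
    ((exp (lg ε z w) : ℝ) : ℂ) • cHess (lg ε z) w +
      ((exp (lg ε z w) : ℝ) : ℂ) • P284.H650.gg (lg ε z) (lg ε z) w := by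
  have h := cHess_comp' (φ := exp) (f := lg ε z) (z := w) contDiff_exp.contDiffAt
    ((lg_smooth hε z).contDiffAt.of_le two_le)
  have e : (fun y => exp (lg ε z y)) = fun y => ε + nsq (y - z) :=
    funext fun y => exp_log (lg_pos hε _)
  rwa [e, hess_const_add ε ((sm_nsq z).contDiffAt.of_le two_le), hess_nsq, Real.deriv_exp,
    Real.deriv_exp] at h

theorem psd_fc (hε : 0 < ε) (hc : 0 ≤ c) (hm : 0 ≤ m)
    (hK : ∀ x, c * deriv smoothTransition x ≤ m * exp (-T - 1)) (z w : Cm n) :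
    ((m : ℂ) • (1 : Mx n) + cHess (fun w => c * fc T (lg ε z w)) w).PosSemidef := by
  have h1 : 0 ≤ m * exp (lg ε z w) - c * deriv smoothTransition (-T - lg ε z w) := by
    by_cases h : -T - lg ε z w ∈ Icc (0 : ℝ) 1
    · have := mul_le_mul_of_nonneg_left (exp_le_exp.2 (by linarith [h.2] : -T - 1 ≤ lg ε z w)) hm
      linarith [hK (-T - lg ε z w)]
    · rw [L.st'_zero h, mul_zero, sub_zero]
      positivity
  have h2 := smoothTransition.nonneg (-T - lg ε z w)
  have h := (psd_smul (lg_psd hε z w)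
    (c := m * exp (lg ε z w) + c * smoothTransition (-T - lg ε z w)) (by positivity)).add
    (psd_smul (gg_psd (lg ε z) w) h1)
  refine (congrArg Matrix.PosSemidef ?_).mp h
  rw [hess_fc hε, one_eq hε z w]
  push_cast
  module

/-- extension by zero -/
theorem glue [T2Space E] [MeasurableSpace E] {C : Cov n Γ E} {μ : Measure E} (hP : PG (QE C) μ)
    (i : Γ × C.I) {p : Cm n → ℝ} {K : Set (Cm n)} (hK : IsCompact K) (hB : K ⊆ C.B 4 i.2)
    (hp : ContDiff ℝ ∞ p) (h0 : ∀ w, p w ≤ 0) (hz : ∀ w ∉ K, p w = 0)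
    (hs : ∀ w ∈ K, (cHess (C.ρ i.2) w + cHess p w).PosSemidef) :
    ∃ P, NP C P ∧ ∀ w ∈ K, P (C.pt i.1 i.2 w) = p w ∧ (QE C).MA P (C.pt i.1 i.2 w) *
      (QE C).vol i w = (cHess (C.ρ i.2) w + cHess p w).det.re := by
  set P : E → ℝ := (C.ch i.1 i.2).source.indicator fun y => p (C.co i.1 i.2 y) with hPd
  have h1 : ∀ w ∈ C.B 4 i.2, P (C.pt i.1 i.2 w) = p w := fun w hw => by
    rw [hPd, indicator_of_mem (C.pt_mem hw _), C.co_pt hw]
  have h2 : ∀ w ∈ K, (fun v => P (C.pt i.1 i.2 v)) =ᶠ[𝓝 w] p := fun w hw =>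
    Filter.mem_of_superset ((C.isOpen_B 4 i.2).mem_nhds (hB hw)) h1
  have h3 : ∀ w ∈ K, ContDiffAt ℝ ∞ (fun v => P (C.pt i.1 i.2 v)) w := fun w hw =>
    hp.contDiffAt.congr_of_eventuallyEq (h2 w hw)
  have h4 : ∀ w ∈ K, (QE C).om P i w = cHess (C.ρ i.2) w + cHess p w := fun w hw =>
    (C2.cHess_add ((C.ρ_sm _ w (hB hw)).of_le two_le) ((h3 w hw).of_le two_le)).trans
      (by rw [C2.cHess_congr (h2 w hw)])
  refine ⟨P, ⟨fun y _ => ?_, fun y => indicator_nonpos (fun _ _ => h0 _) y⟩, fun w hw =>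
    ⟨h1 w (hB hw), ?_⟩⟩
  · by_cases hy : y ∈ C.pt i.1 i.2 '' K
    · obtain ⟨w, hw, rfl⟩ := hy
      exact ⟨hP.sm_of P i w (hB hw) (h3 w hw),
        hP.psd_of P i w (hB hw) ((h3 w hw).of_le two_le) (h4 w hw ▸ hs w hw)⟩
    · have h5 : ∀ᶠ x in 𝓝 y, P x = 0 := by
        filter_upwards [(C.isCompact_image_pt i.1 hK hB).isClosed.isOpen_compl.mem_nhds hy] with x hx
        exact indicator_apply_eq_zero.2 fun h => hz _ fun k => hx ⟨_, k, C.pt_co h⟩
      have h6 : ∀ j : Γ × C.I, ∀ v ∈ C.B 4 j.2, C.pt j.1 j.2 v = y →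
          ∀ᶠ x in 𝓝 v, P (C.pt j.1 j.2 x) = 0 := fun j v hv e =>
        (C.continuousAt_pt hv j.1).eventually (p := fun x => P x = 0) (e ▸ h5)
      refine ⟨fun j v hv e => contDiffAt_const.congr_of_eventuallyEq (h6 j v hv e), fun j v hv e => ?_⟩
      rw [Pat.om, C2.cHess_congr (v := C.ρ j.2) ((h6 j v hv e).mono fun x hx => by
        exact (congrArg (C.ρ j.2 x + ·) hx).trans (add_zero _))]
      exact (C.ρ_pos _ v hv).posSemidef
  · rw [← h4 w hw, ← eq_div_iff (hP.vol_pos i w (hB hw)).1.ne']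
    exact hP.ma_pt P i w (hB hw) ((h3 w hw).of_le two_le)

end G3a

open G3a in
theorem stG3 : StG3 := by
  intro n Γ E _ _ _ _ _ _ _ C μ _ hP s₀ M g
  obtain ⟨K, hK0, hK⟩ := L.exists_st'
  have hM : 0 < M⁻¹ := inv_pos.2 (one_pos.trans_le g.M_ge)
  refine ⟨min 1 (M⁻¹ * exp (-(s₀ - 2) - 1) / (2 * K)), by positivity, min_le_left _ _,
    fun i z hz ε hε c hc => ?_⟩
  have hc0 : 0 ≤ 2 * c := mul_nonneg two_pos.le hc.1
  have h1 : ∀ x, 2 * c * deriv smoothTransition x ≤ M⁻¹ * exp (-(s₀ - 2) - 1) := fun x => by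
    have := (le_div_iff₀ (by positivity)).1 (hc.2.trans (min_le_right _ _))
    linarith [mul_le_mul_of_nonneg_left (hK x) hc0]
  have h2 : ∀ w ∉ closedBall z (4 * exp (-s₀ / 2)), 16 * exp (-s₀) ≤ nsq (w - z) := fun w hw => by
    rw [mem_closedBall, dist_eq_norm, not_le] at hw
    refine le_trans ?_ ((pow_le_pow_left₀ (by positivity) hw.le 2).trans (sq_le_nsq _))
    rw [mul_pow, exp_half_sq]
    norm_num
  have h3 := exp_pos (-s₀)
  have hb := g.ball i.2 z hz
  obtain ⟨P, hN, hPw⟩ := glue hP i (p := fun w => 2 * c * fc (s₀ - 2) (lg ε z w))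
    (isCompact_closedBall _ _) (hb.trans (C.cB_sub_B (by norm_num) _))
    (contDiff_const.mul ((fc_sm _).comp (lg_smooth hε.1 z)))
    (fun w => mul_nonpos_of_nonneg_of_nonpos hc0 (neg_nonpos.2 (L.Gc_nonneg _)))
    (fun w hw => by
      have h4 : -(s₀ - 2) ≤ lg ε z w := by
        rw [Lib.lg, le_log_iff_exp_le (lg_pos hε.1 _), show -(s₀ - 2) = 1 + 1 + -s₀ by ring, exp_add,
          exp_add]
        have := mul_self_le_mul_self (exp_pos 1).le exp_one_lt_three.le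
        nlinarith [h2 w hw, hε.1]
      rw [fc, L.Gc_of_nonpos (sub_nonpos.2 h4), neg_zero, mul_zero])
    fun w hw => by
      have := (g.hess i.2 w (hb hw)).2.add (psd_fc hε.1 hc0 hM.le h1 z w)
      rwa [← add_assoc, sub_add_cancel] at this
  refine ⟨P, hN, fun w hw => ?_⟩
  have hw' : w ∈ closedBall z (4 * exp (-s₀ / 2)) := by_contra fun h => by linarith [h2 w h]
  have h5 : lg ε z w < -(s₀ - 2) - 1 := by
    rw [Lib.lg, log_lt_iff_lt_exp (lg_pos hε.1 _), show -(s₀ - 2) - 1 = 1 + -s₀ by ring, exp_add]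
    nlinarith [add_one_lt_exp one_ne_zero, hε.2]
  rw [(hPw w hw').1, (hPw w hw').2, hess_fc hε.1, smoothTransition.one_of_one_le (by linarith),
    L.st'_zero fun h => by linarith [h.2]]
  constructor
  · refine mul_le_mul_of_nonneg_left ?_ hc0
    have h6 := L.Gc_le (-(s₀ - 2) - lg ε z w)
    have h7 : log ε ≤ lg ε z w := log_le_log hε.1 (le_add_of_nonneg_right (nsq_nonneg _))
    rw [max_eq_left (by linarith)] at h6
    rw [fc]
    linarith [g.s₀_ge]
  · refine le_trans (le_of_eq ?_) (det_mono (psd_smul (lg_psd hε.1 z w) hc0) ?_)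
    · rw [Matrix.det_smul, Fintype.card_fin, ← Complex.ofReal_pow, Complex.re_ofReal_mul]
    · simpa using (C.ρ_pos _ w (C.cB_sub_B (by norm_num) _ (hb hw'))).posSemidef

end Vale.Agent.P284Y.A
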