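import Vale.Agent.P284Y.A.Sk

/-!
# P284Y, block A, row A2: lower bound for the increment of the energy, small pole
-/

open scoped ContDiff Topology ComplexOrder ENNReal Matrix
open Filter Set Function Metric MeasureTheory

noncomputable section

namespace Vale.Agent.P284Y.A

open Vale.Agent.P272.K Vale.Agent.P284Z Vale.Agent.P284Z.J Vale.Agent.P284Y.Lib

namespace GlB

variable {n : ℕ} {Γ E : Type} [Group Γ] [TopologicalSpace E] [MulAction Γ E] [MeasurableSpace E]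
  {C : Cov n Γ E} {μ : Measure E} {s₀ M : ℝ}

theorem ma_nonneg (ok : (QE C).Ok) (pg : PG (QE C) μ) {u : E → ℝ} (h : NP C u) (y : E) :
    0 ≤ (QE C).MA u y := by
  obtain ⟨i, z, hz, rfl⟩ := ok.cover y
  obtain ⟨h1, h2⟩ := h.1 _ (mem_univ ((QE C).pt i z))
  rw [pg.ma_pt u i z hz ((h1 i z hz rfl).of_le J.two_le)]
  exact div_nonneg (Complex.nonneg_iff.1 (h2 i z hz rfl).det_nonneg).1 (pg.vol_pos i z hz).1.le

theorem inner_mem (g : G1 C μ s₀ M) {a : C.I} {z w : Cm n} (hz : z ∈ C.B 3 a) {s : ℝ}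
    (hs : s₀ < s) (hw : nsq (w - z) ≤ Real.exp (-s) / 2) : w ∈ C.cB (7 / 2) a := by
  refine g.ball a z hz (mem_closedBall_iff_norm.2 (le_of_sq_le_sq ?_ (by positivity)))
  have h1 : Real.exp (-s) ≤ Real.exp (-s₀ / 2) ^ 2 := by
    rw [← Real.exp_nat_mul]
    exact Real.exp_le_exp.2 (by push_cast; linarith)
  nlinarith [sq_le_nsq (w - z), Real.exp_pos (-s)]

theorem det_le {ε : ℝ} (hε : 0 < ε) (z w : Cm n) : (cHess (lg ε z) w).det.re ≤ (ε ^ n)⁻¹ := by
  rw [det_lg hε, Complex.ofReal_re]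
  refine (div_le_div_of_nonneg_left hε.le (pow_pos hε _)
    (pow_le_pow_left₀ hε.le (le_add_of_nonneg_right (J.nsq_nonneg _)) _)).trans_eq ?_
  field_simp
  ring

/-- the lower bound for the mass -/
theorem mass {S : MAS (QE C) μ} (hG : Gen S) (g : G1 C μ s₀ M) {c₀ : ℝ} (g3 : G3 C s₀ c₀)
    {i : Γ × C.I} {z : Cm n} (hz : z ∈ C.B 3 i.2) {s : ℝ} (hs : s₀ < s) {L c : ℝ} (hL : 0 ≤ L)
    (hc : c ∈ Icc 0 c₀) : ∃ u h : E → ℝ, NP C u ∧ (∀ y, h y ≤ (1 - 1 / 2) ^ n * (QE C).MA u y) ∧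
      (∀ y, h y ≤ Real.exp (n * L + 2 * M) * del C i z s y) ∧
      (∀ y, h y ≤ Real.exp ((1 - 1 / 2) * u y + (c * s + (n + 1) * L + 2 * M)) * del C i z s y) ∧
      ENNReal.ofReal (c ^ n * ∫ w in {w | nsq (w - z) ≤ Real.exp L / 2 * Real.exp (-(s + L))},
        (cHess (lg (Real.exp (-(s + L))) z) w).det.re) = ∫⁻ y, ENNReal.ofReal (h y) ∂μ := by
  have pg := hG.pg
  have hε := Real.exp_pos (-(s + L))
  have hc1 : c ≤ 1 := hc.2.trans g3.2.1
  obtain ⟨P, hP, h1⟩ := g3.2.2 i z hz _ ⟨hε, Real.exp_le_exp.2 (by linarith)⟩ c hc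
  have e1 : Real.exp L / 2 * Real.exp (-(s + L)) = Real.exp (-s) / 2 := by
    rw [div_mul_eq_mul_div, ← Real.exp_add]
    ring_nf
  rw [e1]
  set ε := Real.exp (-(s + L)) with hεd
  set A := {w : Cm n | nsq (w - z) ≤ Real.exp (-s) / 2} with hA
  set f : Cm n → ℝ := fun w => c ^ n * (cHess (lg ε z) w).det.re with hf
  have hAm : MeasurableSet A :=
    measurableSet_le (J.sm_nsq z).continuous.measurable measurable_const
  have hU : A ⊆ (QE C).U i := fun w hw =>
    C.cB_sub_B (by norm_num) i.2 (inner_mem g hz hs hw)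
  have hd := (g.dens i z hz s hs).nonneg
  have key : ∀ y, (QE C).push i (A.indicator f) y = 0 ∨ ∃ w ∈ A, y = C.pt i.1 i.2 w ∧
      (QE C).push i (A.indicator f) y = f w / (QE C).vol i w := fun y => by
    by_cases hy : y ∈ (QE C).pt i '' (QE C).U i
    · obtain ⟨w, hw, rfl⟩ := hy
      rw [pg.push_pt i _ w hw]
      by_cases h2 : w ∈ A
      · exact Or.inr ⟨w, h2, rfl, by rw [indicator_of_mem h2]⟩
      · exact Or.inl (by rw [indicator_of_notMem h2, zero_div])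
    · exact Or.inl (pg.push_out i _ y hy)
  have hA0 : ∀ w ∈ A, nsq (w - z) ≤ Real.exp (-s₀) / 2 := fun w hw =>
    hw.out.trans (by gcongr)
  have hb : ∀ y, (QE C).push i (A.indicator f) y ≤ Real.exp (n * L + 2 * M) * del C i z s y := by
    intro y
    rcases key y with h2 | ⟨w, hw, rfl, h2⟩ <;> rw [h2]
    · exact mul_nonneg (Real.exp_pos _).le (hd _)
    · have h3 : f w ≤ Real.exp (n * (s + L)) := by
        refine (mul_le_of_le_one_left (det_lg_nonneg hε z w) (pow_le_one₀ hc.1 hc1)).trans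
          ((det_le hε z w).trans_eq ?_)
        rw [hεd, ← Real.exp_nat_mul, ← Real.exp_neg]
        ring_nf
      refine (div_le_div₀ (Real.exp_pos _).le h3 (Real.exp_pos _)
        (g.vol i w (inner_mem g hz hs hw)).1).trans (le_trans (le_of_eq ?_)
        (mul_le_mul_of_nonneg_left (g.ge i z hz s hs w hw) (Real.exp_pos _).le))
      rw [← Real.exp_sub, ← Real.exp_add]
      ring_nf
  refine ⟨P, (QE C).push i (A.indicator f), hP, fun y => ?_, hb, fun y => ?_, ?_⟩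
  · rcases key y with h2 | ⟨w, hw, rfl, h2⟩ <;> rw [h2]
    · exact mul_nonneg (by positivity) (ma_nonneg S.ok pg hP y)
    · rw [div_le_iff₀ (pg.vol_pos i w (hU hw)).1, mul_assoc]
      refine le_trans (le_of_eq ?_)
        (mul_le_mul_of_nonneg_left (h1 w (hA0 w hw)).2 (by positivity))
      rw [← mul_assoc, ← mul_pow, hf]
      ring_nf
  · rcases key y with h2 | ⟨w, hw, rfl, -⟩
    · rw [h2]
      exact mul_nonneg (Real.exp_pos _).le (hd _)
    · refine (hb _).trans (mul_le_mul_of_nonneg_right (Real.exp_le_exp.2 ?_) (hd _))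
      have h3 := (h1 w (hA0 w hw)).1
      rw [hεd, Real.log_exp] at h3
      nlinarith [mul_le_mul_of_nonneg_right hc1 hL]
  · have hfc : Continuous f := continuous_const.mul (cont_det_lg hε z)
    have h2 := pg.push_lint i (A.indicator f) (fun _ => 1) (hfc.measurable.indicator hAm)
      measurable_const
    simp only [one_mul] at h2
    rw [h2, ← integral_const_mul, ofReal_integral_eq_lintegral_ofReal
      ((lg_int hε z).1.const_mul _).integrableOn
      (ae_of_all _ fun w => mul_nonneg (pow_nonneg hc.1 _) (det_lg_nonneg hε z w)),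
      ← inter_eq_left.2 hU, ← Measure.restrict_restrict hAm, ← lintegral_indicator hAm,
      inter_eq_left.2 hU]
    refine lintegral_congr fun w => ?_
    by_cases hw : w ∈ A <;> simp [hw, hf]

theorem pow_sub {c x : ℝ} (h0 : 0 ≤ x) (h1 : x ≤ c) (h2 : c ≤ 1) (n : ℕ) :
    c ^ (n + 1) / (n + 1) - x ≤ (c - x) ^ (n + 1) / (n + 1) := by
  have h3 := pow_add_mul_le_add_pow (a := c) (b := -x) (h0.trans h1) (by linarith) (n + 1)
  have h4 : c ^ n ≤ 1 := pow_le_one₀ (h0.trans h1) h2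
  rw [Nat.add_sub_cancel, ← sub_eq_add_neg, Nat.cast_succ] at h3
  rw [sub_le_iff_le_add, div_add' _ _ _ (by positivity)]
  gcongr
  nlinarith [mul_le_mul_of_nonneg_left h4 (by positivity : 0 ≤ (n + 1 : ℝ) * x)]

end GlB

open GlB in
/-- the row A2 -/
theorem stGL2 : StGL2 := by
  intro n Γ E _ _ _ _ _ _ _ C μ _ S hG s₀ M c₀ g g3 l1 mt η hη
  obtain ⟨m₁, hm₁, b₁⟩ := l1.m1 1 zero_le_one
  obtain ⟨M', hM', mt⟩ := mt
  have hR := mR_pos n
  have hM := g.M_ge
  obtain ⟨η₁, hη₁, e₁⟩ : ∃ η₁ > (0 : ℝ), η₁ * (3 + m₁ + mR n) = η :=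
    ⟨η / (3 + m₁ + mR n), by positivity, div_mul_cancel₀ _ (by positivity)⟩
  obtain ⟨L, hL, b₂⟩ := lg_good n hη₁
  replace b₂ := b₂ (Real.exp (2 * L) / 2) (by linarith [Real.add_one_le_exp (2 * L)])
  obtain ⟨H, hH⟩ : ∃ H, H = Real.exp (n * (2 * L) + 2 * M) := ⟨_, rfl⟩
  have hH0 : 0 < H := hH ▸ Real.exp_pos _
  obtain ⟨K, hK, e₂⟩ : ∃ K > (0 : ℝ), H * (M' / K) ≤ η₁ := by
    refine ⟨H * M' / η₁ + 1, by positivity, ?_⟩
    rw [← mul_div_assoc, div_le_iff₀ (by positivity), mul_add, mul_div_cancel₀ _ hη₁.ne']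
    linarith
  refine ⟨2 * η₁ / K, by positivity, fun m D => ?_⟩
  obtain ⟨d, hd, mt⟩ := mt η₁ hη₁ (m + m₁) D
  obtain ⟨a, ha⟩ : ∃ a, a = (n + 1) * (2 * L) + 2 * M + K / 2 + d := ⟨_, rfl⟩
  have ha0 : 0 ≤ a := by rw [ha]; positivity
  refine ⟨mR n * a, fun c hc i z hz s hs ν ψ hν hψ hD hm hψ' => ?_⟩
  have hs0 : 0 < s := by linarith [g.s₀_ge]
  have hc1 : c ≤ 1 := hc.2.trans g3.2.1
  have hp := g.dens i z hz s hs
  set p := del C i z s with hpd
  have hq : ∀ lam, (QE C).Dens (Real.exp lam • p) := fun lam =>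
    hG.pg.dens_smul _ _ (Real.exp_pos _).le hp
  have hνq : ∀ lam, (QE C).Dens (ν + Real.exp lam • p) := fun lam => hG.pg.dens_add _ _ hν (hq lam)
  have hle : ∀ lam, ν ≤ ν + Real.exp lam • p := fun lam y => le_add_of_nonneg_right ((hq lam).2 y)
  have hG0 : ∀ lam, S.G ν ≤ S.G (ν + Real.exp lam • p) := fun lam =>
    hG.G_mono _ _ hν (hνq lam) (hle lam)
  obtain ⟨δ, hδ⟩ : ∃ δ, δ = a + η₁ * s := ⟨_, rfl⟩
  have hδ0 : 0 ≤ δ := by rw [hδ]; positivity
  have hηs : 0 ≤ η₁ * (3 + m₁) := by positivity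
  rcases le_total (c * s) δ with h | h
  · have h1 : g0 n c ≤ mR n * c := by
      rw [g0, mul_div_assoc]
      refine mul_le_mul_of_nonneg_left ((div_le_self (pow_nonneg hc.1 _) (by simp)).trans ?_) hR.le
      exact pow_le_of_le_one hc.1 hc1 n.succ_ne_zero
    have h2 := mul_le_mul_of_nonneg_left h hR.le
    nlinarith [hG0 (c * s), mul_le_mul_of_nonneg_right h1 hs0.le, mul_nonneg hηs hs0.le]
  have key : ∀ lam ∈ Icc δ (c * s),
      mR n * ((lam - δ) / s) ^ n - η₁ * (3 + m₁) ≤ S.msl ν p lam := by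
    intro lam hl
    have hc' : (lam - δ) / s ∈ Icc 0 c₀ := ⟨div_nonneg (sub_nonneg.2 hl.1) hs0.le,
      ((div_le_iff₀ hs0).2 (by linarith [hl.2])).trans hc.2⟩
    have h0 : 0 ≤ S.msl ν p lam := hG.ms_nonneg _ _ (hq lam)
    have h1 : S.msl ν p lam ≤ m₁ := b₁ i z hz s hs ν hν lam
      (hl.2.trans (mul_le_mul_of_nonneg_right hc1 hs0.le))
    obtain ⟨u, h, a1, a2, a3, a4, a5⟩ := mass hG g g3 hz hs (L := 2 * L) (by positivity) hc'
    have h2 := mt i z hz s hs ν u ψ h (1 / 2) H _ K lam _ hν a1 hψ (by norm_num) (by norm_num)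
      hH0.le hK hD a2 (hH ▸ a3) a4 (fun y hy => ?_) ?_ (le_of_eq ?_)
    · rw [← a5, ENNReal.ofReal_le_ofReal_iff (by positivity)] at h2
      have h3 := mul_le_mul_of_nonneg_left (b₂ _ (Real.exp_pos (-(s + 2 * L))) z)
        (pow_nonneg hc'.1 n)
      have h4 : ((lam - δ) / s) ^ n ≤ 1 := pow_le_one₀ hc'.1 (hc'.2.trans g3.2.1)
      nlinarith [mul_le_mul_of_nonneg_left h4 hη₁.le, mul_le_mul_of_nonneg_left h1 hη₁.le]
    · have h3 := hG.mono _ _ (hνq lam) (hνq (c * s)) (fun y => add_le_add_right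
        (mul_le_mul_of_nonneg_right (Real.exp_le_exp.2 hl.2) (hp.2 y)) _) y
      linarith [hψ' y hy]
    · rw [hG.ms_add _ _ _ (hνq lam) hν (hq lam)]
      exact add_le_add ((hG.ms_mono _ _ _ _ (hνq lam) hν hν hν (hle lam) le_rfl).trans hm) h1
    · rw [hδ, ha]
      field_simp
      ring
  have hf : ∀ lam, HasDerivAt (fun lam => S.G (ν + Real.exp lam • p) -
      mR n * s * (((lam - δ) / s) ^ (n + 1) / (n + 1)) + η₁ * (3 + m₁) * lam)
      (S.msl ν p lam - mR n * ((lam - δ) / s) ^ n + η₁ * (3 + m₁)) lam := fun lam => by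
    refine (((hG.deriv ν p lam hν hp).sub ((((((hasDerivAt_id lam).sub_const δ).div_const s).pow
      (n + 1)).div_const (n + 1)).const_mul (mR n * s))).add
      ((hasDerivAt_id lam).const_mul (η₁ * (3 + m₁)))).congr_deriv ?_
    simp only [id, Nat.add_sub_cancel, Nat.cast_succ]
    field_simp
  have h1 := monotoneOn_of_deriv_nonneg (convex_Icc δ (c * s))
    (fun x _ => (hf x).continuousAt.continuousWithinAt)
    (fun x _ => (hf x).differentiableAt.differentiableWithinAt) (fun x hx => by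
      rw [(hf x).deriv]
      linarith [key x (interior_subset hx)]) (left_mem_Icc.2 h) (right_mem_Icc.2 h) h
  have h2 := pow_sub (div_nonneg hδ0 hs0.le) ((div_le_iff₀ hs0).2 h) hc1 n
  have h3 := mul_le_mul_of_nonneg_left h2 (mul_pos hR hs0).le
  simp only [sub_self, zero_div, zero_pow n.succ_ne_zero, mul_zero, sub_zero,
    show (c * s - δ) / s = c - δ / s by field_simp] at h1
  rw [mul_sub, mul_assoc (mR n) s (δ / s), mul_div_cancel₀ _ hs0.ne'] at h3
  have h4 : g0 n c * s = mR n * s * (c ^ (n + 1) / (n + 1)) := by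
    rw [g0]
    ring
  nlinarith [hG0 δ, mul_nonneg hηs hδ0,
    mul_le_mul_of_nonneg_left (mul_le_of_le_one_left hs0.le hc1) hηs]

end Vale.Agent.P284Y.A
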