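import Vale.Agent.P284Y.Defs
import Vale.Agent.P284Y.Lib.TwSpec

/-!
# P284Y, block A: the output of the rows A0 - A5, used by the rows A6, A7

`g k i z s` is the energy of the point mass of level `k` at the point `z` of the patch `i`, at the scale
`exp (-s / 2)`; `J k i z j w s` has a second point mass at the point `w` of the patch `j`.
-/

open scoped Topology ENNReal
open Filter Set Metric MeasureTheory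

noncomputable section

namespace Vale.Agent.P284Y

open Vale.Agent.P272.K Vale.Agent.P284Z

variable {n : ℕ} {Γ E : Type} [Group Γ] [TopologicalSpace E] [MulAction Γ E]

/-- the point `z'` of the patch `i'` is at distance at most `exp (-s / 2)` of the point `z` of the
patch `i`, in the coordinates of `i` -/
def Cl (C : Cov n Γ E) (s : ℝ) (i : Γ × C.I) (z : Cm n) (i' : Γ × C.I) (z' : Cm n) : Prop :=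
  ∃ v ∈ C.B 3 i.2, ‖v - z‖ ≤ Real.exp (-s / 2) ∧ C.pt i.1 i.2 v = C.pt i'.1 i'.2 z'

/-- the data of the rows A0 - A5 -/
structure AD (C : Cov n Γ E) where
  a : ℕ → ℝ
  s₀ : ℝ
  g₀ : ℝ
  g : ℕ → Γ × C.I → Cm n → ℝ → ℝ
  J : ℕ → Γ × C.I → Cm n → Γ × C.I → Cm n → ℝ → ℝ
  γ₁ : ℕ → E → ℝ
  γ₂ : ℕ → E → E → ℝ

/-- the relation of level `k` -/
def AD.R {C : Cov n Γ E} (D : AD C) (k : ℕ) (x y : E) : Prop :=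
  D.a k ≤ D.γ₁ k x + D.g₀ - D.γ₂ k x y

/-- the properties of the data -/
structure AIn {C : Cov n Γ E} (D : AD C) [MeasurableSpace E] (μ : Measure E) : Prop where
  a_pos : ∀ k, 0 < D.a k
  a_succ : ∀ k, D.a (k + 1) ≤ D.a k / 4
  s₀_ge : 1 ≤ D.s₀
  g_bd : ∀ k, ∃ L : ℝ, ∀ i, ∀ z ∈ C.B 3 i.2, ∀ s, D.s₀ < s →
    0 ≤ D.g k i z s ∧ D.g k i z s ≤ L * s
  J_bd : ∀ k, ∃ L : ℝ, ∀ i, ∀ z ∈ C.B 3 i.2, ∀ j, ∀ w ∈ C.B 3 j.2, ∀ s, D.s₀ < s →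
    0 ≤ D.J k i z j w s ∧ D.J k i z j w s ≤ L * s
  g_psh : ∀ k i, ∃ (κ : Cm n → ℝ → ℝ) (M : ℝ), (∀ z ∈ C.B 3 i.2, ∀ s, D.s₀ < s → |κ z s| ≤ M) ∧
    Psh (fun q : Cm n × ℂ => D.g k i q.1 q.2.re + κ q.1 q.2.re) (C.B 3 i.2 ×ˢ {t | D.s₀ < t.re})
  J_psh : ∀ k i j, ∃ (κ : Cm n × Cm n → ℝ → ℝ) (M : ℝ),
    (∀ q ∈ C.B 3 i.2 ×ˢ C.B 3 j.2, ∀ s, D.s₀ < s → |κ q s| ≤ M) ∧
    Psh (fun q : (Cm n × Cm n) × ℂ => D.J k i q.1.1 j q.1.2 q.2.re + κ q.1 q.2.re)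
      ((C.B 3 i.2 ×ˢ C.B 3 j.2) ×ˢ {t | D.s₀ < t.re})
  g_lim : ∀ k i, ∀ z ∈ C.B 3 i.2,
    Tendsto (fun s => D.g k i z s / s) atTop (𝓝 (D.γ₁ k (C.pt i.1 i.2 z)))
  J_lim : ∀ k i, ∀ z ∈ C.B 3 i.2, ∀ j, ∀ w ∈ C.B 3 j.2,
    Tendsto (fun s => D.J k i z j w s / s) atTop (𝓝 (D.γ₂ k (C.pt i.1 i.2 z) (C.pt j.1 j.2 w)))
  g_inv : ∀ k (δ : Γ) i, ∀ z ∈ C.B 3 i.2, ∀ s, D.s₀ < s → D.g k (δ * i.1, i.2) z s = D.g k i z s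
  J_inv : ∀ k (δ : Γ) i, ∀ z ∈ C.B 3 i.2, ∀ j, ∀ w ∈ C.B 3 j.2, ∀ s, D.s₀ < s →
    D.J k (δ * i.1, i.2) z (δ * j.1, j.2) w s = D.J k i z j w s
  /-- moving the centre and changing the patch -/
  g_move : ∀ k, ∃ M : ℝ, ∀ i, ∀ z ∈ C.B 3 i.2, ∀ i', ∀ z' ∈ C.B 3 i'.2, ∀ s, D.s₀ < s →
    Cl C s i z i' z' → D.g k i' z' s ≤ D.g k i z s + M
  J_move : ∀ k, ∃ M : ℝ, ∀ i, ∀ z ∈ C.B 3 i.2, ∀ i', ∀ z' ∈ C.B 3 i'.2, ∀ j, ∀ w ∈ C.B 3 j.2,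
    ∀ j', ∀ w' ∈ C.B 3 j'.2, ∀ s, D.s₀ < s → Cl C s i z i' z' → Cl C s j w j' w' →
    D.J k i' z' j' w' s ≤ D.J k i z j w s + M
  level : ∀ k x y, D.γ₁ k x - D.γ₂ k x y ≤ D.γ₁ (k + 1) x - D.γ₂ (k + 1) x y
  refl : ∀ x, D.R 0 x x
  symm : ∀ k x y, D.R k x y → D.R (k + 1) y x
  trans : ∀ k x y z, D.R k x y → D.R k y z → D.R (k + 1) x z
  /-- **A2** and the bound for the mass -/
  a2 : ∀ k x, ∃ (φ : ℝ → E → ℝ) (e : ℝ) (M : ℝ≥0∞), 0 < e ∧ M < ⊤ ∧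
    (∀ᶠ s in atTop, (QE C).SP (φ s) univ ∧ (∀ y, φ s y ≤ 0) ∧ μ {y | φ s y < -1} ≤ M) ∧
    ∀ γ b, ∀ w ∈ C.B 1 b, D.R k x (C.pt γ b w) → ∀ᶠ s in atTop, ∀ v : Cm n,
      ‖v - w‖ ≤ Real.exp (-s / 2) → φ s (C.pt γ b v) ≤ -(e * s)

/-- **A6, A7** -/
def A6St : Prop :=
  ∀ (n : ℕ) (Γ E : Type) [Group Γ] [Countable Γ] [TopologicalSpace E] [T2Space E]
    [ConnectedSpace E] [MulAction Γ E] [MeasurableSpace E] [BorelSpace E] (C : Cov n Γ E)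
    (μ : Measure E) (D : AD C), C.Vol μ → AIn D μ → ∃ T : Lib.Tw C, T.R = D.R

end Vale.Agent.P284Y
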