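import Vale.Agent.P284Y.A.Sk

/-!
P284Y, block A: mass, depth, move, shift, upper bound for the energy.
-/

open scoped Topology
open Filter Set Function Metric MeasureTheory

noncomputable section

namespace Vale.Agent.P284Y.A

open Vale.Agent.P272.K Vale.Agent.P284Z Vale.Agent.P284Z.J Vale.Agent.P284Y.Lib

namespace L1a

theorem incr_le {f g f' g' : ℝ → ℝ} {a b : ℝ} (hf : ∀ x, HasDerivAt f (f' x) x)
    (hg : ∀ x, HasDerivAt g (g' x) x) (hab : a ≤ b) (h : ∀ x ∈ Icc a b, f' x ≤ g' x) :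
    f b ≤ f a + (g b - g a) :=
  image_le_of_deriv_right_le_deriv_boundary (B := fun x => f a + (g x - g a))
    (fun x _ => (hf x).continuousAt.continuousWithinAt) (fun x _ => (hf x).hasDerivWithinAt)
    (by simp) (fun x _ => (((hg x).sub_const _).const_add _).continuousAt.continuousWithinAt)
    (fun x _ => (((hg x).sub_const _).const_add _).hasDerivWithinAt)
    (fun x hx => h x (Ico_subset_Icc_self hx)) (right_mem_Icc.2 hab)

theorem g0_deriv (n : ℕ) (x : ℝ) : HasDerivAt (g0 n) (mR n * x ^ n) x := by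
  have h := ((hasDerivAt_pow (n + 1) x).const_mul (mR n)).div_const ((n : ℝ) + 1)
  have e : mR n * (((n + 1 : ℕ) : ℝ) * x ^ (n + 1 - 1)) / ((n : ℝ) + 1) = mR n * x ^ n := by
    rw [Nat.add_sub_cancel]
    push_cast
    field_simp
  rw [e] at h
  exact h

theorem g0_scale (n : ℕ) (D : ℝ) {s : ℝ} (hs : s ≠ 0) (x : ℝ) :
    HasDerivAt (fun x => s * g0 n ((x + D) / s)) (mR n * ((x + D) / s) ^ n) x := by
  have h1 : HasDerivAt (fun x : ℝ => (x + D) / s) (1 / s) x :=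
    ((hasDerivAt_id' x).add_const D).div_const s
  have h := ((g0_deriv n ((x + D) / s)).comp x h1).const_mul s
  have e : s * (mR n * ((x + D) / s) ^ n * (1 / s)) = mR n * ((x + D) / s) ^ n := by
    field_simp
  rw [e] at h
  exact h

theorem g0_nonneg (n : ℕ) {x : ℝ} (hx : 0 ≤ x) : 0 ≤ g0 n x := by
  have := mR_pos n
  unfold g0
  positivity

variable {N : ℕ} {X : Type} [TopologicalSpace X] [MeasurableSpace X] {Q : Pat N X}
  {ρ : Measure X} {T : MAS Q ρ}

theorem dens_exp (h : Gen T) {p : X → ℝ} (hp : Q.Dens p) (lam : ℝ) : Q.Dens (Real.exp lam • p) :=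
  h.pg.dens_smul _ _ (Real.exp_pos _).le hp

omit [MeasurableSpace X] in
theorem le_add {ν p : X → ℝ} (hp : Q.Dens p) : ν ≤ ν + p := fun y =>
  le_add_of_nonneg_right (hp.nonneg y)

theorem G_add_le (h : Gen T) {ν p : X → ℝ} (hν : Q.Dens ν) (hp : Q.Dens p)
    (h1 : ∫ y, p y ∂ρ = 1) (lam : ℝ) : T.G (ν + Real.exp lam • p) ≤ T.G ν + Real.exp lam := by
  have a1 := h.G_le ν _ _ hν (h.pg.dens_add _ _ hν (dens_exp h hp lam)) (dens_exp h hp lam) le_rfl
  have a2 := h.ms_le ν p 0 hν hp fun y _ => T.nonpos ν hν y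
  rw [h1, Real.exp_zero, mul_one] at a2
  rw [h.ms_smul] at a1
  have := mul_le_of_le_one_right (Real.exp_pos lam).le a2
  linarith

variable {n : ℕ} {Γ E : Type} [Group Γ] [TopologicalSpace E] [MulAction Γ E] [MeasurableSpace E]
  {C : Cov n Γ E} {μ : Measure E} {S : MAS (QE C) μ} {s₀ M : ℝ}

theorem m1 (hG : Gen S) (g1 : G1 C μ s₀ M) (mu : MU S s₀) : ∀ τ ≥ (0 : ℝ), ∃ m ≥ (1 : ℝ),
    ∀ i : Γ × C.I, ∀ z ∈ C.B 3 i.2, ∀ s, s₀ < s → ∀ ν, (QE C).Dens ν → ∀ lam ≤ τ * s,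
      S.msl ν (del C i z s) lam ≤ m := by
  intro τ hτ
  obtain ⟨D, -, hD⟩ := mu (τ + 1) (by linarith) 1 one_pos
  have h1 : 0 ≤ mR n * (τ + 1) ^ n := mul_nonneg (mR_pos n).le (by positivity)
  have h2 := Real.exp_pos (τ * D)
  refine ⟨mR n * (τ + 1) ^ n + 1 + Real.exp (τ * D), by linarith, fun i z hz s hs ν hν lam hl => ?_⟩
  rcases le_total D s with h | h
  · have := hD i z hz s hs ν hν lam (τ + 1) (by linarith) le_rfl (by linarith)
    linarith
  · have a1 := hG.msl_le ν _ lam hν (g1.dens i z hz s hs)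
    rw [g1.int i z hz s hs, mul_one] at a1
    have a2 := Real.exp_le_exp.2 (hl.trans (mul_le_mul_of_nonneg_left h hτ))
    linarith

theorem up (hG : Gen S) (g1 : G1 C μ s₀ M) (g2 : G2 C μ s₀) (mu : MU S s₀) : ∀ τ ≥ (0 : ℝ),
    ∃ M ≥ (0 : ℝ), ∀ i : Γ × C.I, ∀ z ∈ C.B 3 i.2, ∀ s, s₀ < s → ∀ ν, (QE C).Dens ν →
      ∀ lam ∈ Icc 0 (τ * s), Real.exp lam • del C i z s ≤ ν →
        ∀ t ≤ s, Dp C (S.φ ν) (lam * t / s - M) i z t := by
  intro τ hτ
  obtain ⟨m, hm, h1⟩ := m1 hG g1 mu τ hτ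
  obtain ⟨M₀, hM, h2⟩ := g2.up
  have hl := Real.log_nonneg hm
  have h0 : 0 ≤ M₀ * (1 + τ) := by positivity
  refine ⟨Real.log m + M₀ * (1 + τ), by positivity, fun i z hz s hs ν hν lam hlam hle t ht w hw => ?_⟩
  have hs0 : 0 < s := by linarith [g1.s₀_ge]
  have hts : t / s ≤ 1 := (div_le_one hs0).2 ht
  have hp := g1.dens i z hz s hs
  rcases le_total (Real.log m) lam with h | h
  · have a1 := h1 i z hz s hs 0 hG.pg.dens_zero lam hlam.2
    have a2 := hG.ms_mono ν _ _ _ hν (dens_exp hG hp lam) (dens_exp hG hp lam) (dens_exp hG hp lam)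
      hle le_rfl
    rw [MAS.msl, zero_add] at a1
    have a3 := a2.trans a1
    rw [hG.ms_smul, mul_comm, ← le_div_iff₀ (Real.exp_pos lam)] at a3
    have a4 := h2 (S.φ ν) ⟨hG.sp ν hν, S.nonpos ν hν⟩ i z hz s hs (lam - Real.log m)
      (sub_nonneg.2 h) (by
        rw [neg_sub, Real.exp_sub, Real.exp_log (by linarith)]
        exact a3) t ht w hw
    have a5 : (lam - Real.log m) / s ≤ τ := (div_le_iff₀ hs0).2 (by linarith [hlam.2])
    have a6 := mul_le_mul_of_nonneg_left a5 hM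
    have a7 := mul_le_of_le_one_right hl hts
    have e : (lam - Real.log m) * t / s = lam * t / s - Real.log m * (t / s) := by ring
    rw [e] at a4
    linarith
  · have a1 := S.nonpos ν hν (C.pt i.1 i.2 w)
    have a2 := mul_le_of_le_one_right hlam.1 hts
    rw [mul_div_assoc]
    linarith

theorem lo (hG : Gen S) (g1 : G1 C μ s₀ M) : ∃ M ≥ (0 : ℝ), ∀ τ ≥ (0 : ℝ), ∀ i : Γ × C.I,
    ∀ z ∈ C.B 3 i.2, ∀ j : Γ × C.I, ∀ w ∈ C.B 3 j.2, ∀ s, s₀ < s → ∀ ν, (QE C).Dens ν →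
      ν ≤ Real.exp (τ * s) • del C i z s + Real.exp (τ * s) • del C j w s →
      ∀ y, -((τ + n) * s) - M ≤ S.φ ν y := by
  have hM := g1.M_ge
  refine ⟨M + 2, by linarith, fun τ hτ i z hz j w hw s hs ν hν hle y => ?_⟩
  have hs0 : 0 < s := by linarith [g1.s₀_ge]
  have a1 := hG.low ν (2 * Real.exp ((τ + n) * s + M)) hν (fun x => by
    have b1 := mul_le_mul_of_nonneg_left (g1.le i z hz s hs x) (Real.exp_pos (τ * s)).le
    have b2 := mul_le_mul_of_nonneg_left (g1.le j w hw s hs x) (Real.exp_pos (τ * s)).le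
    have b3 : ν x ≤ Real.exp (τ * s) * del C i z s x + Real.exp (τ * s) * del C j w s x := hle x
    have e : (τ + n) * s + M = τ * s + (n * s + M) := by ring
    rw [e, Real.exp_add]
    linarith) y
  have a2 : 1 ≤ Real.exp ((τ + n) * s + M) := Real.one_le_exp (by positivity)
  have a3 : Real.log (1 + 2 * Real.exp ((τ + n) * s + M)) ≤ (τ + n) * s + M + 2 := by
    rw [Real.log_le_iff_le_exp (by positivity), Real.exp_add _ 2]
    have := mul_le_mul_of_nonneg_left (Real.add_one_le_exp 2) (zero_le_one.trans a2)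
    linarith
  linarith

theorem move (hG : Gen S) (g1 : G1 C μ s₀ M) (g2 : G2 C μ s₀) (mu : MU S s₀) : ∀ τ ≥ (0 : ℝ),
    ∃ M ≥ (0 : ℝ), ∀ i : Γ × C.I, ∀ z ∈ C.B 3 i.2, ∀ i' : Γ × C.I, ∀ z' ∈ C.B 3 i'.2, ∀ s,
      s₀ < s → Cl C s i z i' z' → ∀ ν, (QE C).Dens ν → ∀ lam ∈ Icc 0 (τ * s),
        S.G (ν + Real.exp lam • del C i' z' s) ≤ S.G (ν + Real.exp lam • del C i z s) + M := by
  intro τ hτ
  obtain ⟨K, s₁, hK, h1⟩ := g1.cl
  obtain ⟨M₀, -, h2⟩ := up hG g1 g2 mu τ hτ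
  have e1 := Real.exp_pos (τ * K + M₀)
  have e2 := Real.exp_pos (τ * s₁)
  refine ⟨Real.exp (τ * K + M₀) + Real.exp (τ * s₁), by positivity,
    fun i z hz i' z' hz' s hs hc ν hν lam hlam => ?_⟩
  have hs0 : 0 < s := by linarith [g1.s₀_ge]
  have hp := dens_exp hG (g1.dens i z hz s hs) lam
  have hq := g1.dens i' z' hz' s hs
  have hp' := dens_exp hG hq lam
  have h3 := hG.pg.dens_add _ _ hν hp
  rcases le_total s₁ s with h | h
  · have a1 := hG.G_le _ _ _ h3 (hG.pg.dens_add _ _ hν hp') hp'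
      (add_le_add_left (le_add hp) _)
    have a2 := hG.ms_le _ _ (τ * K + M₀ - lam) h3 hq fun y hy => by
      obtain ⟨w, hw, rfl⟩ := h1 i z hz i' z' hz' s hs h hc y hy
      have b1 := h2 i z hz s hs _ h3 lam hlam (fun x => le_add_of_nonneg_left (hν.nonneg x))
        (s - K) (by linarith) w hw
      have b2 := mul_le_mul_of_nonneg_right ((div_le_iff₀ hs0).2 hlam.2) hK
      have e : lam * (s - K) / s = lam - lam / s * K := by field_simp
      rw [e] at b1
      linarith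
    rw [g1.int i' z' hz' s hs, mul_one, Real.exp_sub, le_div_iff₀' (Real.exp_pos lam),
      ← hG.ms_smul] at a2
    linarith
  · have a1 := G_add_le hG hν hq (g1.int i' z' hz' s hs) lam
    have a2 := hG.G_mono _ _ hν h3 (le_add hp)
    have a3 := Real.exp_le_exp.2 (hlam.2.trans (mul_le_mul_of_nonneg_left h hτ))
    linarith

theorem shift (hG : Gen S) (g1 : G1 C μ s₀ M) (mu : MU S s₀) : ∀ τ ≥ (0 : ℝ), ∃ m ≥ (1 : ℝ),
    ∀ i : Γ × C.I, ∀ z ∈ C.B 3 i.2, ∀ s, s₀ < s → ∀ ν, (QE C).Dens ν → ∀ lam lam' : ℝ,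
      lam' ≤ lam → lam ≤ τ * s →
      S.G (ν + Real.exp lam • del C i z s) ≤
        S.G (ν + Real.exp lam' • del C i z s) + m * (lam - lam') ∧
      (0 ≤ lam → S.G (ν + Real.exp lam • del C i z s) ≤ S.G ν + m * (lam + 1)) := by
  intro τ hτ
  obtain ⟨m, hm, h1⟩ := m1 hG g1 mu τ hτ
  refine ⟨m, hm, fun i z hz s hs ν hν lam lam' hl hl' => ?_⟩
  have hp := g1.dens i z hz s hs
  have h2 : ∀ a ≤ lam, S.G (ν + Real.exp lam • del C i z s) ≤
      S.G (ν + Real.exp a • del C i z s) + m * (lam - a) := fun a ha => by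
    rw [mul_sub]
    exact incr_le (fun x => hG.deriv ν _ x hν hp) (fun x => hasDerivAt_const_mul m) ha
      fun x hx => h1 i z hz s hs ν hν x (hx.2.trans hl')
  refine ⟨h2 lam' hl, fun h0 => ?_⟩
  have a1 := h2 0 h0
  have a2 := G_add_le hG hν hp (g1.int i z hz s hs) 0
  rw [Real.exp_zero] at a1 a2
  linarith

theorem gu (hG : Gen S) (g1 : G1 C μ s₀ M) (mu : MU S s₀) : ∀ c ≥ (0 : ℝ), ∀ η > (0 : ℝ),
    ∃ M : ℝ, ∀ i : Γ × C.I, ∀ z ∈ C.B 3 i.2, ∀ s, s₀ < s →
      S.G (Real.exp (c * s) • del C i z s) ≤ (g0 n c + η) * s + M := by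
  intro c hc η hη
  obtain ⟨m, hm, h1⟩ := shift hG g1 mu c hc
  obtain ⟨D, hD, h2⟩ := mu (c + 1) (by linarith) (η / (2 * (c + 1))) (by positivity)
  have h3 : Tendsto (fun s : ℝ => g0 n (c + D / s)) atTop (𝓝 (g0 n c)) := by
    refine (g0_deriv n c).continuousAt.tendsto.comp ?_
    simpa using (tendsto_const_nhds.div_atTop tendsto_id).const_add c
  obtain ⟨s₂, h4⟩ := eventually_atTop.1 ((h3.eventually_le_const
    (lt_add_of_pos_right _ (half_pos hη))).and (eventually_ge_atTop D))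
  refine ⟨max 1 (m * (c * s₂ + 1)), fun i z hz s hs => ?_⟩
  have hs0 : 0 < s := by linarith [g1.s₀_ge]
  have hp := g1.dens i z hz s hs
  have h0 := hG.pg.dens_zero
  have hcs : 0 ≤ c * s := by positivity
  rw [← zero_add (Real.exp (c * s) • del C i z s)]
  rcases le_total s₂ s with h | h
  · obtain ⟨a1, a2⟩ := h4 s h
    have a3 := incr_le (fun x => hG.deriv 0 _ x h0 hp)
      (fun x => (g0_scale n D hs0.ne' x).fun_add (hasDerivAt_const_mul (η / (2 * (c + 1))))) hcs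
      fun x hx => h2 i z hz s hs 0 h0 x ((x + D) / s) (div_nonneg (add_nonneg hx.1 hD) hs0.le)
        ((div_le_iff₀ hs0).2 (by linarith [hx.2])) (div_mul_cancel₀ _ hs0.ne').ge
    have a4 := G_add_le hG h0 hp (g1.int i z hz s hs) 0
    have a5 := mul_nonneg hs0.le (g0_nonneg n (div_nonneg (add_nonneg le_rfl hD) hs0.le))
    have a6 := mul_le_mul_of_nonneg_left a1 hs0.le
    have a7 : η / (2 * (c + 1)) * (c * s) ≤ η / 2 * s := by
      have e : η / 2 * s = η / (2 * (c + 1)) * ((c + 1) * s) := by field_simp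
      rw [e]
      exact mul_le_mul_of_nonneg_left (by linarith) (by positivity)
    have e : (c * s + D) / s = c + D / s := by field_simp
    have a8 := le_max_left 1 (m * (c * s₂ + 1))
    rw [S.G0, Real.exp_zero] at a4
    rw [Real.exp_zero, e, mul_zero] at a3
    linarith
  · have a1 := (h1 i z hz s hs 0 h0 _ _ le_rfl le_rfl).2 hcs
    have a2 := mul_le_mul_of_nonneg_left (add_le_add_left (mul_le_mul_of_nonneg_left h hc) 1)
      (zero_le_one.trans hm)
    have a3 := mul_nonneg (add_nonneg (g0_nonneg n hc) hη.le) hs0.le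
    have a4 := le_max_right 1 (m * (c * s₂ + 1))
    rw [S.G0] at a1
    linarith

end L1a

open L1a in
theorem stL1 : StL1 := fun _ _ _ _ _ _ _ _ _ _ _ _ _ _ hG _ _ g1 g2 mu =>
  ⟨m1 hG g1 mu, up hG g1 g2 mu, lo hG g1, move hG g1 g2 mu, shift hG g1 mu, gu hG g1 mu⟩

end Vale.Agent.P284Y.A
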