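import Vale.Agent.P284Y.A.Sk

/-!
# P284Y, block A: plurisubharmonic variation of the energies
-/

open scoped ContDiff Topology ComplexOrder ENNReal Matrix
open Filter Set Function Metric MeasureTheory

noncomputable section

namespace Vale.Agent.P284Y.A

open Vale.Agent.P272.K Vale.Agent.P284Z Vale.Agent.P284Z.J Vale.Agent.P284Y.Lib

variable {n : ℕ} {Γ E : Type} [Group Γ] [TopologicalSpace E] [MulAction Γ E]

namespace Lp

/-- the moved radial bump depends only on the modulus of the ratio -/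
theorem mv_scal {a b : ℂ} (ha : a ≠ 0) (h : ‖a‖ = ‖b‖) (c : Cm n) (q : ℝ) :
    mv c (a • (1 : Mx n)) (bmp n q) = mv c (b • (1 : Mx n)) (bmp n q) := by
  have hb : b ≠ 0 := norm_ne_zero_iff.1 (h ▸ norm_ne_zero_iff.2 ha)
  have e : ∀ x : ℂ, x ≠ 0 → (x • (1 : Mx n))⁻¹ = x⁻¹ • (1 : Mx n) := fun x hx =>
    Matrix.inv_eq_left_inv (by simp [smul_smul, hx])
  ext w
  simp [mv, e a ha, e b hb, bmp, bmp₀, nsq, Matrix.smul_mulVec, h]

theorem norm_exp (ζ : ℂ) : ‖Complex.exp (-ζ / 2)‖ = ‖((Real.exp (-ζ.re / 2) : ℝ) : ℂ)‖ := by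
  rw [Complex.norm_exp, Complex.norm_real, Real.norm_of_nonneg (Real.exp_pos _).le]
  simp

/-- the correction -/
def kap (m M : ℝ) (z : Cm n) (s : ℝ) : ℝ :=
  m * ∑ a, M * (n + 1) * (‖z a‖ ^ 2 + ∑ b, ‖sc n s a b‖ ^ 2)

theorem kap_bd (C : Cov n Γ E) (a : C.I) {m M : ℝ} (hm : 0 ≤ m) (hM : 0 ≤ M) :
    ∃ K, ∀ z ∈ C.B 3 a, ∀ s ≥ (0 : ℝ), |kap m M z s| ≤ K := by
  obtain ⟨R, hR⟩ := (isBounded_ball (x := C.c a) (r := 3 * C.r a)).exists_norm_le
  refine ⟨m * ∑ _a : Fin n, M * (n + 1) * (R ^ 2 + ∑ _b : Fin n, 1 ^ 2), fun z hz s hs => ?_⟩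
  rw [kap, abs_of_nonneg (by positivity)]
  gcongr with x _ y
  · exact (norm_le_pi_norm z x).trans (hR z hz)
  · have : Real.exp (-s / 2) ≤ 1 := Real.exp_le_one_iff.2 (by linarith)
    by_cases h : x = y
    · simpa [sc, h, -Complex.ofReal_exp] using this
    · simp [sc, h]

variable [MeasurableSpace E] {C : Cov n Γ E} {μ : Measure E} {S : MAS (QE C) μ} {s₀ M : ℝ}

theorem fam (hB : BM) (hG : Gen S) (g : G1 C μ s₀ M) {W : Type} [NormedAddCommGroup W]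
    [NormedSpace ℂ W] [FiniteDimensional ℂ W] {O : Set W} (hO : IsOpen O) {J : Type} [Fintype J]
    (i : J → Γ × C.I) (z : J → W → Cm n) (ζ : W → ℂ) (τ m : J → ℝ)
    (hm : ∀ j, ∀ z ∈ C.B 3 (i j).2, ∀ s, s₀ < s → ∀ ν, (QE C).Dens ν →
      S.msl ν (del C (i j) z s) (τ j * s) ≤ m j)
    (hz : ∀ j, AnalyticOnNhd ℂ (z j) O) (hζ : AnalyticOnNhd ℂ ζ O)
    (h : ∀ θ ∈ O, s₀ < (ζ θ).re ∧ ∀ j, z j θ ∈ C.B 3 (i j).2) :
    Psh (fun θ => S.G (∑ j, Real.exp (τ j * (ζ θ).re) • del C (i j) (z j θ) (ζ θ).re) +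
      ∑ j, kap (m j) M (z j θ) (ζ θ).re) O := by
  classical
  set t := fun j θ => Real.exp (τ j * (ζ θ).re) • del C (i j) (z j θ) (ζ θ).re
  have hd : ∀ j, ∀ θ ∈ O, (QE C).Dens (del C (i j) (z j θ) (ζ θ).re) := fun j θ hθ =>
    g.dens _ _ ((h θ hθ).2 j) _ (h θ hθ).1
  refine (S.psh W O J 0 i (fun _ => bmp n (1 / 2)) z
    (fun _ θ => Complex.exp (-ζ θ / 2) • (1 : Mx n)) (fun j θ => τ j * ζ θ / 2) (fun _ _ => M) m t
    (fun θ => ∑ j, t j θ) hO hG.pg.dens_zero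
    (fun _ => (hB.ker n _ (by norm_num) (by norm_num)).1)
    (fun j => ⟨hz j, fun a b θ hθ => ?_, fun θ hθ => ?_⟩) (fun j θ hθ => ?_) (fun j θ => ?_)
    (fun θ => (zero_add _).symm) (fun j θ hθ => ?_)).2.congr fun θ _ => ?_
  · exact ((hζ θ hθ).neg.div_const.cexp).mul analyticAt_const
  · exact (analyticAt_const.mul (hζ θ hθ)).div_const
  · have k : ∀ u : Cm n, ‖u‖ ≤ 1 → z j θ + (Complex.exp (-ζ θ / 2) • (1 : Mx n)) *ᵥ u ∈
        C.cB (7 / 2) (i j).2 := fun u hu => g.ball _ _ ((h θ hθ).2 j) (by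
      have h1 : Real.exp (-(ζ θ).re / 2) ≤ Real.exp (-s₀ / 2) :=
        Real.exp_le_exp.2 (by linarith [(h θ hθ).1])
      rw [mem_closedBall_iff_norm, add_sub_cancel_left, Matrix.smul_mulVec, Matrix.one_mulVec,
        norm_smul, norm_exp, Complex.norm_real, Real.norm_of_nonneg (Real.exp_pos _).le]
      nlinarith [Real.exp_pos (-(ζ θ).re / 2), norm_nonneg u])
    exact ⟨⟨by simp, fun u hu => C.cB_sub_B (by norm_num) _ (k u hu)⟩,
      fun u hu => (g.hess _ _ (k u hu)).1⟩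
  · simp only [t, del, Pat.pm, sc, mv_scal (Complex.exp_ne_zero _) (norm_exp (ζ θ))]
    congr 2
    simp
    ring
  · have := hm j _ ((h θ hθ).2 j) _ (h θ hθ).1 (∑ k ∈ Finset.univ.erase j, t k θ)
      (hG.pg.dens_sum J _ _ fun k _ => hG.pg.dens_smul _ _ (Real.exp_pos _).le (hd k θ hθ))
    rwa [MAS.msl, Finset.sum_erase_add _ (fun k => t k θ) (Finset.mem_univ j)] at this
  · simp only [t, kap, sc, Matrix.smul_apply, norm_smul, norm_exp]

end Lp

open Lp in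
theorem stLP : StLP := by
  intro hB n Γ E _ _ _ _ _ _ _ C μ _ S hG s₀ M g l
  have hM : 0 ≤ M := zero_le_one.trans g.M_ge
  have hs : ∀ s, s₀ < s → 0 ≤ s := fun s h => by linarith [g.s₀_ge]
  have hT : IsOpen {t : ℂ | s₀ < t.re} := isOpen_lt continuous_const Complex.continuous_re
  refine ⟨fun τ hτ i => ?_, fun c hc τ hτ i j => ?_⟩
  · obtain ⟨m, h1, hm⟩ := l.m1 τ hτ
    obtain ⟨K, hK⟩ := kap_bd C i.2 (zero_le_one.trans h1) hM
    refine ⟨kap m M, K, fun z hz s h => hK z hz s (hs s h), ?_⟩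
    simpa [gE] using fam hB hG g (O := C.B 3 i.2 ×ˢ {t : ℂ | s₀ < t.re}) (isOpen_ball.prod hT)
      (fun _ : Unit => i) (fun _ q => q.1) (fun q => q.2) (fun _ => τ) (fun _ => m)
      (fun _ z hz s h ν hν => hm i z hz s h ν hν _ le_rfl) (fun _ => analyticOnNhd_fst)
      analyticOnNhd_snd fun q hq => ⟨hq.2, fun _ => hq.1⟩
  · obtain ⟨m, h1, hm⟩ := l.m1 τ hτ
    obtain ⟨m', h1', hm'⟩ := l.m1 c hc
    obtain ⟨K, hK⟩ := kap_bd C i.2 (zero_le_one.trans h1) hM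
    obtain ⟨K', hK'⟩ := kap_bd C j.2 (zero_le_one.trans h1') hM
    refine ⟨fun q s => kap m M q.1 s + kap m' M q.2 s, K + K', fun q hq s h => (abs_add_le _ _).trans
      (add_le_add (hK _ hq.1 s (hs s h)) (hK' _ hq.2 s (hs s h))), ?_⟩
    simpa [JE] using fam hB hG g (O := (C.B 3 i.2 ×ˢ C.B 3 j.2) ×ˢ {t : ℂ | s₀ < t.re})
      ((isOpen_ball.prod isOpen_ball).prod hT) (fun b : Bool => cond b i j)
      (fun b q => cond b q.1.1 q.1.2) (fun q => q.2) (fun b => cond b τ c) (fun b => cond b m m')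
      (fun b z hz s h ν hν => by
        cases b
        exacts [hm' j z hz s h ν hν _ le_rfl, hm i z hz s h ν hν _ le_rfl])
      (fun b q _ => by
        cases b
        exacts [analyticAt_snd.comp analyticAt_fst, analyticAt_fst.comp analyticAt_fst])
      analyticOnNhd_snd fun q hq => ⟨hq.2, fun b => by
        cases b
        exacts [hq.1.2, hq.1.1]⟩

end Vale.Agent.P284Y.A
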