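import Vale.Agent.P284Y.A.Bas

/-!
# P284Y, block A: transfer of mass (rows MT2, GL3)
-/

open scoped ContDiff Topology ComplexOrder ENNReal Matrix
open Filter Set Function Metric MeasureTheory

noncomputable section

namespace Vale.Agent.P284Y.A

open Vale.Agent.P272.K Vale.Agent.P284Z Vale.Agent.P284Z.J Vale.Agent.P284Y.Lib

theorem stMT2 : StMT2 := by
  intro n Γ E _ _ _ _ _ _ _ C μ _ S hG s₀ M₀ g1 g2
  obtain ⟨M, hM, hc⟩ := g2.cheb
  refine ⟨M, hM, fun η hη m D => ?_⟩
  obtain ⟨d', h1, h2, h3⟩ : ∃ d' : ℝ, 1 ≤ d' ∧ D ≤ d' ∧ 2 * Real.exp (0 - d') * |m| ≤ η := by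
    have := (Real.tendsto_exp_neg_atTop_nhds_zero.const_mul 2).mul_const |m|
    rw [mul_zero, zero_mul] at this
    simpa using ((eventually_ge_atTop 1).and ((eventually_ge_atTop D).and
      (this.eventually (ge_mem_nhds hη)))).exists
  refine ⟨d' + |Real.log η|, by positivity, fun i z hz s hs ν u ψ h t H X K lam lam' hν hu hψ t0 t1
    hH hK hD a1 a2 a3 a4 a5 a6 => ?_⟩
  have hp := g1.dens i z hz s hs
  have hq := g1.pw hG.pg hz hs lam
  have hs' := hG.pg.dens_add _ _ hν hq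
  obtain ⟨hb, hb'⟩ := hu.cvx hψ hG.pg t0 t1
  have hB : MeasurableSet {y | ψ y < -(K * (X + 1))} :=
    (isOpen_lt (hψ.cont hG.pg) continuous_const).measurableSet
  obtain ⟨K₀, k1, k2⟩ := mem_cocompact.1 ((S.decay _ hs').eventually (lt_mem_nhds neg_one_lt_zero))
  have key := hG.mt _ ν univ K₀ _ ({y | ψ y < -(K * (X + 1))}ᶜ.indicator fun y => ENNReal.ofReal (h y))
    0 (d' + |Real.log η|) d' hq hν isOpen_univ k1 (subset_univ _) hb.1 (fun y _ => hb.2 y)
    (by linarith) (fun y hy => by_contra fun hn => by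
      have e1 : -1 < S.φ _ y := k2 hn
      have e2 := hy.2
      rw [add_comm] at e2
      linarith [hb.2 y]) (fun y _ hy => ⟨by_contra fun hn => by
        rw [add_comm] at hy
        linarith [a4 y hn, mul_nonpos_of_nonneg_of_nonpos (sub_nonneg.2 t1) (hu.2 y)],
      (indicator_le_self _ _ y).trans (ENNReal.ofReal_le_ofReal ((a1 y).trans (hb' y)))⟩)
    (fun y _ _ => indicator_apply_le' (fun hy => ENNReal.ofReal_le_ofReal ((a3 y).trans ?_))
      fun _ => zero_le) fun y hy => (hy trivial).elim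
  · rw [add_comm (Real.exp lam • _) ν] at key
    have e1 : Real.exp (d' - (d' + |Real.log η|)) ≤ η := by
      rw [← Real.le_log_iff_exp_le hη]
      linarith [neg_abs_le (Real.log η)]
    have e2 : 0 ≤ S.msl ν (del C i z s) lam := hG.ms_nonneg _ _ hq
    have e3 := mul_le_mul_of_nonneg_left (a5.trans (le_abs_self m))
      (show 0 ≤ 2 * Real.exp (0 - d') by positivity)
    calc _ ≤ ∫⁻ y, ({y | ψ y < -(K * (X + 1))}ᶜ.indicator (fun y => ENNReal.ofReal (h y)) y +
          {y | ψ y < -(K * (X + 1))}.indicator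
            (fun y => ENNReal.ofReal H * ENNReal.ofReal (del C i z s y)) y) ∂μ :=
          lintegral_mono fun y => by
            by_cases hy : y ∈ {y | ψ y < -(K * (X + 1))}
            · rw [indicator_of_mem hy, ← ENNReal.ofReal_mul hH]
              exact le_add_left (ENNReal.ofReal_le_ofReal (a2 y))
            · rw [indicator_of_mem (mem_compl hy)]
              exact le_self_add
      _ ≤ ENNReal.ofReal ((1 + η) * S.msl ν (del C i z s) lam + η) +
          ENNReal.ofReal H * ENNReal.ofReal (M / K) := by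
          rw [lintegral_add_right _ ((((dens_cont hG.pg hp).measurable.ennreal_ofReal).const_mul
            _).indicator hB), lintegral_indicator hB, lintegral_const_mul' _ _ ENNReal.ofReal_ne_top]
          refine add_le_add (key.trans (ENNReal.ofReal_le_ofReal (add_le_add ?_ (e3.trans h3))))
            (mul_le_mul_right (hc ψ hψ i z hz s hs X K hK hD) _)
          exact mul_le_mul_of_nonneg_right (by linarith) e2
      _ = _ := by
          rw [← ENNReal.ofReal_mul hH, ← ENNReal.ofReal_add (add_nonneg (mul_nonneg (by linarith) e2)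
            hη.le) (by positivity)]
  · rw [Pi.smul_apply, smul_eq_mul, ← mul_assoc, ← Real.exp_add]
    refine mul_le_mul_of_nonneg_right (Real.exp_le_exp.2 ?_) (hp.nonneg y)
    have := mul_le_mul_of_nonneg_left (not_lt.1 (show ¬ ψ y < _ from hy)) t0
    linarith

theorem stGL3 : StGL3 := by
  intro n Γ E _ _ _ _ _ _ _ C μ _ S hG s₀ M₀ g1 l1 ⟨M, hM, mt⟩ η hη τ hτ
  obtain ⟨m₁, hm₁, b1⟩ := l1.m1 τ hτ
  obtain ⟨m₂, hm₂, b2⟩ := l1.shift τ hτ
  obtain ⟨U, -, b3⟩ := l1.up τ hτ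
  obtain ⟨η₁, p1, q1⟩ : ∃ η₁ > (0 : ℝ), η₁ * (2 * m₁ + 2) * (τ + 1) = η / 2 :=
    ⟨η / 2 / ((2 * m₁ + 2) * (τ + 1)), by positivity, by field_simp⟩
  obtain ⟨t, t1, t2⟩ : ∃ t ∈ Ioo (0 : ℝ) 1, 1 - η₁ < (1 - t) ^ n := by
    have : ContinuousAt (fun t : ℝ => (1 - t) ^ n) 0 := by fun_prop
    obtain ⟨t, h1, h2⟩ := (((this.eventually (lt_mem_nhds (a := 1 - η₁)
      (by simpa using p1))).filter_mono nhdsWithin_le_nhds).and (Ioo_mem_nhdsGT one_pos)).exists
    exact ⟨t, h2, h1⟩
  obtain ⟨K, p2, q2⟩ : ∃ K > (0 : ℝ), Real.exp U * (M / K) ≤ η₁ :=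
    ⟨Real.exp U * (M + 1) / η₁, by positivity, by
      rw [← mul_div_assoc, div_le_iff₀ (by positivity), mul_div_cancel₀ _ p1.ne']
      exact mul_le_mul_of_nonneg_left (by linarith) (Real.exp_pos _).le⟩
  refine ⟨t, t1, η / 2 / (m₂ * K), by positivity, fun m D => ?_⟩
  obtain ⟨d, hd, mt⟩ := mt η₁ p1 (m + m₁) D
  refine ⟨m₂ * (K + d + 1), fun i z hz s hs ν ψ hν hψ hD hm hs' => ?_⟩
  have s0 : 0 < s := by linarith [g1.s₀_ge]
  have hp := g1.dens i z hz s hs
  have h0 := hG.pg.dens_zero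
  set δ := K * (η / 2 / (m₂ * K) * s + 1) + d with hδ
  have δ0 : 0 ≤ δ := by positivity
  have e1 : m₂ * δ = η / 2 * s + m₂ * (K + d) := by
    rw [hδ]
    field_simp
    ring
  have e2 : ∀ lam, S.G ν ≤ S.G (ν + Real.exp lam • del C i z s) := fun lam =>
    have hq := g1.pw hG.pg hz hs lam
    hG.G_mono _ _ hν (hG.pg.dens_add _ _ hν hq) (le_add_dens hq ν).1
  have e3 := fun a ha h => (b2 i z hz s hs 0 h0 a a le_rfl ha).2 h
  simp only [zero_add, S.G0] at e3
  have e4 := mul_pos hη s0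
  rcases le_or_gt δ (τ * s) with hc | hc
  swap
  · nlinarith [e3 _ le_rfl (by positivity), e2 (τ * s), mul_le_mul_of_nonneg_left hc.le (by linarith : 0 ≤ m₂)]
  have key := hG.cmpI 0 _ ν _ 0 (τ * s - δ) 1 1 1 δ (η₁ * (2 * m₁ + 2)) h0 hp hν hp (sub_nonneg.2 hc)
    fun lam hl => ?_
  · have e5 := (b2 i z hz s hs 0 h0 (τ * s) (τ * s - δ) (by linarith) le_rfl).1
    have e6 := e3 0 (by positivity) le_rfl
    simp only [zero_add, one_mul, sub_add_cancel, mul_zero, sub_zero, sub_sub_cancel] at key e5 e6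
    have e7 : η₁ * (2 * m₁ + 2) * (τ * s - δ) ≤ η / 2 * s := by
      rw [← q1, mul_assoc (η₁ * _)]
      exact mul_le_mul_of_nonneg_left (by linarith) (by positivity)
    linarith [e2 δ]
  simp only [one_mul]
  have hq := g1.pw hG.pg hz hs lam
  have hq0 := hG.pg.dens_add _ _ h0 hq
  have hl' : lam + δ ≤ τ * s := by linarith [hl.2]
  have hq' := g1.pw hG.pg hz hs (lam + δ)
  have hu := np_phi hG hq0
  have t3 : (1 - t) ^ n ≤ 1 := pow_le_one₀ (by linarith [t1.2]) (by linarith [t1.1])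
  have t4 : 0 ≤ (1 - t) ^ n := pow_nonneg (by linarith [t1.2]) _
  have r : ∀ y a, S.φ (0 + Real.exp lam • del C i z s) y + lam ≤ a ∨ del C i z s y = 0 →
      (1 - t) ^ n * (Real.exp (S.φ (0 + Real.exp lam • del C i z s) y) *
        (Real.exp lam • del C i z s) y) ≤ Real.exp a * del C i z s y := fun y a h => by
    rw [Pi.smul_apply, smul_eq_mul, ← mul_assoc (Real.exp _), ← Real.exp_add]
    refine (mul_le_of_le_one_left (mul_nonneg (Real.exp_pos _).le (hp.nonneg y)) t3).trans ?_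
    rcases h with h | h
    · exact mul_le_mul_of_nonneg_right (Real.exp_le_exp.2 h) (hp.nonneg y)
    · rw [h, mul_zero, mul_zero]
  have k := mt i z hz s hs ν _ ψ (fun y => (1 - t) ^ n *
    (Real.exp (S.φ (0 + Real.exp lam • del C i z s) y) * (Real.exp lam • del C i z s) y)) t
    (Real.exp U) _ K (lam + δ) lam hν hu hψ t1.1.le t1.2.le (Real.exp_pos _).le p2 hD
    (fun y => mul_le_mul_of_nonneg_left (by
      rw [hG.ma _ hq0, zero_add]
      exact mul_le_mul_of_nonneg_left (by linarith) (Real.exp_pos _).le) t4)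
    (fun y => r y U ((eq_or_ne _ 0).symm.imp_left fun hy => by
      have := g1.dp hz hs (b3 i z hz s hs _ hq0 lam ⟨hl.1, by linarith⟩ (zero_add _).ge s le_rfl) hy
      rw [mul_div_cancel_right₀ _ s0.ne'] at this
      linarith))
    (fun y => r y _ (Or.inl (by nlinarith [hu.2 y, t1.1])))
    (fun y hy => (hs' y hy).trans (add_le_add_left (hG.mono _ _ (hG.pg.dens_add _ _ hν hq')
      (hG.pg.dens_add _ _ hν (g1.pw hG.pg hz hs _)) (add_le_add_right (exp_smul_le hp hl') _) y) _))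
    ((ms_tot hG hν hp _).trans (add_le_add hm (b1 i z hz s hs ν hν _ hl')))
    (by nlinarith [t1.2, mul_pos p2 (show 0 < η / 2 / (m₂ * K) * s + 1 by positivity)])
  have n1 : 0 ≤ S.msl ν (del C i z s) (lam + δ) := hG.ms_nonneg _ _ hq'
  rw [← ofReal_integral_eq_lintegral_ofReal ((hG.pg.dens_int _ _ hq
    (hG.cont _ hq0).rexp).const_mul _) (ae_of_all _ fun y => mul_nonneg t4
      (mul_nonneg (Real.exp_pos _).le (hq.nonneg y))), integral_const_mul,
    ENNReal.ofReal_le_ofReal_iff (by positivity)] at k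
  change (1 - t) ^ n * S.msl 0 (del C i z s) lam ≤ _ at k
  have n2 : 0 ≤ S.msl 0 (del C i z s) lam := hG.ms_nonneg _ _ hq
  nlinarith [b1 i z hz s hs ν hν _ hl', b1 i z hz s hs 0 h0 lam (by linarith),
    mul_le_mul_of_nonneg_right t2.le n2]

end Vale.Agent.P284Y.A
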