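import Vale.Agent.P284Y.A.Sk

/-!
# P284Y, block A: the sharp upper bound for the mass
-/

open scoped ContDiff Topology ComplexOrder ENNReal Matrix
open Filter Set Function Metric MeasureTheory Real

noncomputable section

namespace Vale.Agent.P284Y.A

open Vale.Agent.P272.K Vale.Agent.P284Z Vale.Agent.P284Z.J Vale.Agent.P284Y.Lib

theorem stMU : StMU := by
  intro n Γ E _ _ _ _ _ _ _ C μ _ S G s₀ M g τ hτ η hη
  refine ⟨|τ + M + (τ * s₀ + M) - log η|, abs_nonneg _, fun i z hz s hs ν hν lam κ k0 k1 k2 => ?_⟩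
  have pg := G.pg
  have hε := exp_pos (-s)
  have hr := exp_pos (-s₀ / 2)
  have h7 : ball z (4 * exp (-s₀ / 2)) ⊆ C.cB (7 / 2) i.2 :=
    ball_subset_closedBall.trans (g.ball _ z hz)
  have h4 : ball z (4 * exp (-s₀ / 2)) ⊆ C.B 4 i.2 := h7.trans (C.cB_sub_B (by norm_num) _)
  have h2 : closedBall z (2 * exp (-s₀ / 2)) ⊆ ball z (4 * exp (-s₀ / 2)) :=
    closedBall_subset_ball (by linarith)
  obtain ⟨b, hb⟩ : ∃ b : E → ℝ, ∀ w ∈ C.B 4 i.2,
      b (C.pt i.1 i.2 w) = κ * lg (exp (-s)) z w - C.ρ i.2 w + (τ * s₀ + M) :=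
    ⟨fun y => κ * lg (exp (-s)) z (C.co i.1 i.2 y) - C.ρ i.2 (C.co i.1 i.2 y) + (τ * s₀ + M),
      fun w hw => by simp only [C.co_pt hw]⟩
  have hl : ∀ w, ContDiffAt ℝ ∞ (lg (exp (-s)) z) w := fun w => (lg_smooth hε z).contDiffAt
  have sm : ∀ w ∈ C.B 4 i.2, ContDiffAt ℝ ∞ (fun w => b (C.pt i.1 i.2 w)) w := fun w hw =>
    (((contDiffAt_const.mul (hl w)).sub (C.ρ_sm _ w hw)).add contDiffAt_const).congr_of_eventuallyEq
      (mem_of_superset ((C.isOpen_B 4 _).mem_nhds hw) hb)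
  have om : ∀ w ∈ C.B 4 i.2, (QE C).om b i w = (κ : ℂ) • cHess (lg (exp (-s)) z) w :=
    fun w hw => by
      rw [← C2.cHess_const_mul κ ((hl w).of_le two_le), ← hess_const_add (τ * s₀ + M)
        ((contDiffAt_const.mul (hl w)).of_le two_le)]
      refine C2.cHess_congr (mem_of_superset ((C.isOpen_B 4 _).mem_nhds hw) fun x hx => ?_)
      change C.ρ i.2 x + b (C.pt i.1 i.2 x) = _
      rw [hb x hx]
      ring
  have hp := pg.dens_smul (exp lam) _ (exp_pos _).le (g.dens i z hz s hs)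
  have hD : IsOpen (C.pt i.1 i.2 '' ball z (4 * exp (-s₀ / 2))) :=
    C.isOpen_image_pt _ isOpen_ball h4
  have supp : ∀ y, (exp lam • del C i z s) y ≠ 0 → ∃ w ∈ ball z (4 * exp (-s₀ / 2)),
      nsq (w - z) < exp (-s) ∧ C.pt i.1 i.2 w = y := fun y hy => by
    obtain ⟨w, w1, w2, rfl⟩ := g.supp i z hz s hs y (right_ne_zero_of_mul hy)
    have := exp_le_exp.2 (show -s / 2 ≤ -s₀ / 2 by linarith)
    exact ⟨w, mem_ball_iff_norm.2 (by linarith), w1, rfl⟩
  have key := G.mup (ν + exp lam • del C i z s) _ _ (C.pt i.1 i.2 '' closedBall z _) b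
    (lam + |τ + M + (τ * s₀ + M) - log η| - (τ + M + (τ * s₀ + M)))
    (pg.dens_add _ _ hν hp) hp (le_add_of_nonneg_left hν.nonneg) hD
    (C.isCompact_image_pt _ (isCompact_closedBall _ _) (h2.trans h4)) (image_mono h2) ?_
    (fun y hy => (supp y hy).imp fun w h => ⟨h.1, h.2.2⟩) ?_ ?_
  · have e1 : ∫ y, (exp lam • del C i z s) y ∂μ = exp lam := by
      simp only [Pi.smul_apply, smul_eq_mul, integral_const_mul, g.int i z hz s hs, mul_one]
    have e2 : exp (-(lam + |τ + M + (τ * s₀ + M) - log η| - (τ + M + (τ * s₀ + M)))) * exp lam ≤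
        η := by
      rw [← exp_add, ← le_log_iff_exp_le hη]
      linarith [le_abs_self (τ + M + (τ * s₀ + M) - log η)]
    have e3 := pg.push_lint i (fun w => κ ^ n * (cHess (lg (exp (-s)) z) w).det.re) (fun _ => 1)
      (continuous_const.mul (cont_det_lg hε z)).measurable measurable_const
    have e4 : 0 ≤ mR n * κ ^ n := mul_nonneg (mR_pos n).le (pow_nonneg k0 n)
    simp only [one_mul] at e3
    rw [e1] at key
    rw [← ENNReal.ofReal_le_ofReal_iff (by linarith), ENNReal.ofReal_add e4 hη.le]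
    refine key.trans (add_le_add ((lintegral_mono_set (sep_subset _ _)).trans ?_)
      (ENNReal.ofReal_le_ofReal e2))
    rw [setLIntegral_congr_fun hD.measurableSet (g := fun y => ENNReal.ofReal ((QE C).push i
      (fun w => κ ^ n * (cHess (lg (exp (-s)) z) w).det.re) y))]
    · refine (setLIntegral_le_lintegral _ _).trans (e3.le.trans
        ((setLIntegral_le_lintegral _ _).trans (le_of_eq ?_)))
      simp only [ENNReal.ofReal_mul (pow_nonneg k0 n)]
      rw [lintegral_const_mul' _ _ ENNReal.ofReal_ne_top, mul_comm (mR n),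
        ENNReal.ofReal_mul (pow_nonneg k0 n), mR, ENNReal.ofReal_toReal (mFS_ne_top n),
        ← lg_total hε z]
      rfl
    · rintro _ ⟨w, hw, rfl⟩
      refine congrArg ENNReal.ofReal ((pg.ma_pt b i w (h4 hw) ((sm w (h4 hw)).of_le two_le)).trans
        (Eq.trans ?_ (pg.push_pt i _ w (h4 hw)).symm))
      rw [om w (h4 hw), Matrix.det_smul, Fintype.card_fin, ← Complex.ofReal_pow,
        Complex.re_ofReal_mul]
  · rintro _ ⟨w, hw, rfl⟩
    exact ⟨pg.sm_of b i w (h4 hw) (sm w (h4 hw)), pg.psd_of b i w (h4 hw)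
      ((sm w (h4 hw)).of_le two_le) (om w (h4 hw) ▸ psd_smul (lg_psd hε z w) k0)⟩
  · rintro _ ⟨⟨w, hw, rfl⟩, h⟩
    refine ⟨w, by_contra fun o => ?_, rfl⟩
    rw [mem_closedBall_iff_norm, not_le] at o
    have e1 : exp (-s₀) = exp (-s₀ / 2) ^ 2 := by rw [sq, ← exp_add, add_halves]
    have e2 : -s₀ ≤ lg (exp (-s)) z w := by
      rw [Lib.lg, le_log_iff_exp_le (lg_pos hε _)]
      nlinarith [sq_le_nsq (w - z)]
    rw [hb w (h4 hw)] at h
    nlinarith [S.nonpos _ (pg.dens_add _ _ hν hp) (C.pt i.1 i.2 w),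
      (abs_le.1 (g.rho _ w (h7 hw))).2, g.s₀_ge, mul_le_mul_of_nonneg_left e2 k0]
  · intro y hy
    obtain ⟨w, hw, w1, rfl⟩ := supp y hy
    have e2 : lg (exp (-s)) z w ≤ 1 - s := by
      rw [Lib.lg, log_le_iff_le_exp (lg_pos hε _), sub_eq_add_neg 1, exp_add]
      nlinarith [add_one_le_exp (1 : ℝ)]
    rw [hb w (h4 hw)]
    nlinarith [(abs_le.1 (g.rho _ w (h7 hw))).1, mul_le_mul_of_nonneg_left e2 k0]

end Vale.Agent.P284Y.A
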