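import Vale.Agent.P284Y.Spec
import Vale.Agent.P284Y.Gen.PG
import Vale.Agent.P284Y.Gen.G2
import Vale.Agent.P284Y.Lib.A8
import Vale.Agent.P284Y.A.G1
import Vale.Agent.P284Y.A.G2
import Vale.Agent.P284Y.A.G3
import Vale.Agent.P284Y.A.Mu
import Vale.Agent.P284Y.A.Dom
import Vale.Agent.P284Y.A.L1
import Vale.Agent.P284Y.A.Lp
import Vale.Agent.P284Y.A.Mt
import Vale.Agent.P284Y.A.Gl2
import Vale.Agent.P284Y.A.At
import Vale.Agent.P284Y.A.Ad
import Vale.Agent.P284Y.A.A611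
import Vale.Agent.P284Y.A.A9
import Vale.Agent.P284Z.J.JG

/-!
# P284Y, block A: assembly
-/

open MeasureTheory

namespace Vale.Agent.P284Y.A

open Vale.Agent.P284Z

theorem stA : StA :=
  stA_of bm stQE stG1 stG2 stG3 stMU stDOM stL1 stLP stMT2 stGL2 stGL3 stAT stAD a6St Lib.a8 a9 a11

theorem stA'_of (hP : StP) : StA' := by
  intro n Γ E _ _ _ _ _ _ _ C hn
  borelize E
  obtain ⟨μ, hμ⟩ := (jg C).vol
  have ok := (stQE n Γ E C).1
  have hv : (QE C).Vol μ := fun i => hμ i.1 i.2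
  obtain ⟨S⟩ := hP n Γ E C (QE C) μ hn ok ok.tr ok.tr hv
  exact stA n Γ E C μ S hn (stGen n E _ μ S (stPG n E _ μ ok hv))

end Vale.Agent.P284Y.A
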