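import Vale.Agent.P284Y.Lib.Spec
import Vale.Agent.P284Y.Lib.TwSpec

/-!
# P284Y, block A: the output of the reduction (compact fibres, tubes, Seshadri functions)
-/

open scoped ContDiff Topology ComplexOrder
open Filter Set Function Metric MeasureTheory

noncomputable section

namespace Vale.Agent.P284Y.A

open Vale.Agent.P272.K Vale.Agent.P284Z Vale.Agent.P284Y.Lib

variable {n : ℕ} {Γ E : Type} [Group Γ] [TopologicalSpace E] [MulAction Γ E]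

/-- the differential of `s` in the chart `(γ, a)` -/
def dch (C : Cov n Γ E) {p : ℕ} (s : E → Cm p) (γ : Γ) (a : C.I) (z : Cm n) : Cm n →L[ℂ] Cm p :=
  fderiv ℂ (fun w => s (C.pt γ a w)) z

/-- An invariant holomorphic foliation of codimension `p` on an open set with thin complement;
`Kd a z` is the tangent space of the leaf. -/
structure Fol (C : Cov n Γ E) where
  d : ℕ
  p : ℕ
  dim : d + p = n
  p_pos : 1 ≤ p
  O : Set E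
  opn : IsOpen O
  inv : ∀ (γ : Γ) y, y ∈ O → γ • y ∈ O
  conn : IsPreconnected O
  thin : ∀ a, ∃ h : Cm n → ℂ, AnalyticOnNhd ℂ h (C.B 2 a) ∧ (∃ z ∈ C.B 2 a, h z ≠ 0) ∧
    ∀ z ∈ C.B 2 a, h z ≠ 0 → C.pt 1 a z ∈ O
  Kd : C.I → Cm n → Submodule ℂ (Cm n)
  loc : ∀ y ∈ O, ∃ (U : Set E) (s : E → Cm p), IsOpen U ∧ y ∈ U ∧ U ⊆ O ∧ C.HolOn s U ∧
    ∀ γ a, ∀ z ∈ C.B 4 a, C.pt γ a z ∈ U → Surjective (dch C s γ a z) ∧
      ∀ v, dch C s γ a z v = 0 ↔ v ∈ Kd a z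

/-- A proper holomorphic submersion `sh : U → ball t₁ r` with connected fibres, tangent to the foliation,
with finitely many product charts. -/
structure Tube {C : Cov n Γ E} (F : Fol C) where
  U : Set E
  sh : E → Cm F.p
  t₁ : Cm F.p
  r : ℝ
  r_pos : 0 < r
  opn : IsOpen U
  hol : C.HolOn sh U
  mem : ∀ y ∈ U, sh y ∈ ball t₁ r
  surj : ∀ γ a, ∀ z ∈ C.B 4 a, C.pt γ a z ∈ U → Surjective (dch C sh γ a z)
  ker : ∀ γ a, ∀ z ∈ C.B 4 a, C.pt γ a z ∈ U → C.pt γ a z ∈ F.O →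
    ∀ v, dch C sh γ a z v = 0 ↔ v ∈ F.Kd a z
  cpt : ∀ r' < r, IsCompact {y ∈ U | ‖sh y - t₁‖ ≤ r'}
  conn : ∀ t ∈ ball t₁ r, IsConnected {y ∈ U | sh y = t}
  J : Type
  fin : Fintype J
  Ψ : J → OpenPartialHomeomorph E (Cm F.d × Cm F.p)
  tgt : ∀ j, (Ψ j).target = ball 0 4 ×ˢ ball t₁ r
  src : ∀ j, (Ψ j).source ⊆ U
  snd : ∀ j, ∀ y ∈ (Ψ j).source, (Ψ j y).2 = sh y
  g : J → Γ
  a : J → C.I
  inch : ∀ j, ∀ y ∈ (Ψ j).source, ∃ z ∈ C.B 2 (a j), y = C.pt (g j) (a j) z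
  holΨ : ∀ j, C.HolOn (Ψ j) (Ψ j).source
  holΨ' : ∀ j, AnalyticOnNhd ℂ (fun u => C.co (g j) (a j) ((Ψ j).symm u)) (Ψ j).target
  cover : ∀ y ∈ U, ∃ j, y ∈ (Ψ j).source ∧ ‖(Ψ j y).1‖ < 1
  /-- the nerve of the small boxes is connected, uniformly in the fibre -/
  nerve : ∀ i j, Relation.ReflTransGen (fun i j => ∃ δ ∈ Ioc (0 : ℝ) 1, ∃ u : Cm F.d, ‖u‖ < 1 ∧
    ∀ t ∈ ball t₁ r, ∀ u' ∈ ball u δ,
      (Ψ i).symm (u', t) ∈ (Ψ j).source ∧ ‖(Ψ j ((Ψ i).symm (u', t))).1‖ < 1) i j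

attribute [instance] Tube.fin

variable {C : Cov n Γ E} {F : Fol C}

/-- `τ log P` is `ω`-plurisubharmonic, with a pole of order `τ` exactly along the fibre over `t`. -/
structure Sesh (T : Tube F) (t : Cm F.p) (τ : ℝ) where
  P : E → ℝ
  r : ℝ
  κ : ℝ
  κ' : ℝ
  r_pos : 0 < r
  κ_pos : 0 < κ
  κ'_pos : 0 < κ'
  sub : closedBall t r ⊆ ball T.t₁ T.r
  sm : ∀ y, C.SmAt P y
  nonneg : ∀ y, 0 ≤ P y
  le_one : ∀ y, P y ≤ 1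
  inn : ∀ y ∈ T.U, ‖T.sh y - t‖ < r → P y = κ * nsq (T.sh y - t)
  out : ∀ y, ¬ (y ∈ T.U ∧ ‖T.sh y - t‖ < r) → κ' ≤ P y
  lpsh : ∀ γ a, LPsh (fun z => P (C.pt γ a z) * Real.exp (C.ρ a z / τ)) (C.B 4 a)

/-- **A10** at the point `z` of the chart `(γ, a)`: a well at a point spreads along the fibres. -/
def Tube.Prop10 (T : Tube F) (γ : Γ) (a : C.I) (z : Cm n) (CF c S₀ : ℝ) : Prop :=
  ∀ (β : ℝ) (u : E → ℝ) (X S : ℝ), 0 ≤ β → QP C β u T.U → LB u T.U → S₀ ≤ S →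
    (∀ z' ∈ closedBall z (Real.exp (-S / 2)), u (C.pt γ a z') ≤ -X) →
    ∀ y ∈ T.U, ‖T.sh y - T.sh (C.pt γ a z)‖ ≤ c * Real.exp (-S / 2) → u y ≤ -X + CF * β * S

/-- **A10** -/
def A10St : Prop :=
  ∀ (n : ℕ) (Γ E : Type) [Group Γ] [TopologicalSpace E] [T2Space E] [MulAction Γ E]
    (C : Cov n Γ E) (F : Fol C) (T : Tube F) (γ : Γ) (a : C.I), ∀ z ∈ C.B 4 a, C.pt γ a z ∈ T.U →
    ∃ CF c S₀ : ℝ, 0 ≤ CF ∧ 0 < c ∧ 1 ≤ S₀ ∧ T.Prop10 γ a z CF c S₀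

/-- the small tubes cover almost all of `E` -/
def Covers (T : ℕ → Tube F) : Prop := ∀ γ a, ∀ᵐ z, z ∈ C.B 4 a →
  ∃ i, C.pt γ a z ∈ (T i).U ∧ ‖(T i).sh (C.pt γ a z) - (T i).t₁‖ < (T i).r / 8

/-- the output of the block A -/
def AOut (C : Cov n Γ E) : Prop :=
  ∃ (F : Fol C) (T : ℕ → Tube F), Covers T ∧
    ∀ i, ∀ᵐ t, t ∈ ball (T i).t₁ (T i).r → ∀ τ > (0 : ℝ), Nonempty (Sesh (T i) t τ)

/-! ### internal interfaces of the block A -/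

/-- the classes of the tower do not meet the fibres near the fibre of `x` -/
def Tube.Gen (T : Tube F) (W : Tw C) (x : E) : Prop :=
  ∀ k, ∃ r' > (0 : ℝ), ∀ y ∈ T.U, ‖T.sh y - T.sh x‖ < r' → W.R k x y → T.sh y = T.sh x

/-- **A9**: tubes -/
def A9St : Prop :=
  ∀ (n : ℕ) (Γ E : Type) [Group Γ] [Countable Γ] [TopologicalSpace E] [T2Space E]
    [ConnectedSpace E] [MulAction Γ E] (C : Cov n Γ E) (W : Tw C), TFol W →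
    ∃ (F : Fol C) (T : ℕ → Tube F), Covers T ∧
      ∀ i, ∀ᵐ t, t ∈ ball (T i).t₁ (T i).r → ∃ x ∈ (T i).U, (T i).sh x = t ∧ (T i).Gen W x

/-- `φ S` has a well of depth `τ S` on the ball of radius `exp (-S / 2)` -/
structure Well (C : Cov n Γ E) (τ M S₀ : ℝ) (γ : Γ) (a : C.I) (z : Cm n) (φ : ℝ → E → ℝ) :
    Prop where
  sm : ∀ S, S₀ ≤ S → ∀ y, C.SmAt (φ S) y
  psd : ∀ S, S₀ ≤ S → ∀ γ' b, ∀ w ∈ C.B 4 b, (C.om 1 (φ S) γ' b w).PosSemidef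
  ge : ∀ S, S₀ ≤ S → ∀ y, -((τ + n) * S) - M ≤ φ S y
  le : ∀ S, S₀ ≤ S → ∀ y, φ S y ≤ 0
  deep : ∀ S, S₀ ≤ S → ∀ z' ∈ closedBall z (Real.exp (-S / 2)), φ S (C.pt γ a z') ≤ -(τ * S) + M

/-- every point has wells, and their secondary wells are at related points -/
def Wells (W : Tw C) : Prop :=
  ∀ τ K : ℝ, 1 ≤ τ → 1 ≤ K → ∃ k : ℕ, ∀ γ a, ∀ z ∈ C.B 1 a, ∃ (φ : ℝ → E → ℝ) (M S₀ : ℝ),
    Well C τ M S₀ γ a z φ ∧ ∀ γ' b, ∀ w ∈ C.B 2 b,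
      (∀ δ > (0 : ℝ), ∀ S₁ : ℝ, ∃ S ≥ S₁, ∃ w' ∈ ball w δ,
        ∀ w'' ∈ closedBall w' (Real.exp (-(K * S) / 2)), φ S (C.pt γ' b w'') ≤ -S) →
      W.R k (C.pt γ a z) (C.pt γ' b w)

/-- **A11**: Seshadri functions -/
def A11St : Prop :=
  ∀ (n : ℕ) (Γ E : Type) [Group Γ] [Countable Γ] [TopologicalSpace E] [T2Space E] [MulAction Γ E]
    (C : Cov n Γ E) (W : Tw C), Wells W → ∀ (F : Fol C) (T : Tube F), ∀ x ∈ T.U, T.Gen W x →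
    ∀ τ > (0 : ℝ), Nonempty (Sesh T (T.sh x) τ)

theorem aOut_of (h8 : A8St) (h9 : A9St) (h11 : A11St) [Countable Γ] [Infinite Γ] [T2Space E]
    [ConnectedSpace E] (W : Tw C) (hW : Wells W) : AOut C := by
  obtain ⟨Φ⟩ := h8 n Γ E C W
  obtain ⟨F, T, h1, h2⟩ := h9 n Γ E C W Φ
  refine ⟨F, T, h1, fun i => (h2 i).mono fun t ht hb τ hτ => ?_⟩
  obtain ⟨x, hx, rfl, hg⟩ := ht hb
  exact h11 n Γ E C W hW F (T i) x hx hg τ hτ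

end Vale.Agent.P284Y.A
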