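import Vale.Agent.P284Y.A.In
import Vale.Agent.P284Y.A.Out

/-!
# P284Y, block A: the pieces of the rows A7 and A11
-/

open scoped Topology ENNReal ComplexOrder
open Filter Set Metric MeasureTheory

noncomputable section

namespace Vale.Agent.P284Y.A

open Vale.Agent.P272.K Vale.Agent.P284Z Vale.Agent.P284Y.Lib

/-- **A7**: the wells of functions with bounded mass stay in a compact set -/
def A7St : Prop :=
  ∀ (n : ℕ) (Γ E : Type) [Group Γ] [Countable Γ] [TopologicalSpace E] [T2Space E] [MulAction Γ E]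
    [MeasurableSpace E] [BorelSpace E] (C : Cov n Γ E) (μ : Measure E) (φ : ℝ → E → ℝ) (e : ℝ)
    (M : ℝ≥0∞), C.Vol μ → 0 < e → M < ⊤ →
    (∀ᶠ s in atTop, (QE C).SP (φ s) univ ∧ (∀ y, φ s y ≤ 0) ∧ μ {y | φ s y < -1} ≤ M) →
    ∃ K : Set E, IsCompact K ∧ ∀ γ b, ∀ w ∈ C.B 1 b, (∀ᶠ s in atTop, ∀ v : Cm n,
      ‖v - w‖ ≤ Real.exp (-s / 2) → φ s (C.pt γ b v) ≤ -(e * s)) → C.pt γ b w ∈ K

/-- **ATTG**: the supremum over balls of radius `r`, as a global smooth function -/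
def AttGSt : Prop :=
  ∀ (n : ℕ) (Γ E : Type) [Group Γ] [Countable Γ] [TopologicalSpace E] [T2Space E] [MulAction Γ E]
    (C : Cov n Γ E), ∃ M₀ δ₀ c₀ : ℝ, 0 ≤ M₀ ∧ 0 < δ₀ ∧ 0 < c₀ ∧ ∀ (φ : E → ℝ) (D r : ℝ), 0 < r →
    r ≤ δ₀ → QP C 1 φ univ → (∀ y, -D ≤ φ y ∧ φ y ≤ 0) → D + M₀ ≤ c₀ * Real.log (δ₀ / r) →
    ∃ g : E → ℝ, (∀ y, C.SmAt g y) ∧ (∀ γ a, ∀ z ∈ C.B 4 a, (C.om 2 g γ a z).PosSemidef) ∧
      ∀ γ a, ∀ z ∈ C.B 2 a, (∀ z' ∈ closedBall z r, φ (C.pt γ a z') - M₀ ≤ g (C.pt γ a z)) ∧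
        ∀ A, (∀ z' ∈ closedBall z (2 * r), φ (C.pt γ a z') ≤ A) → g (C.pt γ a z) ≤ A + M₀

variable {n : ℕ} {Γ E : Type} [Group Γ] [TopologicalSpace E] [MulAction Γ E] {C : Cov n Γ E}
  {F : Fol C}

/-- a function which is much smaller near the fibre over `t` than on a shell around it -/
def SepG (T : Tube F) (t : Cm F.p) (τ B : ℝ) : Prop :=
  ∃ (r ε lo L : ℝ) (g : E → ℝ), 0 < ε ∧ ε < r / 2 ∧ closedBall t r ⊆ ball T.t₁ T.r ∧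
    (∀ y, C.SmAt g y) ∧ (∀ γ a, ∀ z ∈ C.B 4 a, (C.om 2 g γ a z).PosSemidef) ∧ (∀ y, |g y| ≤ L) ∧
    (∀ y ∈ T.U, r / 2 ≤ ‖T.sh y - t‖ → ‖T.sh y - t‖ ≤ r → lo ≤ g y) ∧
    ∀ y ∈ T.U, ‖T.sh y - t‖ ≤ ε → g y ≤ lo + 2 * τ * Real.log (ε / r) - B

/-- **A11a** -/
def A11aSt : Prop :=
  ∀ (n : ℕ) (Γ E : Type) [Group Γ] [Countable Γ] [TopologicalSpace E] [T2Space E] [MulAction Γ E]
    (C : Cov n Γ E) (W : Tw C), Wells W → ∀ (F : Fol C) (T : Tube F), ∀ x ∈ T.U, T.Gen W x →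
    ∀ τ B : ℝ, SepG T (T.sh x) τ B

/-- **A11b** -/
def A11bSt : Prop :=
  ∀ (n : ℕ) (Γ E : Type) [Group Γ] [Countable Γ] [TopologicalSpace E] [T2Space E] [MulAction Γ E]
    (C : Cov n Γ E) (F : Fol C) (T : Tube F) (t : Cm F.p), (∀ τ B : ℝ, SepG T t τ B) →
    ∀ τ > (0 : ℝ), Nonempty (Sesh T t τ)

theorem a11_of (ha : A11aSt) (hb : A11bSt) : A11St := fun n Γ E _ _ _ _ _ C W hW F T x hx hg =>
  hb n Γ E C F T _ (ha n Γ E C W hW F T x hx hg)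

end Vale.Agent.P284Y.A
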