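import Vale.Agent.P284Y.GenSpec
import Vale.Agent.P284Y.Lib.TM
import Vale.Agent.P284Y.A.In
import Vale.Agent.P284Y.A.Out

/-!
# P284Y, block A, rows A0 - A5: definitions and statements

Point masses `del`, geometric facts `G1`, `G2`, `G3`, facts on the equation `L1`, `LP`, `MT2`, the
continuous family `AT` and its properties `ATp`.
-/

open scoped ContDiff Topology ComplexOrder ENNReal Matrix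
open Filter Set Function Metric MeasureTheory

noncomputable section

namespace Vale.Agent.P284Y.A

open Vale.Agent.P272.K Vale.Agent.P284Z Vale.Agent.P284Z.J Vale.Agent.P284Y.Lib

variable {n : ℕ} {Γ E : Type} [Group Γ] [TopologicalSpace E] [MulAction Γ E]

/-- `ψ ≤ -X` on the polydisc of radius `exp (-s / 2)` -/
def Dp (C : Cov n Γ E) (ψ : E → ℝ) (X : ℝ) (i : Γ × C.I) (z : Cm n) (s : ℝ) : Prop :=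
  ∀ w : Cm n, ‖w - z‖ ≤ Real.exp (-s / 2) → ψ (C.pt i.1 i.2 w) ≤ -X

/-- the homothety of ratio `exp (-s / 2)` -/
def sc (n : ℕ) (s : ℝ) : Mx n := ((Real.exp (-s / 2) : ℝ) : ℂ) • (1 : Mx n)

/-- the bump probability density on the euclidean ball of radius `exp (-s / 2)` -/
def del (C : Cov n Γ E) (i : Γ × C.I) (z : Cm n) (s : ℝ) : E → ℝ :=
  (QE C).pm i z (sc n s) (bmp n (1 / 2))

/-- smooth non positive `ω`-plurisubharmonic functions on `E` -/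
def NP (C : Cov n Γ E) (ψ : E → ℝ) : Prop := (QE C).SP ψ univ ∧ ∀ y, ψ y ≤ 0

/-- the energy of a pole of order `c` -/
def g0 (n : ℕ) (c : ℝ) : ℝ := mR n * c ^ (n + 1) / (n + 1)

/-! ### geometry -/

/-- constants of the covering, point masses -/
structure G1 (C : Cov n Γ E) [MeasurableSpace E] (μ : Measure E) (s₀ M : ℝ) : Prop where
  s₀_ge : 2 ≤ s₀
  M_ge : 1 ≤ M
  ball : ∀ a, ∀ z ∈ C.B 3 a, closedBall z (4 * Real.exp (-s₀ / 2)) ⊆ C.cB (7 / 2) a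
  rho : ∀ a, ∀ z ∈ C.cB (7 / 2) a, |C.ρ a z| ≤ M
  vol : ∀ i : Γ × C.I, ∀ z ∈ C.cB (7 / 2) i.2,
    Real.exp (-M) ≤ (QE C).vol i z ∧ (QE C).vol i z ≤ Real.exp M
  hess : ∀ a, ∀ z ∈ C.cB (7 / 2) a,
    (Matrix.diagonal (fun _ => ((M : ℝ) : ℂ)) - cHess (C.ρ a) z).PosSemidef ∧
      (cHess (C.ρ a) z - ((M⁻¹ : ℝ) : ℂ) • (1 : Mx n)).PosSemidef
  inn : ∀ i : Γ × C.I, ∀ z ∈ C.B 3 i.2, ∀ s, s₀ < s → (QE C).In i z (sc n s)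
  dens : ∀ i : Γ × C.I, ∀ z ∈ C.B 3 i.2, ∀ s, s₀ < s → (QE C).Dens (del C i z s)
  int : ∀ i : Γ × C.I, ∀ z ∈ C.B 3 i.2, ∀ s, s₀ < s → ∫ y, del C i z s y ∂μ = 1
  supp : ∀ i : Γ × C.I, ∀ z ∈ C.B 3 i.2, ∀ s, s₀ < s → ∀ y, del C i z s y ≠ 0 →
    ∃ w, nsq (w - z) < Real.exp (-s) ∧ ‖w - z‖ < Real.exp (-s / 2) ∧ y = C.pt i.1 i.2 w
  le : ∀ i : Γ × C.I, ∀ z ∈ C.B 3 i.2, ∀ s, s₀ < s → ∀ y, del C i z s y ≤ Real.exp (n * s + M)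
  ge : ∀ i : Γ × C.I, ∀ z ∈ C.B 3 i.2, ∀ s, s₀ < s → ∀ w, nsq (w - z) ≤ Real.exp (-s) / 2 →
    Real.exp (n * s - M) ≤ del C i z s (C.pt i.1 i.2 w)
  inv : ∀ (δ : Γ) (i : Γ × C.I), ∀ z ∈ C.B 3 i.2, ∀ s, s₀ < s → ∀ y,
    del C (δ * i.1, i.2) z s (δ • y) = del C i z s y
  /-- integrals against `del` and integrals in the chart -/
  lint_le : ∀ i : Γ × C.I, ∀ z ∈ C.B 3 i.2, ∀ s, s₀ < s → ∀ f : E → ℝ≥0∞, Measurable f →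
    ∫⁻ y, f y * ENNReal.ofReal (del C i z s y) ∂μ ≤ ENNReal.ofReal (Real.exp (n * s + M)) *
      ∫⁻ w in Metric.ball z (Real.exp (-s / 2)), f (C.pt i.1 i.2 w)
  lint_ge : ∀ i : Γ × C.I, ∀ z ∈ C.B 3 i.2, ∀ s, s₀ < s → ∀ f : E → ℝ≥0∞, Measurable f →
    ENNReal.ofReal (Real.exp (n * s - M)) *
      ∫⁻ w in {w | nsq (w - z) ≤ Real.exp (-s) / 2}, f (C.pt i.1 i.2 w) ≤
        ∫⁻ y, f y * ENNReal.ofReal (del C i z s y) ∂μ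
  /-- the support of a close point mass, seen in the patch `i` -/
  cl : ∃ K s₁ : ℝ, 0 ≤ K ∧ ∀ i : Γ × C.I, ∀ z ∈ C.B 3 i.2, ∀ i' : Γ × C.I, ∀ z' ∈ C.B 3 i'.2, ∀ s,
    s₀ < s → s₁ ≤ s → Cl C s i z i' z' → ∀ y, del C i' z' s y ≠ 0 →
      ∃ w, ‖w - z‖ ≤ Real.exp (-(s - K) / 2) ∧ y = C.pt i.1 i.2 w

/-- three circles, sub-mean property, inequality of Chebyshev -/
structure G2 (C : Cov n Γ E) [MeasurableSpace E] (μ : Measure E) (s₀ : ℝ) : Prop where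
  up : ∃ M ≥ (0 : ℝ), ∀ ψ, NP C ψ → ∀ i : Γ × C.I, ∀ z ∈ C.B 3 i.2, ∀ s, s₀ < s → ∀ X ≥ (0 : ℝ),
    ∫ y, Real.exp (ψ y) * del C i z s y ∂μ ≤ Real.exp (-X) →
    ∀ t ≤ s, Dp C ψ (X * t / s - M * (1 + X / s)) i z t
  cheb : ∃ M ≥ (0 : ℝ), ∀ ψ, NP C ψ → ∀ i : Γ × C.I, ∀ z ∈ C.B 3 i.2, ∀ s, s₀ < s → ∀ X K : ℝ,
    0 < K → ¬ Dp C ψ X i z s →
    ∫⁻ y in {y | ψ y < -(K * (X + 1))}, ENNReal.ofReal (del C i z s y) ∂μ ≤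
      ENNReal.ofReal (M / K)

/-- global functions with a logarithmic pole of order at most `2 c₀` -/
def G3 (C : Cov n Γ E) (s₀ c₀ : ℝ) : Prop :=
  0 < c₀ ∧ c₀ ≤ 1 ∧ ∀ i : Γ × C.I, ∀ z ∈ C.B 3 i.2, ∀ ε ∈ Ioc (0 : ℝ) (Real.exp (-s₀)),
    ∀ c ∈ Icc (0 : ℝ) c₀, ∃ P : E → ℝ, NP C P ∧ ∀ w, nsq (w - z) ≤ Real.exp (-s₀) / 2 →
      2 * c * Real.log ε ≤ P (C.pt i.1 i.2 w) ∧
      (2 * c) ^ n * (cHess (lg ε z) w).det.re ≤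
        (QE C).MA P (C.pt i.1 i.2 w) * (QE C).vol i w

/-! ### the equation -/

section eqn
variable [MeasurableSpace E] {C : Cov n Γ E} {μ : Measure E} (S : MAS (QE C) μ)

/-- sharp upper bound for the mass -/
def MU (s₀ : ℝ) : Prop :=
  ∀ τ ≥ (0 : ℝ), ∀ η > (0 : ℝ), ∃ D ≥ (0 : ℝ), ∀ i : Γ × C.I, ∀ z ∈ C.B 3 i.2, ∀ s, s₀ < s →
    ∀ ν, (QE C).Dens ν → ∀ lam κ : ℝ, 0 ≤ κ → κ ≤ τ → lam + D ≤ κ * s →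
      S.msl ν (del C i z s) lam ≤ mR n * κ ^ n + η

/-- domination by a function which is deep at the point mass -/
def DOM (s₀ : ℝ) : Prop :=
  ∀ t D : ℝ, 0 < t → t < 1 → ∃ M ≥ (0 : ℝ), ∀ τ ≥ (0 : ℝ), ∀ i : Γ × C.I, ∀ z ∈ C.B 3 i.2,
    ∀ s, s₀ < s → ∀ ψ, NP C ψ → Dp C ψ (((τ + n) * s - D) / t) i z s →
      ∀ y, t * ψ y - M ≤ S.φ (Real.exp (τ * s) • del C i z s) y

/-- first consequences of the equation -/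
structure L1 (s₀ : ℝ) : Prop where
  m1 : ∀ τ ≥ (0 : ℝ), ∃ m ≥ (1 : ℝ), ∀ i : Γ × C.I, ∀ z ∈ C.B 3 i.2, ∀ s, s₀ < s →
    ∀ ν, (QE C).Dens ν → ∀ lam ≤ τ * s, S.msl ν (del C i z s) lam ≤ m
  up : ∀ τ ≥ (0 : ℝ), ∃ M ≥ (0 : ℝ), ∀ i : Γ × C.I, ∀ z ∈ C.B 3 i.2, ∀ s, s₀ < s →
    ∀ ν, (QE C).Dens ν → ∀ lam ∈ Icc 0 (τ * s), Real.exp lam • del C i z s ≤ ν →
      ∀ t ≤ s, Dp C (S.φ ν) (lam * t / s - M) i z t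
  lo : ∃ M ≥ (0 : ℝ), ∀ τ ≥ (0 : ℝ), ∀ i : Γ × C.I, ∀ z ∈ C.B 3 i.2, ∀ j : Γ × C.I,
    ∀ w ∈ C.B 3 j.2, ∀ s, s₀ < s → ∀ ν, (QE C).Dens ν →
      ν ≤ Real.exp (τ * s) • del C i z s + Real.exp (τ * s) • del C j w s →
      ∀ y, -((τ + n) * s) - M ≤ S.φ ν y
  move : ∀ τ ≥ (0 : ℝ), ∃ M ≥ (0 : ℝ), ∀ i : Γ × C.I, ∀ z ∈ C.B 3 i.2, ∀ i' : Γ × C.I,
    ∀ z' ∈ C.B 3 i'.2, ∀ s, s₀ < s → Cl C s i z i' z' → ∀ ν, (QE C).Dens ν →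
      ∀ lam ∈ Icc 0 (τ * s),
        S.G (ν + Real.exp lam • del C i' z' s) ≤ S.G (ν + Real.exp lam • del C i z s) + M
  /-- shift of the weight -/
  shift : ∀ τ ≥ (0 : ℝ), ∃ m ≥ (1 : ℝ), ∀ i : Γ × C.I, ∀ z ∈ C.B 3 i.2, ∀ s, s₀ < s →
    ∀ ν, (QE C).Dens ν → ∀ lam lam' : ℝ, lam' ≤ lam → lam ≤ τ * s →
      S.G (ν + Real.exp lam • del C i z s) ≤
        S.G (ν + Real.exp lam' • del C i z s) + m * (lam - lam') ∧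
      (0 ≤ lam → S.G (ν + Real.exp lam • del C i z s) ≤ S.G ν + m * (lam + 1))
  /-- sharp upper bound for the energy -/
  gu : ∀ c ≥ (0 : ℝ), ∀ η > (0 : ℝ), ∃ M : ℝ, ∀ i : Γ × C.I, ∀ z ∈ C.B 3 i.2, ∀ s, s₀ < s →
    S.G (Real.exp (c * s) • del C i z s) ≤ (g0 n c + η) * s + M

/-- the energy of one point mass -/
def gE (τ : ℝ) (i : Γ × C.I) (z : Cm n) (s : ℝ) : ℝ := S.G (Real.exp (τ * s) • del C i z s)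

/-- the energy of two point masses -/
def JE (c τ : ℝ) (i : Γ × C.I) (z : Cm n) (j : Γ × C.I) (w : Cm n) (s : ℝ) : ℝ :=
  S.G (Real.exp (τ * s) • del C i z s + Real.exp (c * s) • del C j w s)

/-- plurisubharmonic variation -/
structure LP (s₀ : ℝ) : Prop where
  g_psh : ∀ τ ≥ (0 : ℝ), ∀ i : Γ × C.I, ∃ (κ : Cm n → ℝ → ℝ) (M : ℝ),
    (∀ z ∈ C.B 3 i.2, ∀ s, s₀ < s → |κ z s| ≤ M) ∧
    Psh (fun q : Cm n × ℂ => gE S τ i q.1 q.2.re + κ q.1 q.2.re) (C.B 3 i.2 ×ˢ {t | s₀ < t.re})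
  J_psh : ∀ c ≥ (0 : ℝ), ∀ τ ≥ (0 : ℝ), ∀ i j : Γ × C.I, ∃ (κ : Cm n × Cm n → ℝ → ℝ) (M : ℝ),
    (∀ q ∈ C.B 3 i.2 ×ˢ C.B 3 j.2, ∀ s, s₀ < s → |κ q s| ≤ M) ∧
    Psh (fun q : (Cm n × Cm n) × ℂ => JE S c τ i q.1.1 j q.1.2 q.2.re + κ q.1 q.2.re)
      ((C.B 3 i.2 ×ˢ C.B 3 j.2) ×ˢ {t | s₀ < t.re})

/-- transfer of mass from a barrier `(1 - t) u + t ψ`, where `ψ` is not deep at the point mass -/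
def MT2 (s₀ : ℝ) : Prop :=
  ∃ M ≥ (0 : ℝ), ∀ η > (0 : ℝ), ∀ m D : ℝ, ∃ d ≥ (0 : ℝ), ∀ i : Γ × C.I, ∀ z ∈ C.B 3 i.2, ∀ s,
    s₀ < s → ∀ (ν u ψ h : E → ℝ) (t H X K lam lam' : ℝ), (QE C).Dens ν → NP C u → NP C ψ →
    0 ≤ t → t ≤ 1 → 0 ≤ H → 0 < K → ¬ Dp C ψ X i z s →
    (∀ y, h y ≤ (1 - t) ^ n * (QE C).MA u y) → (∀ y, h y ≤ H * del C i z s y) →
    (∀ y, h y ≤ Real.exp ((1 - t) * u y + lam') * del C i z s y) →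
    (∀ y, ν y ≠ 0 → t * ψ y ≤ S.φ (ν + Real.exp lam • del C i z s) y + D) →
    S.ms (ν + Real.exp lam • del C i z s) (ν + Real.exp lam • del C i z s) ≤ m →
    lam' + t * (K * (X + 1)) + d ≤ lam →
    ∫⁻ y, ENNReal.ofReal (h y) ∂μ ≤
      ENNReal.ofReal ((1 + η) * S.msl ν (del C i z s) lam + η + H * (M / K))

/-- lower bound for the increment of the energy, for a small pole (row A2) -/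
def GL2 (s₀ c₀ : ℝ) : Prop :=
  ∀ η > (0 : ℝ), ∃ e > (0 : ℝ), ∀ m D : ℝ, ∃ M : ℝ, ∀ c ∈ Icc (0 : ℝ) c₀, ∀ i : Γ × C.I,
    ∀ z ∈ C.B 3 i.2, ∀ s, s₀ < s → ∀ ν ψ : E → ℝ, (QE C).Dens ν → NP C ψ →
    ¬ Dp C ψ (e * s) i z s → S.ms ν ν ≤ m →
    (∀ y, ν y ≠ 0 → ψ y / 2 ≤ S.φ (ν + Real.exp (c * s) • del C i z s) y + D) →
    (g0 n c - η) * s - M ≤ S.G (ν + Real.exp (c * s) • del C i z s) - S.G ν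

/-- lower bound for the increment of the energy, for a large pole (row A3) -/
def GL3 (s₀ : ℝ) : Prop :=
  ∀ η > (0 : ℝ), ∀ τ ≥ (0 : ℝ), ∃ t ∈ Ioo (0 : ℝ) 1, ∃ e > (0 : ℝ), ∀ m D : ℝ, ∃ M : ℝ,
    ∀ i : Γ × C.I, ∀ z ∈ C.B 3 i.2, ∀ s, s₀ < s → ∀ ν ψ : E → ℝ, (QE C).Dens ν → NP C ψ →
    ¬ Dp C ψ (e * s) i z s → S.ms ν ν ≤ m →
    (∀ y, ν y ≠ 0 → t * ψ y ≤ S.φ (ν + Real.exp (τ * s) • del C i z s) y + D) →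
    S.G (Real.exp (τ * s) • del C i z s) - η * s - M ≤
      S.G (ν + Real.exp (τ * s) • del C i z s) - S.G ν

end eqn

/-! ### the continuous family -/

/-- the data, for all the slopes `τ` -/
structure AT (C : Cov n Γ E) where
  s₀ : ℝ
  g₀ : ℝ
  φ : ℝ → Γ × C.I → Cm n → ℝ → E → ℝ
  g : ℝ → Γ × C.I → Cm n → ℝ → ℝ
  J : ℝ → Γ × C.I → Cm n → Γ × C.I → Cm n → ℝ → ℝ

/-- the rows A0 - A5 -/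
structure ATp {C : Cov n Γ E} (T : AT C) [MeasurableSpace E] (μ : Measure E) : Prop where
  s₀_ge : 1 ≤ T.s₀
  np : ∀ τ i, ∀ z ∈ C.B 3 i.2, ∀ s, T.s₀ < s → NP C (T.φ τ i z s)
  lo : ∃ M : ℝ, ∀ τ ≥ (1 : ℝ), ∀ i, ∀ z ∈ C.B 3 i.2, ∀ s, T.s₀ < s → ∀ y,
    -((τ + n) * s) - M ≤ T.φ τ i z s y
  up : ∀ τ ≥ (1 : ℝ), ∃ M : ℝ, ∀ i, ∀ z ∈ C.B 3 i.2, ∀ s, T.s₀ < s → ∀ t ≤ s,
    Dp C (T.φ τ i z s) (τ * t - M) i z t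
  dom : ∀ t D : ℝ, 0 < t → t < 1 → ∃ M : ℝ, ∀ τ ≥ (1 : ℝ), ∀ i, ∀ z ∈ C.B 3 i.2, ∀ s, T.s₀ < s →
    ∀ ψ, NP C ψ → Dp C ψ (((τ + n) * s - D) / t) i z s → ∀ y, t * ψ y - M ≤ T.φ τ i z s y
  vol : ∀ τ ≥ (1 : ℝ), ∃ M < (⊤ : ℝ≥0∞), ∀ i, ∀ z ∈ C.B 3 i.2, ∀ s, T.s₀ < s →
    μ {y | T.φ τ i z s y < -1} ≤ M
  g_bd : ∀ τ ≥ (1 : ℝ), ∃ L : ℝ, ∀ i, ∀ z ∈ C.B 3 i.2, ∀ s, T.s₀ < s →
    0 ≤ T.g τ i z s ∧ T.g τ i z s ≤ L * s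
  J_bd : ∀ τ ≥ (1 : ℝ), ∃ L : ℝ, ∀ i, ∀ z ∈ C.B 3 i.2, ∀ j, ∀ w ∈ C.B 3 j.2, ∀ s, T.s₀ < s →
    0 ≤ T.J τ i z j w s ∧ T.J τ i z j w s ≤ L * s
  g_psh : ∀ τ ≥ (1 : ℝ), ∀ i, ∃ (κ : Cm n → ℝ → ℝ) (M : ℝ),
    (∀ z ∈ C.B 3 i.2, ∀ s, T.s₀ < s → |κ z s| ≤ M) ∧
    Psh (fun q : Cm n × ℂ => T.g τ i q.1 q.2.re + κ q.1 q.2.re) (C.B 3 i.2 ×ˢ {t | T.s₀ < t.re})
  J_psh : ∀ τ ≥ (1 : ℝ), ∀ i j, ∃ (κ : Cm n × Cm n → ℝ → ℝ) (M : ℝ),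
    (∀ q ∈ C.B 3 i.2 ×ˢ C.B 3 j.2, ∀ s, T.s₀ < s → |κ q s| ≤ M) ∧
    Psh (fun q : (Cm n × Cm n) × ℂ => T.J τ i q.1.1 j q.1.2 q.2.re + κ q.1 q.2.re)
      ((C.B 3 i.2 ×ˢ C.B 3 j.2) ×ˢ {t | T.s₀ < t.re})
  g_inv : ∀ τ (δ : Γ) i, ∀ z ∈ C.B 3 i.2, ∀ s, T.s₀ < s → T.g τ (δ * i.1, i.2) z s = T.g τ i z s
  J_inv : ∀ τ (δ : Γ) i, ∀ z ∈ C.B 3 i.2, ∀ j, ∀ w ∈ C.B 3 j.2, ∀ s, T.s₀ < s →
    T.J τ (δ * i.1, i.2) z (δ * j.1, j.2) w s = T.J τ i z j w s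
  g_move : ∀ τ ≥ (1 : ℝ), ∃ M : ℝ, ∀ i, ∀ z ∈ C.B 3 i.2, ∀ i', ∀ z' ∈ C.B 3 i'.2, ∀ s, T.s₀ < s →
    Cl C s i z i' z' → T.g τ i' z' s ≤ T.g τ i z s + M
  J_move : ∀ τ ≥ (1 : ℝ), ∃ M : ℝ, ∀ i, ∀ z ∈ C.B 3 i.2, ∀ i', ∀ z' ∈ C.B 3 i'.2, ∀ j,
    ∀ w ∈ C.B 3 j.2, ∀ j', ∀ w' ∈ C.B 3 j'.2, ∀ s, T.s₀ < s → Cl C s i z i' z' →
    Cl C s j w j' w' → T.J τ i' z' j' w' s ≤ T.J τ i z j w s + M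
  sub : ∀ τ τ' : ℝ, 1 ≤ τ → τ ≤ τ' → ∀ i, ∀ z ∈ C.B 3 i.2, ∀ j, ∀ w ∈ C.B 3 j.2, ∀ s, T.s₀ < s →
    T.J τ' i z j w s - T.g τ' i z s ≤ T.J τ i z j w s - T.g τ i z s
  a1 : ∀ e > (0 : ℝ), ∃ a > (0 : ℝ), ∃ M : ℝ, ∀ τ i, ∀ z ∈ C.B 3 i.2, ∀ j, ∀ w ∈ C.B 3 j.2, ∀ s,
    T.s₀ < s → Dp C (T.φ τ i z s) (e * s) j w s →
      T.J τ i z j w s ≤ T.g τ i z s + (T.g₀ - a) * s + M
  a2 : ∀ a > (0 : ℝ), ∃ e > (0 : ℝ), ∀ τ ≥ (1 : ℝ), ∃ M : ℝ, ∀ i, ∀ z ∈ C.B 3 i.2, ∀ j,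
    ∀ w ∈ C.B 3 j.2, ∀ s, T.s₀ < s → ¬ Dp C (T.φ (2 * (τ + n)) i z s) (e * s) j w s →
      T.g τ i z s + (T.g₀ - a) * s - M ≤ T.J τ i z j w s
  a3 : ∀ a > (0 : ℝ), ∀ τ ≥ (1 : ℝ), ∃ τ' ≥ (1 : ℝ), ∃ e > (0 : ℝ), ∃ M : ℝ, ∀ i,
    ∀ z ∈ C.B 3 i.2, ∀ j, ∀ w ∈ C.B 3 j.2, ∀ s, T.s₀ < s →
      ¬ Dp C (T.φ τ' j w s) (e * s) i z s → T.g τ i z s + (T.g₀ - a) * s - M ≤ T.J τ i z j w s

/-! ### the rows -/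

/-- a statement on all the coverings -/
def AllC (P : ∀ (n : ℕ) (Γ E : Type) [Group Γ] [TopologicalSpace E] [MulAction Γ E]
    [MeasurableSpace E] (_ : Cov n Γ E) (_ : Measure E), Prop) : Prop :=
  ∀ (n : ℕ) (Γ E : Type) [Group Γ] [Countable Γ] [TopologicalSpace E] [T2Space E] [MulAction Γ E]
    [MeasurableSpace E] [BorelSpace E] (C : Cov n Γ E) (μ : Measure E), 1 ≤ n → P n Γ E C μ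

def StG1 : Prop := BM → AllC fun _ _ _ _ _ _ _ C μ => PG (QE C) μ → ∃ s₀ M, G1 C μ s₀ M

def StG2 : Prop := AllC fun _ _ _ _ _ _ _ C μ => PG (QE C) μ → ∀ s₀ M, G1 C μ s₀ M → G2 C μ s₀

def StG3 : Prop :=
  AllC fun _ _ _ _ _ _ _ C μ => PG (QE C) μ → ∀ s₀ M, G1 C μ s₀ M → ∃ c₀, G3 C s₀ c₀

def StMU : Prop := AllC fun _ _ _ _ _ _ _ C μ => ∀ S : MAS (QE C) μ, Gen S →
  ∀ s₀ M, G1 C μ s₀ M → MU S s₀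

def StDOM : Prop := AllC fun _ _ _ _ _ _ _ C μ => ∀ S : MAS (QE C) μ, Gen S →
  ∀ s₀ M, G1 C μ s₀ M → DOM S s₀

def StL1 : Prop := AllC fun _ _ _ _ _ _ _ C μ => ∀ S : MAS (QE C) μ, Gen S →
  ∀ s₀ M, G1 C μ s₀ M → G2 C μ s₀ → MU S s₀ → L1 S s₀

def StLP : Prop := BM → AllC fun _ _ _ _ _ _ _ C μ => ∀ S : MAS (QE C) μ, Gen S →
  ∀ s₀ M, G1 C μ s₀ M → L1 S s₀ → LP S s₀

def StMT2 : Prop := AllC fun _ _ _ _ _ _ _ C μ => ∀ S : MAS (QE C) μ, Gen S →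
  ∀ s₀ M, G1 C μ s₀ M → G2 C μ s₀ → MT2 S s₀

def StGL2 : Prop := AllC fun _ _ _ _ _ _ _ C μ => ∀ S : MAS (QE C) μ, Gen S →
  ∀ s₀ M c₀, G1 C μ s₀ M → G3 C s₀ c₀ → L1 S s₀ → MT2 S s₀ → GL2 S s₀ c₀

def StGL3 : Prop := AllC fun _ _ _ _ _ _ _ C μ => ∀ S : MAS (QE C) μ, Gen S →
  ∀ s₀ M, G1 C μ s₀ M → L1 S s₀ → MT2 S s₀ → GL3 S s₀

def StAT : Prop := StQE → AllC fun _ _ _ _ _ _ _ C μ => ∀ S : MAS (QE C) μ, Gen S →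
  ∀ s₀ M c₀, G1 C μ s₀ M → 0 < c₀ → c₀ ≤ 1 → DOM S s₀ → L1 S s₀ → LP S s₀ → GL2 S s₀ c₀ →
    GL3 S s₀ → ∃ T : AT C, ATp T μ

def StAD : Prop := AllC fun _ _ _ _ _ _ _ C μ => ∀ T : AT C, ATp T μ →
  ∃ D : AD C, AIn D μ ∧ ∀ W : Tw C, W.R = D.R → Wells W

/-- **the block A** -/
def StA : Prop :=
  ∀ (n : ℕ) (Γ E : Type) [Group Γ] [Countable Γ] [Infinite Γ] [TopologicalSpace E] [T2Space E]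
    [ConnectedSpace E] [MulAction Γ E] [MeasurableSpace E] [BorelSpace E] (C : Cov n Γ E)
    (μ : Measure E) (S : MAS (QE C) μ), 1 ≤ n → Gen S → AOut C

theorem stA_of (hB : BM) (hQ : StQE) (h1 : StG1) (h2 : StG2) (h3 : StG3) (hm : StMU) (hd : StDOM)
    (h4 : StL1) (h5 : StLP) (h6 : StMT2) (h7 : StGL2) (h8 : StGL3) (h9 : StAT) (h10 : StAD)
    (a6 : A6St) (a8 : A8St) (a9 : A9St) (a11 : A11St) : StA := by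
  intro n Γ E _ _ _ _ _ _ _ _ _ C μ S hn hG
  obtain ⟨s₀, M, g1⟩ := h1 hB n Γ E C μ hn hG.pg
  have g2 := h2 n Γ E C μ hn hG.pg s₀ M g1
  obtain ⟨c₀, g3⟩ := h3 n Γ E C μ hn hG.pg s₀ M g1
  have l1 := h4 n Γ E C μ hn S hG s₀ M g1 g2 (hm n Γ E C μ hn S hG s₀ M g1)
  have mt := h6 n Γ E C μ hn S hG s₀ M g1 g2
  obtain ⟨T, hT⟩ := h9 hQ n Γ E C μ hn S hG s₀ M c₀ g1 g3.1 g3.2.1
    (hd n Γ E C μ hn S hG s₀ M g1) l1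
    (h5 hB n Γ E C μ hn S hG s₀ M g1 l1) (h7 n Γ E C μ hn S hG s₀ M c₀ g1 g3 l1 mt)
    (h8 n Γ E C μ hn S hG s₀ M g1 l1 mt)
  obtain ⟨D, hD, hW⟩ := h10 n Γ E C μ hn T hT
  obtain ⟨W, e⟩ := a6 n Γ E C μ D (fun γ a => S.vol (γ, a)) hD
  exact aOut_of a8 a9 a11 W (hW W e)

end Vale.Agent.P284Y.A
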